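import Vale.Agent.P372.Zero.Slot

/-!
The certificate bound: a sum of tensor products that differ from a damping matrix in four modes.
In the adapted basis `false` is the fixed direction and `true` is the damped one.
-/

noncomputable section

open Finset

namespace Vale.Agent.P372.Zero

/-- The diagonal matrix with entries one and `r`. -/
def k0 (r : ℝ) : Matrix Bool Bool ℝ := Matrix.diagonal fun b => if b then r else 1

/-- The projection on the damped direction. -/
def projT : Matrix Bool Bool ℝ := Matrix.diagonal fun b => if b then 1 else 0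

variable {ι : Type} [Fintype ι] [DecidableEq ι] {E : Type} [NormedAddCommGroup E] [InnerProductSpace ℂ E]

/-- An operator on the values, applied pointwise. -/
def pointwise (G : E →ₗ[ℂ] E) : Fun2 ι E →ₗ[ℂ] Fun2 ι E where
  toFun v := WithLp.toLp 2 fun R => G (v R)
  map_add' v w := by ext R; simp
  map_smul' c v := by ext R; simp

omit [Fintype ι] [DecidableEq ι] in
@[simp] lemma pointwise_apply (G : E →ₗ[ℂ] E) (v : Fun2 ι E) (R : ι → Bool) : pointwise G v R = G (v R) := rfl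

lemma pointwise_act (G : E →ₗ[ℂ] E) (M : Matrix (ι → Bool) (ι → Bool) ℝ) (v : Fun2 ι E) :
    pointwise G (act M v) = act M (pointwise G v) := by
  ext R; simp [map_sum]

omit [InnerProductSpace ℂ E] in
lemma norm_le_of_pointwise {v w : Fun2 ι E} {c : ℝ} (hc : 0 ≤ c) (h : ∀ R, ‖v R‖ ≤ c * ‖w R‖) :
    ‖v‖ ≤ c * ‖w‖ := by
  refine pow_le_pow_iff_left₀ (norm_nonneg _) (by positivity) two_ne_zero |>.1 ?_
  rw [mul_pow, PiLp.norm_sq_eq_of_L2, PiLp.norm_sq_eq_of_L2, mul_sum]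
  exact sum_le_sum fun R _ => (pow_le_pow_left₀ (norm_nonneg _) (h R) 2).trans_eq (mul_pow _ _ _)

lemma act_diag {f : ι → Matrix Bool Bool ℝ} (hf : ∀ e a b, a ≠ b → f e a b = 0) (v : Fun2 ι E)
    (R : ι → Bool) : act (piK f) v R = ((∏ e, f e (R e) (R e) : ℝ) : ℂ) • v R := by
  rw [act_apply, sum_eq_single R (fun R' _ hne => ?_) (by simp)]
  · rfl
  · obtain ⟨e, he⟩ := Function.ne_iff.1 hne
    rw [show piK f R R' = 0 from prod_eq_zero (mem_univ e) (hf e _ _ (Ne.symm he)), Complex.ofReal_zero,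
      zero_smul]

lemma piK_update_add (f : ι → Matrix Bool Bool ℝ) (e : ι) (A B : Matrix Bool Bool ℝ) :
    piK (Function.update f e (A + B)) = piK (Function.update f e A) + piK (Function.update f e B) := by
  ext R R'
  simp only [piK, Matrix.add_apply, Matrix.of_apply, ← mul_prod_erase univ _ (mem_univ e),
    Function.update_self, add_mul]
  congr 2 <;> exact prod_congr rfl fun x hx => by
    rw [Function.update_of_ne (ne_of_mem_erase hx), Function.update_of_ne (ne_of_mem_erase hx)]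

/-- Four factors with entries at most one, one of them at most `δ`. -/
lemma norm_act_four {m₀ b₁ b₂ e : ι} (h : m₀ ≠ b₁ ∧ m₀ ≠ b₂ ∧ m₀ ≠ e ∧ b₁ ≠ b₂ ∧ b₁ ≠ e ∧ b₂ ≠ e)
    {A B₁ B₂ D : Matrix Bool Bool ℝ} {δ : ℝ} (hA : ∀ a b, |A a b| ≤ 1) (h₁ : ∀ a b, |B₁ a b| ≤ 1)
    (h₂ : ∀ a b, |B₂ a b| ≤ 1) (hD : ∀ a b, |D a b| ≤ δ) {g : ι → Matrix Bool Bool ℝ}
    (hg : ∀ x, g x = if x = m₀ then A else if x = b₁ then B₁ else if x = b₂ then B₂ else if x = e
      then D else 1) (v : Fun2 ι E) : ‖act (piK g) v‖ ≤ 16 * δ * ‖v‖ := by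
  have hδ : 0 ≤ δ := (abs_nonneg _).trans (hD true true)
  have e4 : piK g = piK (oneMode m₀ A) * (piK (oneMode b₁ B₁) * (piK (oneMode b₂ B₂) *
      piK (oneMode e D))) := by
    simp only [piK_mul]
    congr 1
    funext x
    rw [hg]
    obtain ⟨n1, n2, n3, n4, n5, n6⟩ := h
    simp only [oneMode, Function.update_apply]
    split_ifs <;> simp_all
  rw [e4, act_mul, act_mul, act_mul]
  refine (norm_act_oneMode _ hA _).trans ?_
  refine (mul_le_mul_of_nonneg_left ((norm_act_oneMode _ h₁ _).trans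
    (mul_le_mul_of_nonneg_left ((norm_act_oneMode _ h₂ _).trans
      (mul_le_mul_of_nonneg_left (norm_act_oneMode _ hD _) (by norm_num))) (by norm_num)))
    (by norm_num)).trans_eq ?_
  ring

/-- The weight left by the damped modes when mode `e` must be damped. -/
def guard (r : ℝ) (m₀ b₁ b₂ e : ι) : ι → Matrix Bool Bool ℝ := fun x =>
  if x = e then projT else if x = m₀ ∨ x = b₁ ∨ x = b₂ then 1 else k0 r

lemma guard_sq_le {r : ℝ} (hr : r ^ 2 ≤ 1 / 2) (m₀ b₁ b₂ e : ι) (v : Fun2 ι E) :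
    ‖act (piK (guard r m₀ b₁ b₂ e)) v‖ ^ 2 ≤ ∑ R : ι → Bool,
      (if R e = true then (r ^ 2) ^ ((univ.filter fun x => R x = true).card - 4) else 0) * ‖v R‖ ^ 2 := by
  have hd : ∀ x a b, a ≠ b → guard r m₀ b₁ b₂ e x a b = 0 := fun x a b hab => by
    unfold guard; split_ifs <;> simp [projT, k0, hab]
  rw [PiLp.norm_sq_eq_of_L2]
  refine sum_le_sum fun R _ => ?_
  rw [act_diag hd, norm_smul, mul_pow, Complex.norm_real, Real.norm_eq_abs, sq_abs]
  refine mul_le_mul_of_nonneg_right ?_ (sq_nonneg _)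
  split_ifs with hR
  · have hterm : ∀ x, (guard r m₀ b₁ b₂ e x (R x) (R x)) ^ 2 =
        if R x = true ∧ x ∉ ({e, m₀, b₁, b₂} : Finset ι) then r ^ 2 else 1 := fun x => by
      simp only [guard, mem_insert, mem_singleton]
      rcases Bool.eq_false_or_eq_true (R x) with hx | hx <;> split_ifs <;>
        simp_all [projT, k0]
    rw [← prod_pow, prod_congr rfl fun x _ => hterm x, ← prod_filter, prod_const]
    refine pow_le_pow_of_le_one (sq_nonneg r) (by linarith) ?_
    have : (univ.filter fun x => R x = true) \ ({e, m₀, b₁, b₂} : Finset ι) ⊆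
        univ.filter fun x => R x = true ∧ x ∉ ({e, m₀, b₁, b₂} : Finset ι) := fun x hx => by
      simp only [mem_sdiff, mem_filter, mem_univ, true_and] at hx ⊢
      exact hx
    have h1 := le_card_sdiff ({e, m₀, b₁, b₂} : Finset ι) (univ.filter fun x => R x = true)
    have h2 := card_le_card this
    have h4 : ({e, m₀, b₁, b₂} : Finset ι).card ≤ 4 := card_le_four
    omega
  · rw [prod_eq_zero (mem_univ e) (by simp [guard, projT, hR])]
    norm_num

/-- At most `4 L` in total when no mode is guarded more than `L` times. -/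
lemma sum_guard_le {κ : Type} [Fintype κ] {r : ℝ} (hr : r ^ 2 ≤ 1 / 2) {L : ℕ} (m₀ : ι)
    (b₁ b₂ e : κ → ι) (hL : ∀ x, (univ.filter fun u => e u = x).card ≤ L) {v : Fun2 ι E}
    (z : κ → Fun2 ι E) (hz : ∀ u R, ‖z u R‖ ≤ ‖v R‖) :
    ∑ u, ‖act (piK (guard r m₀ (b₁ u) (b₂ u) (e u))) (z u)‖ ≤
      2 * Real.sqrt (Fintype.card κ * L) * ‖v‖ := by
  refine (pow_le_pow_iff_left₀ (sum_nonneg fun u _ => norm_nonneg _) (by positivity) two_ne_zero).1 ?_
  refine (sq_sum_le_card_mul_sum_sq (s := univ)).trans ?_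
  rw [mul_pow, mul_pow, Real.sq_sqrt (by positivity), PiLp.norm_sq_eq_of_L2, card_univ,
    show (2 : ℝ) ^ 2 * (Fintype.card κ * L) * ∑ R, ‖v R‖ ^ 2 =
      Fintype.card κ * ((4 * L : ℕ) * ∑ R, ‖v R‖ ^ 2) by push_cast; ring]
  refine mul_le_mul_of_nonneg_left ((sum_le_sum fun u _ => guard_sq_le hr _ _ _ _ _).trans ?_)
    (by positivity)
  rw [mul_sum, sum_comm]
  refine sum_le_sum fun R _ => (sum_le_sum fun u _ => mul_le_mul_of_nonneg_left
    (pow_le_pow_left₀ (norm_nonneg _) (hz u R) 2) (by split_ifs <;> positivity)).trans ?_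
  rw [← sum_mul]
  refine mul_le_mul_of_nonneg_right ?_ (sq_nonneg _)
  rw [← sum_filter, sum_const, nsmul_eq_mul]
  set S := univ.filter fun x => R x = true
  have hc : (univ.filter fun u => R (e u) = true).card ≤ S.card * L := by
    rw [card_eq_sum_card_fiberwise (f := e) (t := S) (fun u hu => by simpa [S] using hu)]
    refine (sum_le_sum fun x _ => (card_le_card fun u hu => ?_).trans (hL x)).trans_eq (by simp)
    simp only [mem_filter, mem_univ, true_and] at hu ⊢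
    exact hu.2
  have hdec : ∀ j : ℕ, (j : ℝ) * (r ^ 2) ^ (j - 4) ≤ 4 := fun j => by
    rcases le_or_gt j 4 with hj | hj
    · rw [Nat.sub_eq_zero_of_le hj, pow_zero, mul_one]
      exact_mod_cast hj
    obtain ⟨i, rfl⟩ : ∃ i, j = i + 4 := ⟨j - 4, by omega⟩
    rw [Nat.add_sub_cancel]
    have h2 : (i : ℝ) + 4 ≤ 4 * 2 ^ i := by
      have : i + 4 ≤ 4 * 2 ^ i := by
        have := Nat.lt_two_pow_self (n := i)
        omega
      exact_mod_cast this
    have h3 : (r ^ 2) ^ i ≤ (1 / 2 : ℝ) ^ i := pow_le_pow_left₀ (sq_nonneg r) hr i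
    rw [div_pow, one_pow, le_div_iff₀ (by positivity)] at h3
    push_cast
    nlinarith [pow_nonneg (sq_nonneg r) i]
  calc ((univ.filter fun u => R (e u) = true).card : ℝ) * (r ^ 2) ^ (S.card - 4)
      ≤ (S.card * L : ℕ) * (r ^ 2) ^ (S.card - 4) :=
        mul_le_mul_of_nonneg_right (by exact_mod_cast hc) (by positivity)
    _ ≤ (4 * L : ℕ) := by
        push_cast
        nlinarith [hdec S.card, L.cast_nonneg (α := ℝ)]

variable {m₀ : ι} {r δ : ℝ} {k₁ : Matrix Bool Bool ℝ}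

/-- One varied mode `e`, two further modes `b₁`, `b₂`: the guard goes to one of the two sides. -/
lemma term_le (hk : ∀ a b, |k₁ a b| ≤ 1) {D B₁ B₂ : Matrix Bool Bool ℝ}
    (hD : ∀ a b, |D a b| ≤ δ) (hD0 : D false false = 0) (h₁ : ∀ a b, |B₁ a b| ≤ 1)
    (h₂ : ∀ a b, |B₂ a b| ≤ 1) {b₁ b₂ e : ι}
    (h : m₀ ≠ b₁ ∧ m₀ ≠ b₂ ∧ m₀ ≠ e ∧ b₁ ≠ b₂ ∧ b₁ ≠ e ∧ b₂ ≠ e)
    {f : ι → Matrix Bool Bool ℝ} (hf : ∀ x, f x = if x = m₀ then k₁ else if x = b₁ then B₁
      else if x = b₂ then B₂ else if x = e then D else k0 r) (v z : Fun2 ι E) :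
    ‖inner ℂ v (act (piK f) z)‖ ≤ 16 * δ * (‖v‖ * ‖act (piK (guard r m₀ b₁ b₂ e)) z‖ +
      ‖act (piK (guard r m₀ b₁ b₂ e)) v‖ * ‖z‖) := by
  set q : Matrix Bool Bool ℝ → ι → Matrix Bool Bool ℝ := fun M x => if x = m₀ then k₁
    else if x = b₁ then B₁ else if x = b₂ then B₂ else if x = e then M else 1
  set D₁ : Matrix Bool Bool ℝ := Matrix.of fun a b => if b = true then D a b else 0
  set D₂ : Matrix Bool Bool ℝ := Matrix.of fun a b => if b = true then 0 else D a b
  obtain ⟨n1, n2, n3, n4, n5, n6⟩ := h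
  have hsplit : piK f = piK (q D₁) * piK (guard r m₀ b₁ b₂ e) +
      piK (guard r m₀ b₁ b₂ e) * piK (q D₂) := by
    simp only [piK_mul]
    have e1 : (fun x => q D₁ x * guard r m₀ b₁ b₂ e x) = Function.update f e D₁ := funext fun x => by
      simp only [q, guard, Function.update_apply, hf]
      split_ifs <;> simp_all
      ext a b; cases b <;> simp [D₁, projT, Matrix.mul_diagonal]
    have e2 : (fun x => guard r m₀ b₁ b₂ e x * q D₂ x) = Function.update f e D₂ := funext fun x => by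
      simp only [q, guard, Function.update_apply, hf]
      split_ifs <;> simp_all
      ext a b; cases a <;> cases b <;> simp [D₂, projT, Matrix.diagonal_mul, hD0]
    rw [e1, e2, ← piK_update_add, show D₁ + D₂ = f e by
      rw [hf, if_neg n3.symm, if_neg n5.symm, if_neg n6.symm, if_pos rfl]
      ext a b; cases b <;> simp [D₁, D₂], Function.update_eq_self]
  have hδ : 0 ≤ δ := (abs_nonneg _).trans (hD true true)
  have hq : ∀ M, (∀ a b, |M a b| ≤ δ) → ∀ y : Fun2 ι E, ‖act (piK (q M)) y‖ ≤ 16 * δ * ‖y‖ :=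
    fun M hM y => norm_act_four ⟨n1, n2, n3, n4, n5, n6⟩ hk h₁ h₂ hM (fun x => rfl) y
  have hsym : (piK (guard r m₀ b₁ b₂ e)).transpose = piK (guard r m₀ b₁ b₂ e) := by
    rw [piK_transpose]
    congr 1
    funext x
    unfold guard
    split_ifs <;> simp [projT, k0]
  rw [hsplit, act_add, inner_add_right, act_mul, act_mul, inner_act (piK (guard r m₀ b₁ b₂ e)), hsym,
    mul_add]
  refine (norm_add_le _ _).trans (add_le_add ((norm_inner_le_norm _ _).trans ?_)
    ((norm_inner_le_norm _ _).trans ?_))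
  · refine (mul_le_mul_of_nonneg_left (hq D₁ (fun a b => ?_) _) (norm_nonneg _)).trans_eq (by ring)
    simp only [D₁, Matrix.of_apply]; split_ifs <;> simp [hD, hδ]
  · refine (mul_le_mul_of_nonneg_left (hq D₂ (fun a b => ?_) _) (norm_nonneg _)).trans_eq (by ring)
    simp only [D₂, Matrix.of_apply]; split_ifs <;> simp [hD, hδ]

/-- The factors of the term with varied modes `m₀, e₁, e₂, e₃`. -/
def fourMat (r : ℝ) (k₁ : Matrix Bool Bool ℝ) (m₀ e₁ e₂ e₃ : ι) : ι → Matrix Bool Bool ℝ := fun x =>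
  if x = m₀ ∨ x = e₁ ∨ x = e₂ ∨ x = e₃ then k₁ else k0 r

lemma terms_expand {u₁ u₂ u₃ : ι}
    (hne : m₀ ≠ u₁ ∧ m₀ ≠ u₂ ∧ m₀ ≠ u₃ ∧ u₁ ≠ u₂ ∧ u₁ ≠ u₃ ∧ u₂ ≠ u₃) :
    piK (fourMat r k₁ m₀ u₁ u₂ u₃) = piK (Function.update (fun _ => k0 r) m₀ k₁) +
      piK (fun x => if x = m₀ then k₁ else if x = u₂ then k0 r else if x = u₃ then k0 r
        else if x = u₁ then k₁ - k0 r else k0 r) +
      piK (fun x => if x = m₀ then k₁ else if x = u₁ then k₁ else if x = u₃ then k0 r
        else if x = u₂ then k₁ - k0 r else k0 r) +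
      piK (fun x => if x = m₀ then k₁ else if x = u₁ then k₁ else if x = u₂ then k₁
        else if x = u₃ then k₁ - k0 r else k0 r) := by
  obtain ⟨n1, n2, n3, n4, n5, n6⟩ := hne
  set base : ι → Matrix Bool Bool ℝ := Function.update (fun _ => k0 r) m₀ k₁
  have e0 : ∀ g : ι → Matrix Bool Bool ℝ, ∀ x, g x = k0 r →
      piK (Function.update g x k₁) = piK g + piK (Function.update g x (k₁ - k0 r)) := fun g x hx => by
    conv_lhs => rw [show k₁ = k0 r + (k₁ - k0 r) from (add_sub_cancel _ _).symm, piK_update_add,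
      ← hx, Function.update_eq_self, hx]
  rw [show fourMat r k₁ m₀ u₁ u₂ u₃ = Function.update (Function.update
      (Function.update base u₁ k₁) u₂ k₁) u₃ k₁ from funext fun x => by
    simp only [fourMat, base, Function.update_apply]; split_ifs <;> simp_all,
    e0 _ _ (by simp [base, n3.symm, n5.symm, n6.symm]),
    e0 _ _ (by simp [base, n2.symm, n4.symm]), e0 _ _ (by simp [base, n1.symm])]
  congr 1
  · congr 1
    · congr 1
      congr 1
      funext x
      simp only [base, Function.update_apply]; split_ifs <;> simp_all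
    · congr 1
      funext x
      simp only [base, Function.update_apply]; split_ifs <;> simp_all
  · congr 1
    funext x
    simp only [base, Function.update_apply]; split_ifs <;> simp_all

lemma main_le (hr : |r| ≤ 1) (hk : ∀ a b, |k₁ a b| ≤ 1) (H : E →ₗ[ℂ] E) {τ : ℝ} (hτ0 : 0 ≤ τ)
    (hτ : ∀ z, ‖H z‖ ≤ τ * ‖z‖) (v w : Fun2 ι E) :
    ‖inner ℂ v (act (piK (Function.update (fun _ => k0 r) m₀ k₁)) (pointwise H w))‖ ≤
      2 * τ * (‖v‖ * ‖w‖) := by
  have hb : piK (Function.update (fun _ => k0 r) m₀ k₁) =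
      piK (oneMode m₀ k₁) * piK (Function.update (fun _ => k0 r) m₀ 1) := by
    rw [piK_mul]; congr 1; funext x
    simp only [oneMode, Function.update_apply]; split_ifs <;> simp
  refine (norm_inner_le_norm _ _).trans ?_
  rw [hb, act_mul]
  refine (mul_le_mul_of_nonneg_left ((norm_act_oneMode _ hk _).trans (mul_le_mul_of_nonneg_left
    (norm_le_of_pointwise (w := w) hτ0 fun R => ?_) (by norm_num))) (norm_nonneg _)).trans_eq
    (by ring)
  rw [act_diag (fun x a b hab => by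
      simp only [Function.update_apply]; split_ifs <;> simp [k0, hab]), norm_smul, Complex.norm_real,
    Real.norm_eq_abs, abs_prod, pointwise_apply]
  refine (mul_le_of_le_one_left (norm_nonneg _)
    (prod_le_one (fun x _ => abs_nonneg _) fun x _ => ?_)).trans (hτ (w R))
  simp only [Function.update_apply]
  split_ifs
  · simp
  · cases R x <;> simp [k0, hr]

variable {κ : Type} [Fintype κ] {L : ℕ}

lemma sum_terms_le (hr : r ^ 2 ≤ 1 / 2) (hr1 : |r| ≤ 1) (hk : ∀ a b, |k₁ a b| ≤ 1)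
    {D : Matrix Bool Bool ℝ} (hD : ∀ a b, |D a b| ≤ δ) (hD0 : D false false = 0)
    {B₁ B₂ : Matrix Bool Bool ℝ} (hB₁ : ∀ a b, |B₁ a b| ≤ 1) (hB₂ : ∀ a b, |B₂ a b| ≤ 1)
    (b₁ b₂ e : κ → ι)
    (hn : ∀ u, m₀ ≠ b₁ u ∧ m₀ ≠ b₂ u ∧ m₀ ≠ e u ∧ b₁ u ≠ b₂ u ∧ b₁ u ≠ e u ∧ b₂ u ≠ e u)
    (hL : ∀ x, (univ.filter fun u => e u = x).card ≤ L) (G : κ → E →ₗ[ℂ] E)
    (hG : ∀ u z, ‖G u z‖ ≤ ‖z‖) (v w : Fun2 ι E) :
    ‖∑ u, inner ℂ v (act (piK fun x => if x = m₀ then k₁ else if x = b₁ u then B₁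
      else if x = b₂ u then B₂ else if x = e u then D else k0 r) (pointwise (G u) w))‖ ≤
      64 * δ * Real.sqrt (Fintype.card κ * L) * (‖v‖ * ‖w‖) := by
  have hδ : 0 ≤ δ := (abs_nonneg _).trans (hD true true)
  have hz : ∀ u, ‖pointwise (G u) w‖ ≤ ‖w‖ := fun u => by
    simpa using norm_le_of_pointwise (v := pointwise (G u) w) (w := w) zero_le_one
      fun R => by simpa using hG u (w R)
  refine (norm_sum_le _ _).trans ((sum_le_sum fun u _ =>
    (term_le hk hD hD0 hB₁ hB₂ (hn u) (fun x => rfl) v (pointwise (G u) w)).trans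
      (mul_le_mul_of_nonneg_left (add_le_add le_rfl (mul_le_mul_of_nonneg_left (hz u)
        (norm_nonneg _))) (mul_nonneg (by norm_num) hδ))).trans ?_)
  rw [← mul_sum, sum_add_distrib, ← mul_sum, ← sum_mul]
  have s1 := sum_guard_le hr m₀ b₁ b₂ e hL (v := w) (fun u => pointwise (G u) w) fun u R => hG u (w R)
  have s2 := sum_guard_le hr m₀ b₁ b₂ e hL (v := v) (fun _ => v) fun u R => le_rfl
  nlinarith [mul_le_mul_of_nonneg_left s1 (mul_nonneg hδ (norm_nonneg v)),
    mul_le_mul_of_nonneg_right s2 (mul_nonneg hδ (norm_nonneg w))]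

/-- **The perturbation bound.** -/
theorem perturb_le (e₁ e₂ e₃ : κ → ι)
    (hne : ∀ u, m₀ ≠ e₁ u ∧ m₀ ≠ e₂ u ∧ m₀ ≠ e₃ u ∧ e₁ u ≠ e₂ u ∧ e₁ u ≠ e₃ u ∧ e₂ u ≠ e₃ u)
    (h₁ : ∀ x, (univ.filter fun u => e₁ u = x).card ≤ L)
    (h₂ : ∀ x, (univ.filter fun u => e₂ u = x).card ≤ L)
    (h₃ : ∀ x, (univ.filter fun u => e₃ u = x).card ≤ L)
    (hr : r ^ 2 ≤ 1 / 2) (hk : ∀ a b, |k₁ a b| ≤ 1) (hkd : ∀ a b, |k₁ a b - k0 r a b| ≤ δ)
    (hk0 : k₁ false false = 1) (G : κ → E →ₗ[ℂ] E) (hG : ∀ u z, ‖G u z‖ ≤ ‖z‖)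
    {τ : ℝ} (hτ0 : 0 ≤ τ) (hτ : ∀ z, ‖∑ u, G u z‖ ≤ τ * ‖z‖) (v w : Fun2 ι E) :
    ‖∑ u, inner ℂ v (act (piK (fourMat r k₁ m₀ (e₁ u) (e₂ u) (e₃ u))) (pointwise (G u) w))‖ ≤
      (2 * τ + 192 * δ * Real.sqrt (Fintype.card κ * L)) * (‖v‖ * ‖w‖) := by
  have hr1 : |r| ≤ 1 := abs_le_one_iff_mul_self_le_one.2 (by nlinarith)
  have hk0b : ∀ a b, |k0 r a b| ≤ 1 := fun a b => by cases a <;> cases b <;> simp [k0, hr1]
  have hD0 : (k₁ - k0 r) false false = 0 := by simp [hk0, k0]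
  have t1 := sum_terms_le hr hr1 hk hkd hD0 hk0b hk0b e₂ e₃ e₁
    (fun u => let ⟨n1, n2, n3, n4, n5, n6⟩ := hne u; ⟨n2, n3, n1, n6, n4.symm, n5.symm⟩)
    h₁ G hG v w
  have t2 := sum_terms_le hr hr1 hk hkd hD0 hk hk0b e₁ e₃ e₂
    (fun u => let ⟨n1, n2, n3, n4, n5, n6⟩ := hne u; ⟨n1, n3, n2, n5, n4, n6.symm⟩)
    h₂ G hG v w
  have t3 := sum_terms_le hr hr1 hk hkd hD0 hk hk e₁ e₂ e₃ hne h₃ G hG v w
  have hmain := main_le (m₀ := m₀) hr1 hk (∑ u, G u) hτ0 (fun z => by simpa using hτ z) v w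
  rw [show pointwise (∑ u, G u) w = ∑ u, pointwise (G u) w from by ext R; simp, map_sum, inner_sum] at hmain
  simp only [terms_expand (hne _), act_add, inner_add_right, sum_add_distrib]
  refine ((norm_add_le _ _).trans (add_le_add ((norm_add_le _ _).trans (add_le_add
    ((norm_add_le _ _).trans (add_le_add hmain t1)) t2)) t3)).trans_eq ?_
  ring

/-- On vectors without undamped component the damping matrix has norm `|r|`. -/
lemma damp_le (hr : |r| ≤ 1) {w : Fun2 ι E} (hw : w (fun _ => false) = 0) (v : Fun2 ι E) :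
    ‖inner ℂ v (act (piK fun _ : ι => k0 r) w)‖ ≤ |r| * (‖v‖ * ‖w‖) := by
  refine (norm_inner_le_norm _ _).trans ((mul_le_mul_of_nonneg_left
    (norm_le_of_pointwise (w := w) (abs_nonneg r) fun R => ?_) (norm_nonneg _)).trans_eq (by ring))
  rw [act_diag (fun x a b hab => by simp [k0, hab]), norm_smul, Complex.norm_real, Real.norm_eq_abs,
    abs_prod]
  rcases eq_or_ne R (fun _ => false) with rfl | hR
  · simp [hw]
  obtain ⟨e, he⟩ := Function.ne_iff.1 hR
  refine mul_le_mul_of_nonneg_right ?_ (norm_nonneg _)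
  rw [← mul_prod_erase univ _ (mem_univ e)]
  refine (mul_le_of_le_one_right (abs_nonneg _) (prod_le_one (fun x _ => abs_nonneg _) fun x _ => ?_)).trans ?_
  · cases R x <;> simp [k0, hr]
  · simp [k0, show R e = true by simpa using he]

/-- A real orthogonal matrix in every mode preserves the norm. -/
lemma norm_act_orth {O : Matrix Bool Bool ℝ} (hO : O.transpose * O = 1) (v : Fun2 ι E) :
    ‖act (piK fun _ : ι => O) v‖ = ‖v‖ := by
  have h : inner ℂ (act (piK fun _ : ι => O) v) (act (piK fun _ : ι => O) v) = inner ℂ v v := by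
    rw [inner_act, piK_transpose, ← act_mul, piK_mul]
    simp only [hO, piK_one]
    congr 1
    ext R; simp [Matrix.one_apply]
  rw [inner_self_eq_norm_sq_to_K, inner_self_eq_norm_sq_to_K] at h
  exact (pow_left_inj₀ (norm_nonneg _) (norm_nonneg _) two_ne_zero).1 (by exact_mod_cast h)

end Vale.Agent.P372.Zero
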