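import Vale.Agent.P372.Zero.Norm
import Vale.Agent.P372.Zero.Damp

/-!
The quadratic form in rotated coordinates away from the fixed line.
-/

noncomputable section

open Matrix Finset
open scoped ComplexOrder Matrix.Norms.L2Operator

namespace Vale.Agent.P372.Zero

variable {N : ℕ} {Z : Type} [Fintype Z] [DecidableEq Z]

/-- Modes of both systems. -/
abbrev Modes (N : ℕ) : Type := Fin N ⊕ Option (Pairs N)

/-- Flipped modes as a pair of sets. -/
def toPair (N : ℕ) : (Modes N → Bool) ≃ Finset (Fin N) × Finset (Option (Pairs N)) where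
  toFun R := (univ.filter fun i => R (.inl i), univ.filter fun j => R (.inr j))
  invFun x := Sum.elim (fun i => decide (i ∈ x.1)) fun j => decide (j ∈ x.2)
  left_inv R := funext fun m => by cases m <;> simp
  right_inv x := by ext <;> simp

/-- The rotated vectors as one element. -/
def toFun2 (v : Finset (Fin N) × Finset (Option (Pairs N)) → Z → ℂ) :
    Fun2 (Modes N) (EuclideanSpace ℂ Z) :=
  WithLp.toLp 2 fun R => WithLp.toLp 2 (v (toPair N R))

omit [DecidableEq Z] in
lemma norm_toFun2 (v : Finset (Fin N) × Finset (Option (Pairs N)) → Z → ℂ) :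
    ‖toFun2 v‖ ^ 2 = ∑ x, vsq (v x) := by
  rw [PiLp.norm_sq_eq_of_L2, ← (toPair N).sum_comp]
  refine sum_congr rfl fun R _ => ?_
  simp only [toFun2]
  rw [EuclideanSpace.norm_sq_eq]
  simp [vsq, Complex.normSq_eq_norm_sq]

lemma modeProd_toPair (f : Bool → Bool → Bool → ℝ) (e : Finset (Fin N) × Finset (Option (Pairs N)))
    (R R' : Modes N → Bool) : modeProd f e (toPair N R) (toPair N R') =
      piK (fun m : Modes N => Matrix.of (f ((toPair N).symm e m))) R R' := by
  simp [modeProd, piK, Fintype.prod_sum_type, toPair]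

/-- The form of one term. -/
lemma form_eq (f : Bool → Bool → Bool → ℝ) (e : Finset (Fin N) × Finset (Option (Pairs N)))
    (G : Matrix Z Z ℂ) (v : Finset (Fin N) × Finset (Option (Pairs N)) → Z → ℂ) :
    ∑ x, ∑ y, (modeProd f e x y : ℂ) * (star (v x) ⬝ᵥ G *ᵥ v y) =
      inner ℂ (toFun2 v) (act (piK fun m : Modes N => Matrix.of (f ((toPair N).symm e m)))
        (pointwise (Matrix.toEuclideanLin G) (toFun2 v))) := by
  rw [PiLp.inner_apply, ← (toPair N).sum_comp]
  refine sum_congr rfl fun R _ => ?_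
  rw [act_apply, inner_sum, ← (toPair N).sum_comp]
  refine sum_congr rfl fun R' _ => ?_
  rw [inner_smul_right, modeProd_toPair, pointwise_apply]
  congr 1
  simp [toFun2, EuclideanSpace.inner_eq_star_dotProduct, Matrix.toLpLin_apply, dotProduct_comm]

/-- The damping in the rotated direction. -/
def modeR (l : ℝ) : ℝ := -(2 * l ^ 2) / (1 - l ^ 2)

lemma modeK'_false (l : ℝ) : Matrix.of (modeK' l false) = k0 (modeR l) := by
  ext x y; cases x <;> cases y <;> simp [modeK', k0, modeR]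

lemma mode_bounds {l : ℝ} (hl : 0 < l) (hl1 : l ≤ 1 / 10000) :
    |modeR l| ≤ l ∧ (∀ x y, |Matrix.of (modeK' l true) x y| ≤ 1) ∧
      ∀ x y, |Matrix.of (modeK' l true) x y - k0 (modeR l) x y| ≤ 3 * l := by
  have hden : 0 < 1 - l ^ 2 := by nlinarith
  have h1 : |2 * l ^ 2 / (1 - l ^ 2)| ≤ l := by
    rw [abs_of_nonneg (by positivity), div_le_iff₀ hden]; nlinarith
  have hrabs : |modeR l| ≤ l := by rwa [modeR, neg_div, abs_neg]
  have h2 : |-(2 * l) / Real.sqrt (1 - l ^ 2)| ≤ 3 * l := by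
    have hs : 2 / 3 ≤ Real.sqrt (1 - l ^ 2) := Real.le_sqrt_of_sq_le (by nlinarith)
    rw [abs_div, abs_neg, abs_of_pos (by linarith : 0 < 2 * l), abs_of_pos (by linarith),
      div_le_iff₀ (by linarith)]
    nlinarith
  refine ⟨hrabs, fun x y => ?_, fun x y => ?_⟩
  · cases x <;> cases y <;> simp only [modeK', Matrix.of_apply] <;>
      linarith [h1, h2, abs_one (α := ℝ)]
  · cases x <;> cases y <;> simp only [modeK', Matrix.of_apply, k0, Matrix.diagonal_apply] <;>
      simp only [Bool.false_eq_true, Bool.true_eq_false, if_false, if_true, sub_zero, sub_self,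
        abs_zero] <;>
      first
        | linarith [h2]
        | linarith [abs_sub (2 * l ^ 2 / (1 - l ^ 2)) (modeR l)]

/-- The matrix of the term `u` in rotated coordinates. -/
def modeTerm (l : ℝ) (u : Pairs N) : Matrix (Modes N → Bool) (Modes N → Bool) ℝ :=
  piK (fourMat (modeR l) (Matrix.of (modeK' l true)) (.inr none) (.inl u.1.1) (.inl u.1.2)
    (.inr (some u)))

lemma form_expand (l : ℝ) (G : Pairs N → Matrix Z Z ℂ) (a : Pairs N → ℂ)
    (v : Finset (Fin N) × Finset (Option (Pairs N)) → Z → ℂ) :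
    (∑ x, ∑ y, ((modeProd (modeK' l) (∅, ∅) x y : ℂ) * (star (v x) ⬝ᵥ v y)
        + ∑ u, a u * (modeProd (modeK' l) (term u) x y : ℂ) * (star (v x) ⬝ᵥ G u *ᵥ v y))) =
      inner ℂ (toFun2 v) (act (piK fun _ : Modes N => k0 (modeR l)) (toFun2 v)) +
        ∑ u, a u * inner ℂ (toFun2 v)
          (act (modeTerm l u) (pointwise (Matrix.toEuclideanLin (G u)) (toFun2 v))) := by
  have e0 : (fun m : Modes N => Matrix.of (modeK' l ((toPair N).symm (∅, ∅) m))) =
      fun _ => k0 (modeR l) := funext fun m => by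
    rw [show (toPair N).symm (∅, ∅) m = false by cases m <;> simp [toPair], modeK'_false]
  have eu : ∀ u : Pairs N, (fun m : Modes N => Matrix.of (modeK' l ((toPair N).symm (term u) m))) =
      fourMat (modeR l) (Matrix.of (modeK' l true)) (.inr none) (.inl u.1.1) (.inl u.1.2)
        (.inr (some u)) := fun u => funext fun m => by
    simp only [fourMat]
    split_ifs with h
    · rcases h with rfl | rfl | rfl | rfl <;> simp [toPair, term]
    · rw [show (toPair N).symm (term u) m = false by cases m <;> simp_all [toPair, term],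
        modeK'_false]
  simp only [sum_add_distrib]
  congr 1
  · have h := form_eq (modeK' l) (∅, ∅) (1 : Matrix Z Z ℂ) v
    simp only [one_mulVec, e0] at h
    rw [h]
    congr 2
    ext R i
    simp
  · rw [sum_congr rfl fun x _ => sum_comm, sum_comm]
    refine sum_congr rfl fun u _ => ?_
    simp only [mul_assoc, ← mul_sum]
    rw [modeTerm, ← eu, ← form_eq]

lemma card_mode_le (f : Pairs N → Modes N) (g : Pairs N → Fin N)
    (hfg : ∀ u u', f u = f u' → g u = g u' → u = u') (x : Modes N) :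
    (univ.filter fun u => f u = x).card ≤ N := by
  refine (card_le_card_of_injOn g (t := univ) (fun u _ => mem_univ _) fun u hu u' hu' he => ?_).trans
    (by simp)
  simp only [coe_filter, Set.mem_ofPred_eq, mem_univ, true_and] at hu hu'
  exact hfg u u' (hu.trans hu'.symm) he

/-- The perturbation, scaled to operators of norm at most `b`. -/
lemma scaled_le {l : ℝ} (hl : 0 < l) (hl1 : l ≤ 1 / 10000) (G : Pairs N → Matrix Z Z ℂ)
    (hG : ∀ u, ‖G u‖ ≤ 1) (a : Pairs N → ℂ) {b : ℝ} (hb : 0 < b) (ha : ∀ u, ‖a u‖ ≤ b)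
    (hT : ‖∑ u, a u • G u‖ ≤ 1 / 100) (w : Fun2 (Modes N) (EuclideanSpace ℂ Z)) :
    ‖∑ u, a u * inner ℂ w (act (modeTerm l u) (pointwise (Matrix.toEuclideanLin (G u)) w))‖ ≤
      (1 / 50 + 576 * l * (b * Real.sqrt (Fintype.card (Pairs N) * N))) * (‖w‖ * ‖w‖) := by
  obtain ⟨hrabs, hk, hkd⟩ := mode_bounds hl hl1
  set H := fun u => ((b : ℂ)⁻¹ * a u) • Matrix.toEuclideanLin (G u)
  have hG' : ∀ u z, ‖H u z‖ ≤ ‖z‖ := fun u z => by
    rw [LinearMap.smul_apply, norm_smul, norm_mul, norm_inv, Complex.norm_real, Real.norm_eq_abs,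
      abs_of_pos hb]
    refine (mul_le_mul (?_ : b⁻¹ * ‖a u‖ ≤ 1) (Matrix.l2_opNorm_mulVec (G u) z |>.trans
      (mul_le_of_le_one_left (norm_nonneg _) (hG u))) (norm_nonneg _) zero_le_one).trans_eq (one_mul _)
    rw [inv_mul_le_one₀ hb]
    exact ha u
  have hτ : ∀ z, ‖∑ u, H u z‖ ≤ 1 / (100 * b) * ‖z‖ := fun z => by
    have : ∑ u, H u z = (b : ℂ)⁻¹ • Matrix.toEuclideanLin (∑ u, a u • G u) z := by
      simp [H, map_sum, smul_sum, smul_smul]
    rw [this, norm_smul, norm_inv, Complex.norm_real, Real.norm_eq_abs, abs_of_pos hb]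
    refine (mul_le_mul_of_nonneg_left ((Matrix.l2_opNorm_mulVec (∑ u, a u • G u) z).trans
      (mul_le_mul_of_nonneg_right hT (norm_nonneg z))) (by positivity)).trans_eq ?_
    field_simp
  have hp := perturb_le (m₀ := (Sum.inr none : Modes N)) (fun u : Pairs N => .inl u.1.1)
    (fun u => .inl u.1.2) (fun u => .inr (some u))
    (fun u => by simp [ne_of_lt u.2])
    (card_mode_le _ (fun u => u.1.2) fun u u' h h' => Subtype.ext (Prod.ext (Sum.inl_injective h) h'))
    (card_mode_le _ (fun u => u.1.1) fun u u' h h' => Subtype.ext (Prod.ext h' (Sum.inl_injective h)))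
    (card_mode_le _ (fun u => u.1.1) fun u u' h _ => Option.some_injective _ (Sum.inr_injective h))
    (by rw [← sq_abs]; nlinarith [abs_nonneg (modeR l)] : modeR l ^ 2 ≤ 1 / 2) hk hkd rfl H hG'
    (by positivity : (0 : ℝ) ≤ 1 / (100 * b)) hτ w w
  have hs : ∀ u, a u * inner ℂ w (act (modeTerm l u) (pointwise (Matrix.toEuclideanLin (G u)) w)) =
      (b : ℂ) * inner ℂ w (act (modeTerm l u) (pointwise (H u) w)) := fun u => by
    rw [show pointwise (H u) w = ((b : ℂ)⁻¹ * a u) • pointwise (Matrix.toEuclideanLin (G u)) w from by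
      ext R; simp [H], map_smul, inner_smul_right]
    field_simp
  rw [sum_congr rfl fun u _ => hs u, ← mul_sum, norm_mul, Complex.norm_real, Real.norm_eq_abs,
    abs_of_pos hb]
  refine (mul_le_mul_of_nonneg_left hp hb.le).trans_eq ?_
  field_simp
  ring

theorem form_bound {N : ℕ} {Z : Type} [Fintype Z] [DecidableEq Z] {l : ℝ} (hl : 0 < l)
    (hl1 : l ≤ 1 / 10000) (G : Pairs N → Matrix Z Z ℂ) (hG : ∀ u, ‖G u‖ ≤ 1)
    (a : Pairs N → ℂ) {b : ℝ} (hb : 0 ≤ b) (ha : ∀ u, ‖a u‖ ≤ b)
    (hab : b ^ 2 * N * Fintype.card (Pairs N) ≤ 25) (hT : ‖∑ u, a u • G u‖ ≤ 1 / 100)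
    (v : Finset (Fin N) × Finset (Option (Pairs N)) → Z → ℂ) (hv : v (∅, ∅) = 0) :
    ‖∑ x, ∑ y, ((modeProd (modeK' l) (∅, ∅) x y : ℂ) * (star (v x) ⬝ᵥ v y)
        + ∑ u, a u * (modeProd (modeK' l) (term u) x y : ℂ) * (star (v x) ⬝ᵥ G u *ᵥ v y))‖
      ≤ 1 / 2 * ∑ x, vsq (v x) := by
  have hw : toFun2 v (fun _ => false) = 0 := by
    have : toPair N (fun _ => false) = (∅, ∅) := by simp [toPair]
    show WithLp.toLp 2 (v (toPair N fun _ => false)) = 0
    rw [this, hv]; rfl
  rw [form_expand]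
  have hr := (mode_bounds hl hl1).1
  have hn : ‖toFun2 v‖ * ‖toFun2 v‖ = ∑ x, vsq (v x) := by rw [← norm_toFun2, sq]
  refine (norm_add_le _ _).trans ((add_le_add (damp_le (by linarith) hw _) (le_refl _)).trans ?_)
  rw [← hn]
  rcases hb.eq_or_lt with rfl | hbpos
  · rw [sum_eq_zero fun u _ => by rw [norm_le_zero_iff.1 (ha u), zero_mul], norm_zero]
    nlinarith [norm_nonneg (toFun2 v)]
  refine (add_le_add le_rfl (scaled_le hl hl1 G hG a hbpos ha hT _)).trans ?_
  have hsq : b * Real.sqrt (Fintype.card (Pairs N) * N) ≤ 5 := by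
    rw [← Real.sqrt_sq hbpos.le, ← Real.sqrt_mul (sq_nonneg b)]
    refine Real.sqrt_le_iff.2 ⟨by norm_num, ?_⟩
    nlinarith
  rw [← add_mul]
  refine mul_le_mul_of_nonneg_right ?_ (mul_self_nonneg _)
  nlinarith [mul_le_mul_of_nonneg_left hsq hl.le]

end Vale.Agent.P372.Zero
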