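import Vale.Agent.P372.Zero.Norm

/-!
Monomials of anticommuting involutions.
-/

noncomputable section

open Matrix Finset
open scoped ComplexOrder Kronecker Matrix.Norms.L2Operator symmDiff

namespace Vale.Agent.P372.Zero

variable {U Z : Type} [Fintype U] [DecidableEq U] [Fintype Z] [DecidableEq Z]
  {γ : U → Matrix Z Z ℂ}

/-- Equal up to a sign. -/
def SgnEq {Z : Type} (X Y : Matrix Z Z ℂ) : Prop :=
  ∃ σ : ℝ, (σ = 1 ∨ σ = -1) ∧ X = (σ : ℂ) • Y

theorem SgnEq.refl {Z : Type} (X : Matrix Z Z ℂ) : SgnEq X X :=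
  ⟨1, Or.inl rfl, by simp⟩

theorem SgnEq.trans {Z : Type} {X Y W : Matrix Z Z ℂ} (h : SgnEq X Y) (h' : SgnEq Y W) :
    SgnEq X W := by
  obtain ⟨a, ha, rfl⟩ := h
  obtain ⟨b, hb, rfl⟩ := h'
  refine ⟨a * b, ?_, by rw [smul_smul]; push_cast; ring_nf⟩
  rcases ha with rfl | rfl <;> rcases hb with rfl | rfl <;> norm_num

theorem SgnEq.symm {Z : Type} {X Y : Matrix Z Z ℂ} (h : SgnEq X Y) : SgnEq Y X := by
  obtain ⟨a, ha, rfl⟩ := h
  refine ⟨a, ha, ?_⟩
  rcases ha with rfl | rfl <;> simp [smul_smul]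

omit [DecidableEq Z] in
theorem SgnEq.mul_left {X Y : Matrix Z Z ℂ} (W : Matrix Z Z ℂ) (h : SgnEq X Y) :
    SgnEq (W * X) (W * Y) := by
  obtain ⟨a, ha, rfl⟩ := h
  exact ⟨a, ha, Matrix.mul_smul _ _ _⟩

omit [DecidableEq Z] in
theorem SgnEq.mul_right {X Y : Matrix Z Z ℂ} (W : Matrix Z Z ℂ) (h : SgnEq X Y) :
    SgnEq (X * W) (Y * W) := by
  obtain ⟨a, ha, rfl⟩ := h
  exact ⟨a, ha, Matrix.smul_mul _ _ _⟩

omit [DecidableEq U] in
theorem prod_perm (hγ : IsCl γ) {l l' : List U} (h : l.Perm l') :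
    l.Nodup → SgnEq (l.map γ).prod (l'.map γ).prod := by
  induction h with
  | nil => exact fun _ => SgnEq.refl _
  | cons a _ ih =>
    intro hn
    simp only [List.map_cons, List.prod_cons]
    exact (ih (List.nodup_cons.1 hn).2).mul_left _
  | swap a b l =>
    intro hn
    have hab : b ≠ a := fun e => (List.nodup_cons.1 hn).1 (by simp [e])
    refine ⟨-1, Or.inr rfl, ?_⟩
    simp only [List.map_cons, List.prod_cons, ← Matrix.mul_assoc, hγ.anti b a hab]
    simp
  | trans h₁ _ ih₁ ih₂ => exact fun hn => (ih₁ hn).trans (ih₂ (h₁.nodup_iff.1 hn))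

theorem mono_insert (hγ : IsCl γ) {u : U} {s : Finset U} (hu : u ∉ s) :
    SgnEq (mono γ (insert u s)) (γ u * mono γ s) := by
  have := prod_perm hγ (Finset.toList_insert hu) (Finset.nodup_toList _)
  simpa [mono] using this

theorem gen_mul_mono (hγ : IsCl γ) (u : U) (s : Finset U) :
    SgnEq (γ u * mono γ s) (mono γ ({u} ∆ s)) := by
  by_cases hu : u ∈ s
  · have e : ({u} : Finset U) ∆ s = s.erase u := by
      ext x; by_cases hx : x = u <;> simp [Finset.mem_symmDiff, hx, hu]
    rw [e]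
    have h := (mono_insert hγ (s.notMem_erase u)).mul_left (γ u)
    rw [Finset.insert_erase hu, ← Matrix.mul_assoc, hγ.sq, Matrix.one_mul] at h
    exact h
  · have e : ({u} : Finset U) ∆ s = insert u s := by
      ext x; by_cases hx : x = u <;> simp [Finset.mem_symmDiff, hx, hu]
    rw [e]
    exact (mono_insert hγ hu).symm

theorem gen_comm_list (hγ : IsCl γ) (u : U) (l : List U) :
    γ u * (l.map γ).prod
      = ((-1 : ℂ) ^ (l.length + l.count u)) • ((l.map γ).prod * γ u) := by
  induction l with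
  | nil => simp
  | cons a l ih =>
    simp only [List.map_cons, List.prod_cons, List.length_cons]
    rw [← Matrix.mul_assoc]
    by_cases ha : a = u
    · subst ha
      rw [List.count_cons_self, Matrix.mul_assoc (γ a) (γ a), ih, Matrix.mul_smul, ← Matrix.mul_assoc,
        show l.length + 1 + (l.count a + 1) = l.length + l.count a + 2 by omega, pow_add _ _ 2]
      simp [ih]
    · rw [List.count_cons_of_ne ha, hγ.anti u a (Ne.symm ha), Matrix.neg_mul, Matrix.mul_assoc, ih,
        Matrix.mul_smul, ← Matrix.mul_assoc, Nat.add_right_comm, pow_succ]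
      simp

theorem gen_comm (hγ : IsCl γ) (u : U) (s : Finset U) :
    γ u * mono γ s = ((-1 : ℂ) ^ (s.card + if u ∈ s then 1 else 0)) • (mono γ s * γ u) := by
  rw [mono, gen_comm_list hγ u, Finset.length_toList]
  simp only [List.Nodup.count (Finset.nodup_toList s), Finset.mem_toList]

theorem isCl_reindex {U U' Z Z' : Type} [Fintype U] [Fintype U'] [Fintype Z] [DecidableEq Z]
    [Fintype Z'] [DecidableEq Z'] {γ : U → Matrix Z Z ℂ} (h : IsCl γ) (f : U' ≃ U) (e : Z' ≃ Z) :
    IsCl fun u => (γ (f u)).submatrix e e := by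
  refine ⟨fun u => ?_, fun u => ?_, fun u v huv => ?_, ?_⟩
  · rw [conjTranspose_submatrix, h.herm]
  · rw [submatrix_mul_equiv, h.sq, submatrix_one_equiv]
  · rw [submatrix_mul_equiv, submatrix_mul_equiv, h.anti _ _ fun e' => huv (f.injective e')]
    rfl
  · rw [Fintype.card_congr f, Fintype.card_congr e, h.dim]

/-- The Pauli matrices. -/
def pauli (a : Fin 3) : Matrix (Fin 2) (Fin 2) ℂ :=
  ![!![0, 1; 1, 0], !![0, -Complex.I; Complex.I, 0], !![1, 0; 0, -1]] a

theorem pauli_spec : (∀ a, (pauli a)ᴴ = pauli a) ∧ (∀ a, pauli a * pauli a = 1)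
    ∧ ∀ a b, a ≠ b → pauli a * pauli b = -(pauli b * pauli a) := by
  refine ⟨fun a => ?_, fun a => ?_, fun a b hab => ?_⟩
  · fin_cases a <;> (ext i j; fin_cases i <;> fin_cases j <;> simp [pauli])
  · fin_cases a <;> (ext i j; fin_cases i <;> fin_cases j <;> simp [pauli, Matrix.mul_apply])
  · fin_cases a <;> fin_cases b <;> first
      | exact absurd rfl hab
      | (ext i j; fin_cases i <;> fin_cases j <;> simp [pauli, Matrix.mul_apply])

theorem isCl_step {U Z : Type} [Fintype U] [Fintype Z] [DecidableEq Z] {γ : U → Matrix Z Z ℂ}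
    (h : IsCl γ) :
    IsCl (Sum.elim (fun u => γ u ⊗ₖ pauli 0) fun a : Fin 2 => (1 : Matrix Z Z ℂ) ⊗ₖ pauli a.succ) := by
  obtain ⟨hh, hs, ha⟩ := pauli_spec
  refine ⟨?_, ?_, ?_, ?_⟩
  · rintro (u | a) <;> simp [Matrix.conjTranspose_kronecker, h.herm, hh]
  · rintro (u | a) <;> simp [← Matrix.mul_kronecker_mul, h.sq, hs]
  · have hneg : ∀ (X : Matrix Z Z ℂ) (Y : Matrix (Fin 2) (Fin 2) ℂ), X ⊗ₖ (-Y) = -(X ⊗ₖ Y) :=
      fun X Y => by ext ⟨i, k⟩ ⟨j, l⟩; simp
    have hneg' : ∀ (X : Matrix Z Z ℂ) (Y : Matrix (Fin 2) (Fin 2) ℂ), (-X) ⊗ₖ Y = -(X ⊗ₖ Y) :=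
      fun X Y => by ext ⟨i, k⟩ ⟨j, l⟩; simp
    rintro (u | a) (v | b) huv <;> simp only [Sum.elim_inl, Sum.elim_inr, ← Matrix.mul_kronecker_mul,
      Matrix.one_mul, Matrix.mul_one, hs]
    · rw [h.anti u v fun e => huv (by rw [e]), hneg']
    · rw [ha 0 b.succ (Fin.succ_ne_zero b).symm, hneg]
    · rw [ha a.succ 0 (Fin.succ_ne_zero a), hneg]
    · rw [ha a.succ b.succ fun e => huv (by rw [Fin.succ_injective _ e]), hneg]
  · simp only [Fintype.card_sum, Fintype.card_prod, Fintype.card_fin, pow_add, ← h.dim]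
    ring

theorem exists_cl (U : Type) [Fintype U] (hU : Odd (Fintype.card U)) :
    ∃ (d : ℕ) (γ : U → Matrix (Fin d) (Fin d) ℂ), IsCl γ := by
  obtain ⟨m, hm⟩ := hU
  induction m generalizing U with
  | zero =>
    refine ⟨1, fun _ => 1, fun _ => conjTranspose_one, fun _ => Matrix.one_mul 1, fun u v huv => ?_, ?_⟩
    · exact absurd (Fintype.card_le_one_iff.1 (le_of_eq (by simpa using hm)) u v) huv
    · simp [hm]
  | succ m ih =>
    obtain ⟨d, γ, h⟩ := ih (Fin (2 * m + 1)) (Fintype.card_fin _)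
    exact ⟨d * 2, _, isCl_reindex (isCl_step h)
      (Fintype.equivOfCardEq (by simp [hm]; ring)) finProdFinEquiv.symm⟩

omit [Fintype U] [DecidableEq U] in
theorem mono_empty (γ : U → Matrix Z Z ℂ) : mono γ ∅ = 1 := by
  simp [mono]

theorem mono_pair (hγ : IsCl γ) {i j : U} (h : i ≠ j) :
    ∃ σ : ℝ, (σ = 1 ∨ σ = -1) ∧ mono γ {i, j} = (σ : ℂ) • (γ i * γ j) := by
  have h1 := mono_insert hγ (u := i) (s := {j}) (by simpa using h)
  simpa [SgnEq, mono] using h1

theorem mono_unitary (hγ : IsCl γ) (s : Finset U) :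
    (mono γ s)ᴴ * mono γ s = 1 ∧ mono γ s * (mono γ s)ᴴ = 1 := by
  induction s using Finset.induction with
  | empty => simp [mono_empty]
  | insert u s hu ih =>
    obtain ⟨σ, hσ, e⟩ := mono_insert hγ hu
    have hσ2 : (σ : ℂ) * σ = 1 := by rcases hσ with rfl | rfl <;> simp
    rw [e]
    simp only [conjTranspose_smul, conjTranspose_mul, hγ.herm, Complex.star_def, Complex.conj_ofReal,
      Matrix.smul_mul, Matrix.mul_smul, smul_smul, hσ2, one_smul]
    constructor
    · rw [Matrix.mul_assoc, ← Matrix.mul_assoc (γ u), hγ.sq, Matrix.one_mul, ih.1]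
    · rw [Matrix.mul_assoc, ← Matrix.mul_assoc (mono γ s), ih.2, Matrix.one_mul, hγ.sq]

theorem mono_mul (hγ : IsCl γ) (s t : Finset U) :
    ∃ σ : ℝ, (σ = 1 ∨ σ = -1) ∧ mono γ s * mono γ t = (σ : ℂ) • mono γ (s ∆ t) := by
  show SgnEq _ _
  induction s using Finset.induction with
  | empty =>
    rw [mono_empty, Matrix.one_mul, ← Finset.bot_eq_empty, bot_symmDiff]
    exact SgnEq.refl _
  | insert u s hu ih =>
    refine ((mono_insert hγ hu).mul_right _).trans ?_
    rw [Matrix.mul_assoc]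
    refine (ih.mul_left _).trans ?_
    have e : insert u s = ({u} : Finset U) ∆ s := by
      ext x; by_cases hx : x = u <;> simp [Finset.mem_symmDiff, hx, hu]
    rw [e, symmDiff_assoc]
    exact gen_mul_mono hγ u _

theorem mono_adj (hγ : IsCl γ) (s : Finset U) :
    ∃ σ : ℝ, (σ = 1 ∨ σ = -1) ∧ (mono γ s)ᴴ = (σ : ℂ) • mono γ s := by
  obtain ⟨σ, hσ, e⟩ := mono_mul hγ s s
  refine ⟨σ, hσ, ?_⟩
  rw [symmDiff_self, Finset.bot_eq_empty, mono_empty] at e
  have h := congrArg ((mono γ s)ᴴ * ·) e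
  simp only [← Matrix.mul_assoc, (mono_unitary hγ s).1, Matrix.one_mul, Matrix.mul_smul, Matrix.mul_one] at h
  conv_rhs => rw [h, smul_smul]
  rcases hσ with rfl | rfl <;> simp

theorem mono_comm (hγ : IsCl γ) (s t : Finset U) :
    mono γ s * mono γ t
      = ((-1 : ℂ) ^ (s.card * t.card + (s ∩ t).card)) • (mono γ t * mono γ s) := by
  induction s using Finset.induction with
  | empty => simp [mono_empty]
  | insert u s hu ih =>
    obtain ⟨σ, -, e⟩ := mono_insert hγ hu
    rw [e, Matrix.smul_mul, Matrix.mul_assoc, ih, Matrix.mul_smul, ← Matrix.mul_assoc, gen_comm hγ u t,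
      Matrix.smul_mul, smul_smul, smul_smul, Matrix.mul_assoc, Matrix.mul_smul, smul_smul,
      Finset.card_insert_of_notMem hu]
    congr 1
    have hc : (insert u s ∩ t).card = (s ∩ t).card + if u ∈ t then 1 else 0 := by
      by_cases hut : u ∈ t
      · rw [Finset.insert_inter_of_mem hut, Finset.card_insert_of_notMem (by simp [hu]), if_pos hut]
      · rw [Finset.insert_inter_of_notMem hut, if_neg hut, add_zero]
    rw [hc]
    simp only [add_mul, one_mul, pow_add]
    ring

theorem mono_comm_even (hγ : IsCl γ) {s : Finset U} (hs : Even s.card) (t : Finset U) :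
    mono γ s * mono γ t = ((-1 : ℂ) ^ (s ∩ t).card) • (mono γ t * mono γ s) := by
  rw [mono_comm hγ, pow_add, (hs.mul_right _).neg_one_pow, one_mul]

section
variable {UA UB ZA ZB : Type} [Fintype UA] [Fintype UB] [DecidableEq UA] [DecidableEq UB]
  [Fintype ZA] [Fintype ZB] [DecidableEq ZA] [DecidableEq ZB]
  {γA : UA → Matrix ZA ZA ℂ} {γB : UB → Matrix ZB ZB ℂ}

/-- The coefficient of a monomial. -/
def coef (γA : UA → Matrix ZA ZA ℂ) (γB : UB → Matrix ZB ZB ℂ) (p : Finset UA × Finset UB)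
    (X : Matrix (ZA × ZB) (ZA × ZB) ℂ) : ℂ :=
  ((mono2 γA γB p)ᴴ * X).trace / (Fintype.card (ZA × ZB) : ℂ)

omit [DecidableEq UA] in
theorem card_pos (hA : IsCl γA) : 0 < Fintype.card ZA := by
  rcases Nat.eq_zero_or_pos (Fintype.card ZA) with h | h
  · simpa [h] using hA.dim.symm
  · exact h

theorem even_symmDiff {U : Type} [DecidableEq U] {s t : Finset U} (hs : Even s.card)
    (ht : Even t.card) : Even (s ∆ t).card := by
  have e : s ∆ t = (s ∪ t) \ (s ∩ t) := by
    ext x; simp [Finset.mem_symmDiff]; tauto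
  rw [e, Finset.card_sdiff_of_subset (Finset.inter_subset_union)]
  have := Finset.card_union_add_card_inter s t
  have h2 : (s ∩ t).card ≤ (s ∪ t).card := Finset.card_le_card Finset.inter_subset_union
  rw [Nat.even_iff] at hs ht ⊢
  omega

theorem trace_mono (hA : IsCl γA) {s : Finset UA} (hs : Even s.card) (hne : s.Nonempty) :
    (mono γA s).trace = 0 := by
  obtain ⟨u, hu⟩ := hne
  have e : γA u * mono γA s = -(mono γA s * γA u) := by
    rw [gen_comm hA, if_pos hu, pow_add, hs.neg_one_pow]; simp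
  have h : (mono γA s).trace = -(mono γA s).trace := by
    conv_lhs => rw [← Matrix.one_mul (mono γA s), ← hA.sq u, Matrix.mul_assoc, e, Matrix.mul_neg,
      Matrix.trace_neg, Matrix.trace_mul_comm, Matrix.mul_assoc, hA.sq, Matrix.mul_one]
  exact CharZero.eq_neg_self_iff.1 h

theorem trace_adj_mul (hA : IsCl γA) {s t : Finset UA} (hs : Even s.card) (ht : Even t.card) :
    ((mono γA s)ᴴ * mono γA t).trace = if s = t then (Fintype.card ZA : ℂ) else 0 := by
  by_cases h : s = t
  · subst h; rw [if_pos rfl, (mono_unitary hA s).1, Matrix.trace_one]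
  · rw [if_neg h]
    obtain ⟨a, -, ea⟩ := mono_adj hA s
    obtain ⟨b, -, eb⟩ := mono_mul hA s t
    rw [ea, Matrix.smul_mul, eb, smul_smul, Matrix.trace_smul,
      trace_mono hA (even_symmDiff hs ht) (Finset.symmDiff_nonempty.2 h), smul_zero]

theorem card_even {U : Type} [Fintype U] [DecidableEq U] (u : U) :
    2 * Fintype.card {s : Finset U // Even s.card} = 2 ^ Fintype.card U := by
  have e : {s : Finset U // Even s.card} ≃ {s : Finset U // ¬Even s.card} :=
    { toFun := fun s => ⟨({u} : Finset U) ∆ s.1, fun h => by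
        have := even_symmDiff h s.2
        rw [symmDiff_symmDiff_cancel_right] at this
        simp at this⟩
      invFun := fun s => ⟨({u} : Finset U) ∆ s.1, by
        by_cases hu : u ∈ s.1
        · rw [show ({u} : Finset U) ∆ s.1 = s.1.erase u by
            ext x; by_cases hx : x = u <;> simp [Finset.mem_symmDiff, hx, hu],
            Finset.card_erase_of_mem hu]
          obtain ⟨k, hk⟩ := Nat.not_even_iff_odd.1 s.2
          exact ⟨k, by omega⟩
        · rw [show ({u} : Finset U) ∆ s.1 = insert u s.1 by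
            ext x; by_cases hx : x = u <;> simp [Finset.mem_symmDiff, hx, hu],
            Finset.card_insert_of_notMem hu]
          exact (Nat.not_even_iff_odd.1 s.2).add_one⟩
      left_inv := fun s => Subtype.ext (symmDiff_symmDiff_cancel_left _ _)
      right_inv := fun s => Subtype.ext (symmDiff_symmDiff_cancel_left _ _) }
  have h := Fintype.card_subtype_compl (fun s : Finset U => Even s.card)
  rw [← Fintype.card_congr e, Fintype.card_finset] at h
  have := Fintype.card_subtype_le fun s : Finset U => Even s.card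
  rw [Fintype.card_finset] at this
  omega

theorem card_even_cl (hA : IsCl γA) :
    Fintype.card {s : Finset UA // Even s.card} = Fintype.card ZA ^ 2 := by
  rcases isEmpty_or_nonempty UA with h | ⟨⟨u⟩⟩
  · have := hA.dim
    rw [Fintype.card_eq_zero (α := UA), pow_zero] at this
    omega
  · have := card_even u
    rw [← hA.dim] at this
    omega

omit [DecidableEq ZA] [DecidableEq ZB] in
theorem prod_chan {A B : Type} [Fintype A] [Fintype B] [DecidableEq A] [DecidableEq B]
    {PA PB : Type} [Fintype PA] [Fintype PB]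
    (KA : PA → Matrix ZA A ℂ) (KB : PB → Matrix ZB B ℂ) (X : Matrix ZA ZA ℂ) (Y : Matrix ZB ZB ℂ) :
    chan (prodKraus KA KB) (X ⊗ₖ Y) = chan KA X ⊗ₖ chan KB Y := by
  ext ⟨a, b⟩ ⟨a', b'⟩
  simp only [chan, prodKraus, Matrix.conjTranspose_kronecker, ← Matrix.mul_kronecker_mul,
    Matrix.sum_apply, Matrix.kronecker_apply, Finset.sum_mul, Finset.mul_sum]
  rw [Fintype.sum_prod_type]
  exact Finset.sum_comm

theorem sum_wgt {l : ℝ} (hl : |l| ≤ 1) (S : Finset UA) :
    ∑ s : Finset UA, (wgt l s * wgt l s) * (-1 : ℝ) ^ (S ∩ s).card = l ^ S.card := by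
  obtain ⟨h1, h2⟩ := abs_le.1 hl
  have ha : ∀ b, modeO l b false * modeO l b false = if b then (1 - l) / 2 else (1 + l) / 2 := by
    rintro ⟨⟩ <;> exact Real.mul_self_sqrt (by linarith)
  have e : ∀ s : Finset UA, (wgt l s * wgt l s) * (-1 : ℝ) ^ (S ∩ s).card
      = (∏ u ∈ s, (1 - l) / 2 * if u ∈ S then -1 else 1) * ∏ _u ∈ sᶜ, (1 + l) / 2 := by
    intro s
    rw [wgt, ← Finset.prod_mul_distrib, ← Finset.prod_mul_prod_compl s,
      Finset.prod_congr (g := fun _ => (1 - l) / 2) rfl fun u hu => by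
        rw [ha, decide_eq_true hu, if_pos rfl],
      Finset.prod_congr (s₁ := sᶜ) (g := fun _ => (1 + l) / 2) rfl fun u hu => by
        rw [ha, decide_eq_false (Finset.mem_compl.1 hu), if_neg Bool.false_ne_true],
      Finset.prod_mul_distrib (f := fun _ => (1 - l) / 2), Finset.prod_ite_mem,
      Finset.prod_const (-1 : ℝ), Finset.inter_comm s S]
    ring
  simp only [e]
  rw [← Fintype.prod_add (fun u => (1 - l) / 2 * if u ∈ S then -1 else 1) fun _ => (1 + l) / 2,
    Finset.prod_congr rfl (g := fun u => if u ∈ S then l else 1) fun u _ => by split_ifs <;> ring,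
    Finset.prod_ite_mem, Finset.univ_inter, Finset.prod_const]

theorem chan_noise (hA : IsCl γA) {l : ℝ} (hl : |l| ≤ 1) {S : Finset UA} (hS : Even S.card) :
    chan (noise l γA) (mono γA S) = ((l : ℂ) ^ S.card) • mono γA S := by
  rw [← Complex.ofReal_pow, ← sum_wgt hl S, Complex.ofReal_sum, Finset.sum_smul, chan]
  refine Finset.sum_congr rfl fun s _ => ?_
  rw [noise, conjTranspose_smul, Complex.star_def, Complex.conj_ofReal, Matrix.smul_mul, Matrix.smul_mul,
    Matrix.mul_smul, smul_smul, Matrix.mul_assoc, mono_comm_even hA hS s, Matrix.mul_smul,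
    ← Matrix.mul_assoc, (mono_unitary hA s).1, Matrix.one_mul, smul_smul]
  push_cast
  ring_nf

omit [Fintype UA] [Fintype UB] [DecidableEq UA] [DecidableEq UB] in
theorem mono2_empty : mono2 γA γB (∅, ∅) = 1 := by
  simp [mono2, mono_empty]

theorem mono2_mul (hA : IsCl γA) (hB : IsCl γB) (p q : Finset UA × Finset UB) :
    ∃ σ : ℝ, (σ = 1 ∨ σ = -1) ∧
      mono2 γA γB p * mono2 γA γB q = (σ : ℂ) • mono2 γA γB (p.1 ∆ q.1, p.2 ∆ q.2) := by
  obtain ⟨a, ha, ea⟩ := mono_mul hA p.1 q.1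
  obtain ⟨b, hb, eb⟩ := mono_mul hB p.2 q.2
  refine ⟨a * b, ?_, ?_⟩
  · rcases ha with rfl | rfl <;> rcases hb with rfl | rfl <;> norm_num
  · simp only [mono2, ← Matrix.mul_kronecker_mul, ea, eb, Matrix.smul_kronecker, Matrix.kronecker_smul,
      smul_smul, Complex.ofReal_mul]
    rw [mul_comm]

theorem mono2_unitary (hA : IsCl γA) (hB : IsCl γB) (p : Finset UA × Finset UB) :
    (mono2 γA γB p)ᴴ * mono2 γA γB p = 1 ∧ mono2 γA γB p * (mono2 γA γB p)ᴴ = 1 := by
  simp only [mono2, Matrix.conjTranspose_kronecker, ← Matrix.mul_kronecker_mul, mono_unitary hA p.1,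
    mono_unitary hB p.2, Matrix.one_kronecker_one, and_self]

theorem norm_mono2_le (hA : IsCl γA) (hB : IsCl γB) (p : Finset UA × Finset UB) :
    ‖mono2 γA γB p‖ ≤ 1 := by
  exact norm_le_one_of_unitary (mono2_unitary hA hB p).1

theorem mono2_comm (hA : IsCl γA) (hB : IsCl γB) {p : Finset UA × Finset UB} (hp : EvenPair p)
    (q : Finset UA × Finset UB) :
    mono2 γA γB p * mono2 γA γB q
      = ((-1 : ℂ) ^ ((p.1 ∩ q.1).card + (p.2 ∩ q.2).card))
        • (mono2 γA γB q * mono2 γA γB p) := by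
  simp only [mono2, ← Matrix.mul_kronecker_mul, mono_comm_even hA hp.1, mono_comm_even hB hp.2,
    Matrix.smul_kronecker, Matrix.kronecker_smul, smul_smul, pow_add]
  rw [mul_comm]

open Classical in
theorem coef_mono2 (hA : IsCl γA) (hB : IsCl γB) {p q : Finset UA × Finset UB}
    (hp : EvenPair p) (hq : EvenPair q) :
    coef γA γB p (mono2 γA γB q) = if p = q then 1 else 0 := by
  rw [coef, mono2, mono2, Matrix.conjTranspose_kronecker, ← Matrix.mul_kronecker_mul,
    Matrix.trace_kronecker, trace_adj_mul hA hp.1 hq.1, trace_adj_mul hB hp.2 hq.2, Fintype.card_prod]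
  have h1 : (Fintype.card ZA : ℂ) ≠ 0 := Nat.cast_ne_zero.2 (card_pos hA).ne'
  have h2 : (Fintype.card ZB : ℂ) ≠ 0 := Nat.cast_ne_zero.2 (card_pos hB).ne'
  by_cases h : p = q
  · subst h; simp [h1, h2]
  · rw [if_neg h]
    rcases not_and_or.1 (fun e : p.1 = q.1 ∧ p.2 = q.2 => h (Prod.ext e.1 e.2)) with h' | h' <;> simp [h']

open Classical in
theorem expand (hA : IsCl γA) (hB : IsCl γB) (X : Matrix (ZA × ZB) (ZA × ZB) ℂ) :
    X = ∑ p : Finset UA × Finset UB, (if EvenPair p then coef γA γB p X else 0)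
      • mono2 γA γB p := by
  set b : {p : Finset UA × Finset UB // EvenPair p} → Matrix (ZA × ZB) (ZA × ZB) ℂ :=
    fun p => mono2 γA γB p.1 with hb
  have hlin : ∀ (g : {p : Finset UA × Finset UB // EvenPair p} → ℂ) q,
      coef γA γB q.1 (∑ p, g p • b p) = g q := by
    intro g q
    rw [coef, Matrix.mul_sum, Matrix.trace_sum, Finset.sum_div]
    have e : ∀ p, ((mono2 γA γB q.1)ᴴ * g p • b p).trace / (Fintype.card (ZA × ZB) : ℂ)
        = g p * if q.1 = p.1 then 1 else 0 := fun p => by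
      rw [← coef_mono2 hA hB q.2 p.2, coef, Matrix.mul_smul, Matrix.trace_smul, smul_eq_mul, mul_div_assoc]
    simp only [e, ← Subtype.ext_iff, mul_ite, mul_one, mul_zero]
    simp
  have hli : LinearIndependent ℂ b := Fintype.linearIndependent_iff.2 fun g hg q => by
    rw [← hlin g q, hg]; simp [coef]
  have hcard : Fintype.card {p : Finset UA × Finset UB // EvenPair p}
      = Module.finrank ℂ (Matrix (ZA × ZB) (ZA × ZB) ℂ) := by
    rw [Module.finrank_matrix, Module.finrank_self, mul_one, Fintype.card_prod, mul_mul_mul_comm,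
      ← sq, ← sq, ← card_even_cl hA, ← card_even_cl hB, ← Fintype.card_prod]
    exact Fintype.card_congr
      { toFun := fun p => (⟨p.1.1, p.2.1⟩, ⟨p.1.2, p.2.2⟩)
        invFun := fun p => ⟨(p.1.1, p.2.1), p.1.2, p.2.2⟩ }
  have hX : X ∈ Submodule.span ℂ (Set.range b) := by
    rw [hli.span_eq_top_of_card_eq_finrank' hcard]; trivial
  obtain ⟨g, rfl⟩ := (Submodule.mem_span_range_iff_exists_fun ℂ).1 hX
  simp only [ite_smul, zero_smul]
  rw [← Finset.sum_filter, Finset.sum_subtype (Finset.univ.filter fun p => EvenPair p)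
    (p := fun p => EvenPair p) (by simp)]
  refine Finset.sum_congr rfl fun p _ => ?_
  rw [hlin g p]

theorem noise_mono2 (hA : IsCl γA) (hB : IsCl γB) {l : ℝ} (hl : |l| ≤ 1)
    {p : Finset UA × Finset UB} (hp : EvenPair p) :
    chan (prodKraus (noise l γA) (noise l γB)) (mono2 γA γB p)
      = ((l : ℂ) ^ size p) • mono2 γA γB p := by
  rw [mono2, prod_chan, chan_noise hA hl hp.1, chan_noise hB hl hp.2, Matrix.smul_kronecker,
    Matrix.kronecker_smul, smul_smul, size, pow_add]

theorem norm_noise_le (hA : IsCl γA) (hB : IsCl γB) {l : ℝ} (hl : |l| ≤ 1)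
    (X : Matrix (ZA × ZB) (ZA × ZB) ℂ) :
    ‖chan (prodKraus (noise l γA) (noise l γB)) X‖ ≤ ‖X‖ := by
  refine (norm_sum_le _ _).trans ?_
  calc ∑ p : Finset UA × Finset UB, _
      ≤ ∑ p : Finset UA × Finset UB, (wgt l p.1 * wgt l p.1 * (wgt l p.2 * wgt l p.2)) * ‖X‖ :=
        Finset.sum_le_sum fun p _ => ?_
    _ = ‖X‖ := by
        have e1 := sum_wgt (UA := UA) hl ∅
        have e2 := sum_wgt (UA := UB) hl ∅
        simp only [Finset.empty_inter, Finset.card_empty, pow_zero, mul_one] at e1 e2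
        rw [Fintype.sum_prod_type]
        simp only [← Finset.sum_mul, ← Finset.mul_sum, e1, e2, one_mul]
  have hk : prodKraus (noise l γA) (noise l γB) p
      = ((wgt l p.1 * wgt l p.2 : ℝ) : ℂ) • mono2 γA γB p := by
    simp only [prodKraus, noise, mono2, Matrix.smul_kronecker, Matrix.kronecker_smul, smul_smul,
      Complex.ofReal_mul]
    rw [mul_comm]
  rw [hk, conjTranspose_smul, Complex.star_def, Complex.conj_ofReal, Matrix.smul_mul, Matrix.smul_mul,
    Matrix.mul_smul, smul_smul, norm_smul, ← Complex.ofReal_mul, Complex.norm_real, Real.norm_eq_abs,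
    abs_mul_self, mul_mul_mul_comm]
  refine mul_le_mul_of_nonneg_left ?_ (mul_nonneg (mul_self_nonneg _) (mul_self_nonneg _))
  have hu := norm_mono2_le hA hB p
  calc ‖(mono2 γA γB p)ᴴ * X * mono2 γA γB p‖ ≤ ‖(mono2 γA γB p)ᴴ‖ * ‖X‖ * ‖mono2 γA γB p‖ :=
        (norm_mul_le _ _).trans (mul_le_mul_of_nonneg_right (norm_mul_le _ _) (norm_nonneg _))
    _ ≤ 1 * ‖X‖ * 1 := by
        rw [Matrix.l2_opNorm_conjTranspose]
        gcongr
    _ = ‖X‖ := by ring

end

end Vale.Agent.P372.Zero
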