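import Vale.Agent.P372.Zero.Inv
import Vale.Agent.P372.Zero.Mono

/-!
Undoing the noise on a state near the identity.
-/

noncomputable section

open Matrix Finset
open scoped ComplexOrder Kronecker Matrix.Norms.L2Operator symmDiff

namespace Vale.Agent.P372.Zero

/-- A map with given Kraus operators, as a linear map. -/
def invChanLin {A Z P : Type} [Fintype Z] [Fintype P] (K : P → Matrix Z A ℂ) :
    Matrix Z Z ℂ →ₗ[ℂ] Matrix A A ℂ where
  toFun := chan K
  map_add' X Y := by simp [chan, Matrix.mul_add, Matrix.add_mul, Finset.sum_add_distrib]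
  map_smul' c X := by simp [chan, Finset.smul_sum]

theorem chan_conjTranspose {A Z P : Type} [Fintype Z] [Fintype P] (K : P → Matrix Z A ℂ)
    (X : Matrix Z Z ℂ) : chan K Xᴴ = (chan K X)ᴴ := by
  simp [chan, conjTranspose_sum, conjTranspose_mul, Matrix.mul_assoc]

theorem card_symmDiff_add {U : Type} [DecidableEq U] (s t : Finset U) :
    (s ∆ t).card + 2 * (s ∩ t).card = s.card + t.card := by
  rw [symmDiff_def, Finset.sup_eq_union, card_union_of_disjoint disjoint_sdiff_sdiff]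
  have h1 := card_sdiff_add_card_inter s t
  have h2 := card_sdiff_add_card_inter t s
  rw [inter_comm t s] at h2
  omega

variable {UA UB ZA ZB : Type} [Fintype UA] [Fintype UB] [DecidableEq UA] [DecidableEq UB]
  [Fintype ZA] [Fintype ZB] [DecidableEq ZA] [DecidableEq ZB]
  {γA : UA → Matrix ZA ZA ℂ} {γB : UB → Matrix ZB ZB ℂ}

theorem exists_preimage (hA : IsCl γA) (hB : IsCl γB) {l : ℝ} (hl : 0 < l) (hl1 : l < 1)
    (c : Finset UA × Finset UB → ℂ) (hc : ∀ p, c p ≠ 0 → EvenPair p ∧ size p ≤ 4)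
    (hherm : (∑ p, c p • mono2 γA γB p).IsHermitian)
    (hsmall : ‖∑ p, c p • mono2 γA γB p‖ * (12 / l) ^ 4 ≤ 1 / 4) :
    ∃ ω : Matrix (ZA × ZB) (ZA × ZB) ℂ, ω.IsHermitian ∧
      chan (prodKraus (noise l γA) (noise l γB)) ω * (1 - ∑ p, c p • mono2 γA γB p) = 1 ∧
      ‖ω - 1‖ ≤ 1 / 2 := by
  classical
  set X := ∑ p, c p • mono2 γA γB p with hX
  let mon : {p : Finset UA × Finset UB // EvenPair p} → Matrix (ZA × ZB) (ZA × ZB) ℂ :=
    fun p => mono2 γA γB p.1
  let deg : {p : Finset UA × Finset UB // EvenPair p} → ℕ := fun p => size p.1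
  let L : ℝ → Matrix (ZA × ZB) (ZA × ZB) ℂ →ₗ[ℂ] Matrix (ZA × ZB) (ZA × ZB) ℂ :=
    fun s => invChanLin (prodKraus (noise s γA) (noise s γB))
  have hX4 : X ∈ degLE mon deg 4 := by
    refine Submodule.sum_mem _ fun p _ => ?_
    by_cases h : c p = 0
    · simp [h]
    · exact Submodule.smul_mem _ _ (Submodule.subset_span ⟨⟨p, (hc p h).1⟩, (hc p h).2, rfl⟩)
  have hspan : Submodule.span ℂ (Set.range mon) = ⊤ := by
    refine eq_top_iff.2 fun Y _ => ?_
    rw [expand hA hB Y]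
    refine Submodule.sum_mem _ fun p _ => ?_
    split_ifs with h
    · exact Submodule.smul_mem _ _ (Submodule.subset_span ⟨⟨p, h⟩, rfl⟩)
    · simp
  have h1 : (1 : Matrix (ZA × ZB) (ZA × ZB) ℂ) ∈ degLE mon deg 0 :=
    Submodule.subset_span ⟨⟨(∅, ∅), by simp [EvenPair]⟩, by simp [deg, size], mono2_empty⟩
  have hmul : ∀ i j, ∃ (e : ℂ) (k : {p : Finset UA × Finset UB // EvenPair p}),
      mon i * mon j = e • mon k ∧ deg k ≤ deg i + deg j := by
    rintro ⟨p, hp⟩ ⟨q, hq⟩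
    obtain ⟨σ, -, h⟩ := mono2_mul hA hB p q
    have e1 := card_symmDiff_add p.1 q.1
    have e2 := card_symmDiff_add p.2 q.2
    refine ⟨σ, ⟨(p.1 ∆ q.1, p.2 ∆ q.2), ?_, ?_⟩, h, ?_⟩
    · have h0 := Nat.even_iff.1 (hp.1.add hq.1)
      simp only [Nat.even_iff]
      omega
    · have h0 := Nat.even_iff.1 (hp.2.add hq.2)
      simp only [Nat.even_iff]
      omega
    · simp only [deg, size]
      omega
  have hle : Real.exp 1 * (1 + 1 / l) ≤ 12 / l := by
    have h2 : 1 + 1 / l ≤ 2 / l := by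
      rw [le_div_iff₀ hl, add_mul, div_mul_cancel₀ _ hl.ne']
      linarith
    refine (mul_le_mul Real.exp_one_lt_d9.le h2 (by positivity) (by norm_num)).trans ?_
    rw [← mul_div_assoc]
    gcongr
    norm_num
  have hq : (Real.exp 1 * (1 + 1 / l)) ^ 4 * ‖X‖ ≤ 1 / 4 := by
    refine le_trans ?_ hsmall
    rw [mul_comm ‖X‖]
    gcongr
  obtain ⟨ω, hω, hpsd, hn, -, -⟩ := exists_damp_preimage (mon := mon) (deg := deg) (L := L)
    (ε := ‖X‖) (δ := 1 / 2)
    (fun s hs p => noise_mono2 hA hB hs p.2) (fun s hs Y => norm_noise_le hA hB hs Y)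
    hspan h1 hmul hl hl1.le (fun Y => chan_conjTranspose _ Y) hherm hX4 le_rfl
    (hq.trans_lt (by norm_num))
    (by rw [div_le_iff₀ (by linarith)]; linarith) (by norm_num)
  refine ⟨ω, hpsd.isHermitian, ?_, hn⟩
  have hsm : ‖X‖ < 1 := by
    have h12 : (1 : ℝ) ≤ (12 / l) ^ 4 := one_le_pow₀ (by rw [le_div_iff₀ hl]; linarith)
    have := le_mul_of_one_le_right (norm_nonneg X) h12
    linarith
  rw [show chan (prodKraus (noise l γA) (noise l γB)) ω = Ring.inverse (1 - X) from hω]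
  exact Ring.inverse_mul_cancel _ (isUnit_one_sub_of_norm_lt_one hsm)

end Vale.Agent.P372.Zero
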