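import Vale.Agent.P372.Zero.Norm

/-!
A quartic operator in two sets of anticommuting matrices: its norm, its values on product
states, and the entanglement of the states `(1 - c T)⁻¹`.
-/

noncomputable section

open Matrix Finset
open scoped ComplexOrder Kronecker Matrix.Norms.L2Operator

namespace Vale.Agent.P372.Zero.Corr

/-- Anticommuting Hermitian involutions. -/
def Clif {ι A : Type} [Fintype A] [DecidableEq A] (g : ι → Matrix A A ℂ) : Prop :=
  (∀ i, (g i)ᴴ = g i) ∧ (∀ i, g i * g i = 1) ∧ ∀ i j, i ≠ j → g i * g j = -(g j * g i)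

section Basic

variable {ι κ A : Type} [Fintype A] [DecidableEq A] {g : ι → Matrix A A ℂ}

theorem Clif.comp (hg : Clif g) (f : κ → ι) (hf : Function.Injective f) : Clif (g ∘ f) :=
  ⟨fun i => hg.1 _, fun i => hg.2.1 _, fun i j hij => hg.2.2 _ _ (hf.ne hij)⟩

theorem clif_star (hg : Clif g) (i : ι) :
    Clif fun j : {j // j ≠ i} => Complex.I • (g i * g j) := by
  refine ⟨fun j => ?_, fun j => ?_, fun j k hjk => ?_⟩
  · rw [conjTranspose_smul, conjTranspose_mul, hg.1, hg.1, hg.2.2 _ _ j.2]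
    simp
  · rw [smul_mul_smul_comm, Complex.I_mul_I, show g i * g j * (g i * g j)
      = g i * (g j * g i) * g j by noncomm_ring, hg.2.2 _ _ j.2, Matrix.mul_neg, Matrix.neg_mul,
      ← Matrix.mul_assoc, hg.2.1, Matrix.one_mul, hg.2.1]
    simp
  · have e : ∀ a b : {j // j ≠ i}, g i * g a * (g i * g b) = -(g a * g b) := fun a b => by
      rw [show g i * g a * (g i * g b) = g i * (g a * g i) * g b by noncomm_ring,
        hg.2.2 _ _ a.2, Matrix.mul_neg, Matrix.neg_mul, ← Matrix.mul_assoc, hg.2.1,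
        Matrix.one_mul]
    rw [smul_mul_smul_comm, smul_mul_smul_comm, e, e,
      hg.2.2 (j : ι) k fun h => hjk (Subtype.ext h)]
    simp

theorem trace_mul_self_eq_zero (hg : Clif g) {i j : ι} (h : i ≠ j) : (g i * g j).trace = 0 := by
  have e := congrArg Matrix.trace (hg.2.2 i j h)
  rw [trace_neg, trace_mul_comm (g j)] at e
  linear_combination e / 2

theorem re_trace_mul_nonneg {β M : Matrix A A ℂ} (hβ : β.PosSemidef) :
    0 ≤ (β * (Mᴴ * M)).trace.re := by
  rw [← Matrix.mul_assoc, trace_mul_comm, ← Matrix.mul_assoc]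
  exact (Complex.le_def.1 (hβ.mul_mul_conjTranspose_same M).trace_nonneg).1

theorem sum_sq_expect_le [Fintype ι] (hg : Clif g) {β : Matrix A A ℂ} (hβ : β.PosSemidef)
    (h1 : β.trace = 1) : ∑ i, ((β * g i).trace.re) ^ 2 ≤ 1 := by
  classical
  set b : ι → ℝ := fun i => (β * g i).trace.re with hb
  set S := ∑ i, b i ^ 2 with hS
  set X := ∑ i, (b i : ℂ) • g i with hX
  have hXX : X * X = (S : ℂ) • (1 : Matrix A A ℂ) := by
    have h2 : X * X + X * X = (S : ℂ) • (1 : Matrix A A ℂ) + (S : ℂ) • 1 := by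
      have e : X * X + X * X
          = ∑ i, ∑ j, ((b i : ℂ) * b j) • (g i * g j + g j * g i) := by
        have e1 : X * X = ∑ i, ∑ j, ((b i : ℂ) * b j) • (g i * g j) := by
          rw [hX, Finset.sum_mul]
          simp only [Finset.mul_sum, smul_mul_smul_comm]
        have e2 : X * X = ∑ i, ∑ j, ((b i : ℂ) * b j) • (g j * g i) := by
          rw [e1, Finset.sum_comm]
          exact Finset.sum_congr rfl fun i _ => Finset.sum_congr rfl fun j _ => by rw [mul_comm]
        simp only [smul_add, Finset.sum_add_distrib]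
        rw [← e1, ← e2]
      rw [e]
      have : ∀ i j, ((b i : ℂ) * b j) • (g i * g j + g j * g i)
          = if j = i then ((b i : ℂ) ^ 2 * 2) • (1 : Matrix A A ℂ) else 0 := by
        intro i j
        split_ifs with h
        · subst h; rw [hg.2.1, ← two_smul ℂ (1 : Matrix A A ℂ), smul_smul, pow_two]
        · rw [hg.2.2 i j (Ne.symm h), neg_add_cancel, smul_zero]
      simp only [this, Finset.sum_ite_eq', Finset.mem_univ, if_true, ← Finset.sum_smul, ← add_smul,
        hS]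
      push_cast
      rw [← Finset.sum_mul]; ring_nf
    have := congrArg (fun M => (2⁻¹ : ℂ) • M) h2
    simp only [smul_add, ← add_smul, smul_smul] at this
    rw [show (2⁻¹ : ℂ) + 2⁻¹ = 1 by norm_num, one_smul] at this
    rw [this]
    congr 1
    ring
  have hXh : Xᴴ = X := by
    simp [hX, conjTranspose_sum, hg.1]
  have h := re_trace_mul_nonneg (M := 1 - X) hβ
  have hβX : (β * X).trace.re = S := by
    simp [hX, hS, hb, Matrix.mul_sum, trace_sum, Complex.re_sum, pow_two]
  have e : (1 - X)ᴴ * (1 - X) = (1 + (S : ℂ)) • (1 : Matrix A A ℂ) - (2 : ℂ) • X := by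
    rw [conjTranspose_sub, conjTranspose_one, hXh, sub_mul, mul_sub, mul_sub, hXX, one_mul,
      mul_one, one_mul, two_smul, add_smul, one_smul]
    abel
  rw [e, Matrix.mul_sub, Matrix.mul_smul, Matrix.mul_smul, Matrix.mul_one, trace_sub, trace_smul,
    trace_smul, h1, smul_eq_mul, smul_eq_mul, mul_one, Complex.sub_re] at h
  simp [hβX] at h
  linarith

theorem trace_mul_real {α M : Matrix A A ℂ} (hα : αᴴ = α) (hM : Mᴴ = M) :
    ((α * M).trace.re : ℂ) = (α * M).trace := by
  apply Complex.conj_eq_iff_re.1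
  rw [← Complex.star_def, ← trace_conjTranspose, conjTranspose_mul, hα, hM, trace_mul_comm]

end Basic

theorem zero_of_eq_neg {M : Type} [AddCommGroup M] [Module ℂ M] {x : M} (e : x = -x) : x = 0 := by
  have h2 : (2 : ℂ) • x = 0 := by rw [two_smul]; exact add_eq_zero_iff_eq_neg.2 e
  exact (smul_eq_zero.1 h2).resolve_left two_ne_zero

theorem sum_pairs {N : ℕ} {M : Type} [AddCommMonoid M] (f : Fin N → Fin N → M)
    (hs : ∀ i j, f i j = f j i) (hd : ∀ i, f i i = 0) :
    ∑ i, ∑ j, f i j = (∑ u : Pairs N, f u.1.1 u.1.2) + ∑ u : Pairs N, f u.1.1 u.1.2 := by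
  classical
  have e : ∀ p : Fin N × Fin N, f p.1 p.2
      = (if p.1 < p.2 then f p.1 p.2 else 0) + if p.2 < p.1 then f p.2 p.1 else 0 := by
    intro p
    rcases lt_trichotomy p.1 p.2 with h | h | h
    · simp [h, h.not_gt]
    · simp [h, hd]
    · simp [h, h.not_gt, hs p.1 p.2]
  have e1 : ∑ p : Fin N × Fin N, (if p.1 < p.2 then f p.1 p.2 else 0)
      = ∑ u : Pairs N, f u.1.1 u.1.2 := by
    rw [← Finset.sum_filter]
    exact Finset.sum_subtype _ (fun p => by simp) _
  rw [← Fintype.sum_prod_type' (f := f), Finset.sum_congr rfl fun p _ => e p,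
    Finset.sum_add_distrib, e1]
  congr 1
  rw [← e1]
  exact Fintype.sum_equiv (Equiv.prodComm _ _) _ _ fun p => rfl

theorem card_pair (N : ℕ) : 2 * (Fintype.card (Pairs N) : ℝ) = (N : ℝ) * (N - 1) := by
  have h := sum_pairs (N := N) (M := ℝ) (fun i j => if i = j then 0 else 1)
    (fun i j => by simp [eq_comm]) (fun i => by simp)
  have e : ∀ u : Pairs N, (if u.1.1 = u.1.2 then (0 : ℝ) else 1) = 1 := fun u => if_neg u.2.ne
  simp only [e, Finset.sum_const, Finset.card_univ, nsmul_eq_mul, mul_one] at h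
  rw [two_mul, ← h]
  simp [Finset.sum_ite, Finset.filter_eq, Finset.filter_ne]
  rcases N with _ | n <;> simp

variable {N : ℕ} {A B : Type} [Fintype A] [DecidableEq A] [Fintype B] [DecidableEq B]
  {g : Fin N → Matrix A A ℂ} {h : Option (Pairs N) → Matrix B B ℂ}

/-- The matrix on Bob's side attached to a pair. -/
def eta (h : Option (Pairs N) → Matrix B B ℂ) (u : Pairs N) : Matrix B B ℂ :=
  Complex.I • (h none * h (some u))

theorem clif_eta (hh : Clif h) : Clif (eta h) :=
  (clif_star hh none).comp (fun u => ⟨some u, by simp⟩) fun u v e => by simpa using e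

theorem alice_herm (hg : Clif g) {i j : Fin N} (hij : i ≠ j) :
    (Complex.I • (g i * g j))ᴴ = Complex.I • (g i * g j) :=
  (clif_star hg i).1 ⟨j, hij.symm⟩

theorem alice_sq (hg : Clif g) {i j : Fin N} (hij : i ≠ j) :
    Complex.I • (g i * g j) * (Complex.I • (g i * g j)) = 1 :=
  (clif_star hg i).2.1 ⟨j, hij.symm⟩

theorem tmat_herm (hg : Clif g) (hh : Clif h) : (corr g h)ᴴ = corr g h := by
  simp only [corr, ← eta.eq_1, conjTranspose_sum, conjTranspose_kronecker]
  exact Finset.sum_congr rfl fun u _ => by rw [alice_herm hg u.2.ne, (clif_eta hh).1]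

theorem tmat_trace (hg : Clif g) : (corr g h).trace = 0 := by
  rw [corr, trace_sum]
  refine Finset.sum_eq_zero fun u _ => ?_
  rw [trace_kronecker, trace_smul, trace_mul_self_eq_zero hg u.2.ne, smul_zero, zero_mul]

theorem tmat_sq_trace (hg : Clif g) (hh : Clif h) :
    (corr g h * corr g h).trace
      = (Fintype.card (Pairs N) : ℂ) * Fintype.card A * Fintype.card B := by
  simp only [corr, ← eta.eq_1, Finset.sum_mul, Finset.mul_sum, trace_sum, ← mul_kronecker_mul,
    trace_kronecker]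
  rw [Finset.sum_congr rfl fun u _ => Finset.sum_eq_single u
    (fun v _ hv => by rw [trace_mul_self_eq_zero (clif_eta hh) hv, mul_zero])
    (fun hu => absurd (Finset.mem_univ u) hu)]
  have e : ∀ u : Pairs N, Complex.I • (g u.1.1 * g u.1.2) * (Complex.I • (g u.1.1 * g u.1.2)) = 1 :=
    fun u => alice_sq hg u.2.ne
  simp only [e, (clif_eta hh).2.1, trace_one, Finset.sum_const, Finset.card_univ, nsmul_eq_mul,
    mul_assoc]

theorem abs_tmat_product_le (hg : Clif g) (hh : Clif h) {α : Matrix A A ℂ} {β : Matrix B B ℂ}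
    (hα : α.PosSemidef) (hα1 : α.trace = 1) (hβ : β.PosSemidef) (hβ1 : β.trace = 1) :
    |((α ⊗ₖ β) * corr g h).trace.re| ≤ Real.sqrt (N / 2) := by
  set a : Fin N → Fin N → ℝ := fun i j => (α * (Complex.I • (g i * g j))).trace.re with ha
  set b : Pairs N → ℝ := fun u => (β * eta h u).trace.re with hb
  have e : ((α ⊗ₖ β) * corr g h).trace.re = ∑ u : Pairs N, a u.1.1 u.1.2 * b u := by
    simp only [corr, ← eta.eq_1, Finset.mul_sum, trace_sum, ← mul_kronecker_mul, trace_kronecker,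
      Complex.re_sum]
    refine Finset.sum_congr rfl fun u _ => ?_
    rw [← trace_mul_real hα.isHermitian.eq (alice_herm hg u.2.ne),
      ← trace_mul_real hβ.isHermitian.eq ((clif_eta hh).1 u), Complex.re_ofReal_mul,
      Complex.ofReal_re]
  have hb1 : ∑ u, b u ^ 2 ≤ 1 := sum_sq_expect_le (clif_eta hh) hβ hβ1
  set f : Fin N → Fin N → ℝ := fun i j => if i = j then 0 else a i j ^ 2 with hf
  have hfs : ∀ i j, f i j = f j i := by
    intro i j
    by_cases hij : i = j
    · rw [hij]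
    · simp only [hf, if_neg hij, if_neg (Ne.symm hij), ha]
      rw [hg.2.2 i j hij]
      simp
  have hrow : ∀ i, ∑ j, f i j ≤ 1 := by
    intro i
    have h1 := sum_sq_expect_le (clif_star hg i) hα hα1
    rw [← Finset.sum_subtype (univ.filter fun j => j ≠ i) (fun j => by simp)
      (fun j => ((α * (Complex.I • (g i * g j))).trace.re) ^ 2), Finset.sum_filter] at h1
    refine le_of_eq_of_le (Finset.sum_congr rfl fun j _ => ?_) h1
    by_cases hij : i = j
    · simp [hf, hij]
    · simp [hf, hij, Ne.symm hij, ha]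
  have ha2 : ∑ u : Pairs N, a u.1.1 u.1.2 ^ 2 ≤ N / 2 := by
    have e2 := sum_pairs f hfs fun i => by simp [hf]
    have e3 : ∀ u : Pairs N, f u.1.1 u.1.2 = a u.1.1 u.1.2 ^ 2 := fun u => if_neg u.2.ne
    simp only [e3] at e2
    have e4 : ∑ i, ∑ j, f i j ≤ (N : ℝ) := by
      simpa using Finset.sum_le_sum fun i (_ : i ∈ univ) => hrow i
    linarith
  rw [e]
  refine Real.le_sqrt_of_sq_le ?_ |>.trans' le_rfl
  rw [sq_abs]
  calc (∑ u : Pairs N, a u.1.1 u.1.2 * b u) ^ 2
      ≤ (∑ u : Pairs N, a u.1.1 u.1.2 ^ 2) * ∑ u, b u ^ 2 := sum_mul_sq_le_sq_mul_sq _ _ _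
    _ ≤ (N / 2) * 1 := mul_le_mul ha2 hb1 (by positivity) (by positivity)
    _ = N / 2 := mul_one _

section Norm

/-- `g i * g j` for distinct indices. -/
def gOff (g : Fin N → Matrix A A ℂ) (i j : Fin N) : Matrix A A ℂ :=
  if i = j then 0 else g i * g j

/-- `eta` as an antisymmetric matrix of operators. -/
def etaAnti (h : Option (Pairs N) → Matrix B B ℂ) (i j : Fin N) : Matrix B B ℂ :=
  if hij : i < j then eta h ⟨(i, j), hij⟩ else if hji : j < i then -eta h ⟨(j, i), hji⟩ else 0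

theorem etaAnti_self (i : Fin N) : etaAnti h i i = 0 := by simp [etaAnti]

theorem etaAnti_swap (i j : Fin N) : etaAnti h j i = -etaAnti h i j := by
  rcases lt_trichotomy i j with h1 | h1 | h1
  · simp [etaAnti, h1, h1.not_gt]
  · subst h1; simp [etaAnti]
  · simp [etaAnti, h1, h1.not_gt]

theorem etaAnti_eq (i j : Fin N) (hij : i ≠ j) :
    ∃ u : Pairs N, ((u.1 = (i, j)) ∧ etaAnti h i j = eta h u) ∨
      (u.1 = (j, i) ∧ etaAnti h i j = -eta h u) := by
  rcases lt_or_gt_of_ne hij with h1 | h1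
  · exact ⟨⟨(i, j), h1⟩, Or.inl ⟨rfl, by simp [etaAnti, h1]⟩⟩
  · exact ⟨⟨(j, i), h1⟩, Or.inr ⟨rfl, by simp [etaAnti, h1, h1.not_gt]⟩⟩

theorem etaAnti_herm (hh : Clif h) (i j : Fin N) : (etaAnti h i j)ᴴ = etaAnti h i j := by
  unfold etaAnti
  split_ifs <;> simp [(clif_eta hh).1]

theorem etaAnti_sq (hh : Clif h) {i j : Fin N} (hij : i ≠ j) :
    etaAnti h i j * etaAnti h i j = 1 := by
  obtain ⟨u, ⟨-, e⟩ | ⟨-, e⟩⟩ := etaAnti_eq (h := h) i j hij <;> simp [e, (clif_eta hh).2.1]

theorem etaAnti_comm (hh : Clif h) {i j k l : Fin N} (h1 : ¬(i = k ∧ j = l))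
    (h2 : ¬(i = l ∧ j = k)) :
    etaAnti h i j * etaAnti h k l = -(etaAnti h k l * etaAnti h i j) := by
  by_cases hij : i = j
  · subst hij; simp [etaAnti_self]
  by_cases hkl : k = l
  · subst hkl; simp [etaAnti_self]
  obtain ⟨u, ⟨eu, e⟩ | ⟨eu, e⟩⟩ := etaAnti_eq (h := h) i j hij <;>
    obtain ⟨v, ⟨ev, e'⟩ | ⟨ev, e'⟩⟩ := etaAnti_eq (h := h) k l hkl
  all_goals
    have huv : u ≠ v := fun huv => by
      rw [huv, ev, Prod.mk.injEq] at eu
      tauto
    simp [e, e', (clif_eta hh).2.2 u v huv]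

/-- One cterm of the operator, symmetric in its two indices. -/
def cterm (g : Fin N → Matrix A A ℂ) (h : Option (Pairs N) → Matrix B B ℂ) (i j : Fin N) :
    Matrix (A × B) (A × B) ℂ :=
  (Complex.I • gOff g i j) ⊗ₖ etaAnti h i j

theorem neg_kron_neg (X : Matrix A A ℂ) (Y : Matrix B B ℂ) : (-X) ⊗ₖ (-Y) = X ⊗ₖ Y := by
  ext a b; simp [kroneckerMap_apply]

theorem neg_kron (X : Matrix A A ℂ) (Y : Matrix B B ℂ) : (-X) ⊗ₖ Y = -(X ⊗ₖ Y) := by
  ext a b; simp [kroneckerMap_apply]

theorem kron_neg (X : Matrix A A ℂ) (Y : Matrix B B ℂ) : X ⊗ₖ (-Y) = -(X ⊗ₖ Y) := by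
  ext a b; simp [kroneckerMap_apply]

theorem term_symm (hg : Clif g) (i j : Fin N) : cterm g h i j = cterm g h j i := by
  by_cases hij : i = j
  · rw [hij]
  · rw [cterm, cterm, etaAnti_swap i j, gOff, gOff, if_neg hij, if_neg (Ne.symm hij),
      hg.2.2 j i (Ne.symm hij), smul_neg, neg_kron_neg]

theorem term_self (i : Fin N) : cterm g h i i = 0 := by simp [cterm, gOff]

theorem two_tmat (hg : Clif g) : ∑ i, ∑ j, cterm g h i j = corr g h + corr g h := by
  rw [sum_pairs _ (term_symm hg) term_self]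
  have e : ∀ u : Pairs N,
      cterm g h u.1.1 u.1.2 = (Complex.I • (g u.1.1 * g u.1.2)) ⊗ₖ eta h u := fun u => by
    simp [cterm, gOff, etaAnti, u.2.ne, u.2]
  simp only [e, corr, eta]

theorem term_sq (hg : Clif g) (hh : Clif h) {i j : Fin N} (hij : i ≠ j) :
    cterm g h i j * cterm g h i j = 1 := by
  rw [cterm, ← mul_kronecker_mul, gOff, if_neg hij, alice_sq hg hij, etaAnti_sq hh hij,
    one_kronecker_one]

theorem term_disjoint (hg : Clif g) (hh : Clif h) {i j k l : Fin N} (hik : i ≠ k) (hil : i ≠ l)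
    (hjk : j ≠ k) (hjl : j ≠ l) :
    cterm g h i j * cterm g h k l = -(cterm g h k l * cterm g h i j) := by
  by_cases hij : i = j
  · subst hij; simp [term_self]
  by_cases hkl : k = l
  · subst hkl; simp [term_self]
  rw [cterm, cterm, ← mul_kronecker_mul, ← mul_kronecker_mul,
    etaAnti_comm hh (fun e => hik e.1) (fun e => hil e.1), gOff, gOff, if_neg hij, if_neg hkl,
    smul_mul_smul_comm, smul_mul_smul_comm]
  have e : g i * g j * (g k * g l) = g k * g l * (g i * g j) := by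
    calc g i * g j * (g k * g l) = g i * (g j * g k) * g l := by noncomm_ring
      _ = -(g i * g k * (g j * g l)) := by rw [hg.2.2 j k hjk]; noncomm_ring
      _ = -(g k * (g i * g l) * g j) := by rw [hg.2.2 i k hik, hg.2.2 j l hjl]; noncomm_ring
      _ = g k * g l * (g i * g j) := by rw [hg.2.2 i l hil]; noncomm_ring
  rw [e, kron_neg]

/-- The common value of the four sums over pairs of terms with a shared index. -/
def star2 (g : Fin N → Matrix A A ℂ) (h : Option (Pairs N) → Matrix B B ℂ) :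
    Matrix (A × B) (A × B) ℂ :=
  ∑ m, (∑ i, cterm g h i m) * (∑ i, cterm g h m i)

theorem star2_eq (hg : Clif g) : star2 g h = ∑ i, ∑ j, ∑ l, cterm g h i j * cterm g h i l := by
  unfold star2
  refine Finset.sum_congr rfl fun m _ => ?_
  rw [Finset.sum_mul]
  exact Finset.sum_congr rfl fun i _ => by rw [Finset.mul_sum, term_symm hg i m]

theorem shared_sums (hg : Clif g) :
    (∑ p : Fin N × Fin N, ∑ q : Fin N × Fin N,
      ((if q.1 = p.1 then cterm g h p.1 p.2 * cterm g h q.1 q.2 else 0)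
      + (if q.1 = p.2 then cterm g h p.1 p.2 * cterm g h q.1 q.2 else 0)
      + (if q.2 = p.1 then cterm g h p.1 p.2 * cterm g h q.1 q.2 else 0)
      + (if q.2 = p.2 then cterm g h p.1 p.2 * cterm g h q.1 q.2 else 0)))
      = (4 : ℂ) • star2 g h := by
  have key : ∀ f : Fin N → Fin N → Matrix (A × B) (A × B) ℂ,
      (∑ q : Fin N × Fin N, f q.1 q.2) = ∑ k, ∑ l, f k l := fun f =>
    Fintype.sum_prod_type' (f := f)
  have s1 : ∀ i, ∀ M : Matrix (A × B) (A × B) ℂ, (∑ q : Fin N × Fin N,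
      if q.1 = i then M * cterm g h q.1 q.2 else 0) = ∑ l, M * cterm g h i l := fun i M => by
    rw [key fun k l => if k = i then M * cterm g h k l else 0, Finset.sum_comm]
    exact Finset.sum_congr rfl fun l _ => by simp
  have s2 : ∀ i, ∀ M : Matrix (A × B) (A × B) ℂ, (∑ q : Fin N × Fin N,
      if q.2 = i then M * cterm g h q.1 q.2 else 0) = ∑ l, M * cterm g h i l := fun i M => by
    rw [key fun k l => if l = i then M * cterm g h k l else 0]
    exact Finset.sum_congr rfl fun k _ => by rw [term_symm hg i k]; simp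
  have s3 : (∑ p : Fin N × Fin N, ∑ l, cterm g h p.1 p.2 * cterm g h p.1 l) = star2 g h := by
    rw [star2_eq hg, key fun i j => ∑ l, cterm g h i j * cterm g h i l]
  have s4 : (∑ p : Fin N × Fin N, ∑ l, cterm g h p.1 p.2 * cterm g h p.2 l) = star2 g h := by
    rw [star2_eq hg, key fun i j => ∑ l, cterm g h i j * cterm g h j l, Finset.sum_comm]
    exact Finset.sum_congr rfl fun i _ => Finset.sum_congr rfl fun j _ =>
      Finset.sum_congr rfl fun l _ => by rw [term_symm hg j i]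
  simp only [Finset.sum_add_distrib, s1, s2, s3, s4]
  module

theorem diag_sum (hg : Clif g) (hh : Clif h) :
    (∑ i, ∑ j, cterm g h i j * cterm g h i j)
      = ((N : ℂ) * (N - 1)) • (1 : Matrix (A × B) (A × B) ℂ) := by
  have sq : ∀ i j, cterm g h i j * cterm g h i j
      = if i = j then 0 else (1 : Matrix (A × B) (A × B) ℂ) := fun i j => by
    split_ifs with hij
    · simp [hij, term_self]
    · exact term_sq hg hh hij
  simp only [sq]
  simp [Finset.sum_ite, Finset.filter_ne, ← Nat.cast_smul_eq_nsmul ℂ, smul_smul]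
  rcases N with _ | n <;> simp

theorem four_tmat_sq (hg : Clif g) (hh : Clif h) :
    (4 : ℂ) • (corr g h * corr g h)
      = (4 : ℂ) • star2 g h - (2 * ((N : ℂ) * (N - 1))) • 1 := by
  set D : Fin N × Fin N → Fin N × Fin N → Prop := fun p q =>
    q.1 ≠ p.1 ∧ q.1 ≠ p.2 ∧ q.2 ≠ p.1 ∧ q.2 ≠ p.2 with hD
  set F : Fin N × Fin N → Fin N × Fin N → Matrix (A × B) (A × B) ℂ := fun p q =>
    cterm g h p.1 p.2 * cterm g h q.1 q.2 with hF
  have h4 : (4 : ℂ) • (corr g h * corr g h) = ∑ p, ∑ q, F p q := by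
    have e : ∑ p : Fin N × Fin N, cterm g h p.1 p.2 = corr g h + corr g h := by
      rw [← two_tmat hg]
      exact Fintype.sum_prod_type' (f := fun i j => cterm g h i j)
    have e2 : ∑ p, ∑ q, F p q
        = (∑ p : Fin N × Fin N, cterm g h p.1 p.2) * ∑ p : Fin N × Fin N, cterm g h p.1 p.2 := by
      rw [Finset.sum_mul]
      exact Finset.sum_congr rfl fun p _ => (Finset.mul_sum ..).symm
    rw [e2, e, add_mul, mul_add]
    module
  have hD0 : (∑ p, ∑ q, if D p q then F p q else 0) = 0 := by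
    apply zero_of_eq_neg
    conv_lhs => rw [Finset.sum_comm]
    rw [← Finset.sum_neg_distrib]
    refine Finset.sum_congr rfl fun q _ => ?_
    rw [← Finset.sum_neg_distrib]
    refine Finset.sum_congr rfl fun p _ => ?_
    by_cases hp : D p q
    · have hp' : D q p := ⟨hp.1.symm, hp.2.2.1.symm, hp.2.1.symm, hp.2.2.2.symm⟩
      rw [if_pos hp, if_pos hp']
      exact term_disjoint hg hh hp'.1 hp'.2.1 hp'.2.2.1 hp'.2.2.2
    · have hp' : ¬D q p := fun x =>
        hp ⟨x.1.symm, x.2.2.1.symm, x.2.1.symm, x.2.2.2.symm⟩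
      rw [if_neg hp, if_neg hp', neg_zero]
  have hsplit : ∀ p q, F p q = (if D p q then F p q else 0)
      + ((if q.1 = p.1 then F p q else 0) + (if q.1 = p.2 then F p q else 0)
      + (if q.2 = p.1 then F p q else 0) + (if q.2 = p.2 then F p q else 0))
      - ((if q = p then F p q else 0) + (if q = p.swap then F p q else 0)) := by
    rintro ⟨i, j⟩ ⟨k, l⟩
    by_cases hij : i = j
    · simp [hF, hij, term_self]
    by_cases hkl : k = l
    · simp [hF, hkl, term_self]
    simp only [hD, Prod.swap_prod_mk, Prod.mk.injEq]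
    generalize F (i, j) (k, l) = x
    by_cases h1 : k = i <;> by_cases h2 : k = j <;> by_cases h3 : l = i <;> by_cases h4 : l = j
    all_goals first
      | exact absurd (h1.symm.trans h2) hij
      | exact absurd (h3.symm.trans h4) hij
      | exact absurd (h1.trans h3.symm) hkl
      | exact absurd (h2.trans h4.symm) hkl
      | simp [h1, h2, h3, h4, hij, Ne.symm hij]
  have sE : (∑ p, ∑ q, if q = p then F p q else 0)
      = ((N : ℂ) * (N - 1)) • (1 : Matrix (A × B) (A × B) ℂ) := by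
    simp only [Finset.sum_ite_eq', Finset.mem_univ, if_true, hF]
    rw [← diag_sum hg hh]
    exact Fintype.sum_prod_type' (f := fun i j => cterm g h i j * cterm g h i j)
  have sF : (∑ p, ∑ q, if q = p.swap then F p q else 0)
      = ∑ p, ∑ q, if q = p then F p q else 0 := by
    simp only [Finset.sum_ite_eq', Finset.mem_univ, if_true, hF, Prod.fst_swap, Prod.snd_swap]
    exact Finset.sum_congr rfl fun p _ => by rw [term_symm hg p.2 p.1]
  have hA := shared_sums (h := h) hg
  rw [h4, Finset.sum_congr rfl fun p _ => Finset.sum_congr rfl fun q _ => hsplit p q]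
  simp only [hF] at hA ⊢
  simp only [Finset.sum_add_distrib, Finset.sum_sub_distrib] at hA ⊢
  simp only [hF] at hD0 sE sF
  rw [hA, hD0, sF, sE]
  module

theorem tmat_sq_eq (hg : Clif g) (hh : Clif h) :
    corr g h * corr g h = ((N : ℂ) * (N - 1) / 2) • 1
      - ∑ i, ∑ j, (gOff g i j) ⊗ₖ (∑ m, etaAnti h i m * etaAnti h m j) := by
  have key : star2 g h
      = ((N : ℂ) * (N - 1)) • 1
        - ∑ i, ∑ j, (gOff g i j) ⊗ₖ (∑ m, etaAnti h i m * etaAnti h m j) := by
    have e : ∀ i m j, cterm g h i m * cterm g h m j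
        = (if i = j then (if m = i then 0 else (1 : Matrix (A × B) (A × B) ℂ)) else 0)
          - gOff g i j ⊗ₖ (etaAnti h i m * etaAnti h m j) := by
      intro i m j
      by_cases him : i = m
      · subst him
        simp [term_self, etaAnti_self]
      by_cases hmj : m = j
      · subst hmj
        simp [term_self, etaAnti_self, him]
      by_cases hij : i = j
      · subst hij
        simp [term_symm hg m i, term_sq hg hh him, gOff, Ne.symm him]
      rw [cterm, cterm, ← mul_kronecker_mul, gOff, gOff, gOff, if_neg him, if_neg hmj, if_neg hij,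
        if_neg hij, smul_mul_smul_comm, Complex.I_mul_I,
        show g i * g m * (g m * g j) = g i * (g m * g m) * g j by noncomm_ring, hg.2.1,
        Matrix.mul_one, neg_smul, one_smul, zero_sub, neg_kron]
    have ek : ∀ i j, (∑ m, gOff g i j ⊗ₖ (etaAnti h i m * etaAnti h m j))
        = gOff g i j ⊗ₖ (∑ m, etaAnti h i m * etaAnti h m j) := fun i j => by
      ext a b; simp [kroneckerMap_apply, Finset.mul_sum, Matrix.sum_apply]
    calc star2 g h
        = ∑ i, ∑ j, ∑ m, cterm g h i m * cterm g h m j := by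
          simp only [star2, Finset.sum_mul]
          rw [Finset.sum_comm]
          refine Finset.sum_congr rfl fun i _ => ?_
          simp only [Finset.mul_sum]
          rw [Finset.sum_comm]
      _ = _ := by
          simp only [e, Finset.sum_sub_distrib, ek]
          congr 1
          simp [Finset.sum_ite_irrel, Finset.sum_ite, Finset.filter_ne',
            ← Nat.cast_smul_eq_nsmul ℂ, smul_smul]
          rcases N with _ | n <;> simp
  have h4 := congrArg (fun M => (4⁻¹ : ℂ) • M) (four_tmat_sq hg hh)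
  simp only [key, smul_sub, smul_smul] at h4
  norm_num at h4
  rw [h4, sub_right_comm, ← sub_smul]
  congr 2
  ring

theorem sum_R_sq (hh : Clif h) :
    ∑ i, ∑ j, (if i = j then 0 else
        (∑ m, etaAnti h i m * etaAnti h m j)ᴴ * (∑ m, etaAnti h i m * etaAnti h m j))
      = (∑ i : Fin N, ∑ j : Fin N, ∑ m : Fin N,
          if i ≠ j ∧ m ≠ i ∧ m ≠ j then (1 : ℂ) else 0) • (1 : Matrix B B ℂ) := by
  set E := etaAnti h with hE
  set f : Fin N → Fin N → Fin N → Fin N → Matrix B B ℂ := fun a m b m' =>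
    if a ≠ b ∧ m ≠ m' then E m b * E a m * (E a m' * E m' b) else 0 with hf
  have hflip : ∀ a m b m', f m b m' a = -f a m b m' := by
    intro a m b m'
    by_cases hc : a ≠ b ∧ m ≠ m'
    · have hc' : m ≠ m' ∧ b ≠ a := ⟨hc.2, hc.1.symm⟩
      simp only [hf, if_pos hc, if_pos hc']
      by_cases ham : a = m
      · subst ham; simp [hE, etaAnti_self]
      by_cases hmb : m = b
      · subst hmb; simp [hE, etaAnti_self]
      by_cases ham' : a = m'
      · subst ham'; simp [hE, etaAnti_self]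
      by_cases hm'b : m' = b
      · subst hm'b; simp [hE, etaAnti_self]
      have c1 : E m' b * E m b = -(E m b * E m' b) :=
        etaAnti_comm hh (fun e => hc.2 e.1.symm) (fun e => hm'b e.1)
      have c2 : E m' b * E a m = -(E a m * E m' b) :=
        etaAnti_comm hh (fun e => ham' e.1.symm) (fun e => hc.2 e.1.symm)
      have c3 : E m' b * E a m' = -(E a m' * E m' b) :=
        etaAnti_comm hh (fun e => ham' e.1.symm) (fun e => hc.1 e.2.symm)
      rw [show E b m' = -E m' b from etaAnti_swap m' b, show E m a = -E a m from etaAnti_swap a m]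
      calc -E m' b * E m b * (-E a m * E a m')
          = E m' b * E m b * (E a m * E a m') := by noncomm_ring
        _ = -(E m b * (E m' b * E a m) * E a m') := by rw [c1]; noncomm_ring
        _ = E m b * E a m * (E m' b * E a m') := by rw [c2]; noncomm_ring
        _ = -(E m b * E a m * (E a m' * E m' b)) := by rw [c3]; noncomm_ring
    · have hc' : ¬(m ≠ m' ∧ b ≠ a) := fun x => hc ⟨x.2.symm, x.1⟩
      simp only [hf, if_neg hc, if_neg hc', neg_zero]
  have hzero : ∑ a, ∑ m, ∑ b, ∑ m', f a m b m' = 0 := by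
    apply zero_of_eq_neg
    calc (∑ a, ∑ m, ∑ b, ∑ m', f a m b m') = ∑ m, ∑ b, ∑ m', ∑ a, f a m b m' := by
          rw [Finset.sum_comm]
          refine Finset.sum_congr rfl fun m _ => ?_
          rw [Finset.sum_comm]
          refine Finset.sum_congr rfl fun b _ => ?_
          rw [Finset.sum_comm]
      _ = ∑ m, ∑ b, ∑ m', ∑ a, -f m b m' a :=
          Finset.sum_congr rfl fun m _ => Finset.sum_congr rfl fun b _ =>
            Finset.sum_congr rfl fun m' _ => Finset.sum_congr rfl fun a _ => by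
              rw [hflip a m b m', neg_neg]
      _ = -∑ a, ∑ m, ∑ b, ∑ m', f a m b m' := by
          simp only [Finset.sum_neg_distrib]
  have hterm : ∀ i j, (if i = j then 0 else
      (∑ m, E i m * E m j)ᴴ * (∑ m, E i m * E m j))
      = ∑ m, ((∑ m', f i m j m')
        + if i ≠ j ∧ m ≠ i ∧ m ≠ j then (1 : Matrix B B ℂ) else 0) := by
    intro i j
    by_cases hij : i = j
    · simp [hij, hf]
    rw [if_neg hij]
    simp only [conjTranspose_sum, conjTranspose_mul, hE, etaAnti_herm hh, Finset.sum_mul,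
      Finset.mul_sum]
    rw [Finset.sum_comm]
    refine Finset.sum_congr rfl fun m _ => ?_
    rw [← Finset.add_sum_erase _ _ (Finset.mem_univ m), add_comm]
    congr 1
    · rw [← Finset.sum_erase (s := univ) (a := m) (f := fun m' => f i m j m') (by simp [hf])]
      refine Finset.sum_congr rfl fun m' hm' => ?_
      simp [hf, hij, (Ne.symm (Finset.mem_erase.1 hm').1), hE]
    · by_cases hm : m ≠ i ∧ m ≠ j
      · rw [if_pos ⟨hij, hm.1, hm.2⟩, show ∀ X Y : Matrix B B ℂ, X * Y * (Y * X) = X * (Y * Y) * X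
          from fun X Y => by noncomm_ring, etaAnti_sq hh (Ne.symm hm.1), Matrix.mul_one,
          etaAnti_sq hh hm.2]
      · rw [if_neg fun x => hm x.2]
        rcases not_and_or.1 hm with h' | h' <;> simp [not_ne_iff.1 h', etaAnti_self]
  rw [Finset.sum_congr rfl fun i _ => Finset.sum_congr rfl fun j _ => hterm i j]
  simp only [Finset.sum_add_distrib]
  rw [show (∑ i, ∑ j, ∑ m, ∑ m', f i m j m') = ∑ a, ∑ m, ∑ b, ∑ m', f a m b m' from
    Finset.sum_congr rfl fun i _ => Finset.sum_comm, hzero, zero_add]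
  simp only [Finset.sum_smul, ite_smul, one_smul, zero_smul]

theorem tmat_sq_le (hg : Clif g) (hh : Clif h) :
    ((((N : ℝ) ^ 2 + (N : ℝ) ^ 2 * Real.sqrt N : ℝ) : ℂ) • (1 : Matrix (A × B) (A × B) ℂ)
      - corr g h * corr g h).PosSemidef := by
  rcases Nat.eq_zero_or_pos N with hN | hN
  · subst hN
    simp [corr, Finset.univ_eq_empty, PosSemidef.zero]
  set R : Fin N → Fin N → Matrix B B ℂ := fun i j =>
    if i = j then 0 else ∑ m, etaAnti h i m * etaAnti h m j with hR
  set X : Fin N → Fin N → Matrix (A × B) (A × B) ℂ := fun i j => gOff g i j ⊗ₖ 1 with hX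
  set Y : Fin N → Fin N → Matrix (A × B) (A × B) ℂ := fun i j => 1 ⊗ₖ R i j with hY
  set s : ℝ := Real.sqrt (Real.sqrt N) with hs
  have hs0 : 0 < s := by positivity
  set L := ∑ i, ∑ j, (gOff g i j) ⊗ₖ (∑ m, etaAnti h i m * etaAnti h m j) with hL
  have hXY : ∑ i, ∑ j, X i j * Y i j = L := by
    refine Finset.sum_congr rfl fun i _ => Finset.sum_congr rfl fun j _ => ?_
    simp only [hX, hY, ← mul_kronecker_mul, Matrix.mul_one, Matrix.one_mul, hR]
    split_ifs with hij
    · simp [hij, gOff]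
    · rfl
  have eT := tmat_sq_eq hg hh
  have hLh : Lᴴ = L := by
    have e : L = ((N : ℂ) * (N - 1) / 2) • 1 - corr g h * corr g h := by rw [eT, hL]; abel
    rw [e, conjTranspose_sub, conjTranspose_smul, conjTranspose_one, conjTranspose_mul,
      tmat_herm hg hh]
    simp
  have hXX : ∑ i, ∑ j, X i j * (X i j)ᴴ
      = ((N : ℂ) * (N - 1)) • (1 : Matrix (A × B) (A × B) ℂ) := by
    have e : ∀ i j, X i j * (X i j)ᴴ
        = if i = j then 0 else (1 : Matrix (A × B) (A × B) ℂ) := fun i j => by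
      simp only [hX, conjTranspose_kronecker, conjTranspose_one, ← mul_kronecker_mul,
        Matrix.mul_one, gOff]
      split_ifs with hij
      · simp
      · rw [conjTranspose_mul, hg.1, hg.1,
          show g i * g j * (g j * g i) = g i * (g j * g j) * g i by noncomm_ring, hg.2.1,
          Matrix.mul_one, hg.2.1, one_kronecker_one]
    simp only [e]
    simp [Finset.sum_ite, Finset.filter_ne, ← Nat.cast_smul_eq_nsmul ℂ, smul_smul]
    rcases N with _ | n <;> simp
  set q : ℝ := ∑ i : Fin N, ∑ j : Fin N, ∑ m : Fin N,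
      if i ≠ j ∧ m ≠ i ∧ m ≠ j then (1 : ℝ) else 0 with hq
  have hYY : ∑ i, ∑ j, (Y i j)ᴴ * Y i j = (q : ℂ) • (1 : Matrix (A × B) (A × B) ℂ) := by
    have e : ∀ i j, (Y i j)ᴴ * Y i j = (1 : Matrix A A ℂ) ⊗ₖ ((R i j)ᴴ * R i j) := fun i j => by
      simp [hY, conjTranspose_kronecker, ← mul_kronecker_mul]
    have e2 : ∑ i, ∑ j, (R i j)ᴴ * R i j = (q : ℂ) • (1 : Matrix B B ℂ) := by
      have e3 : ∀ i j, (R i j)ᴴ * R i j = if i = j then 0 else
          (∑ m, etaAnti h i m * etaAnti h m j)ᴴ * (∑ m, etaAnti h i m * etaAnti h m j) :=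
        fun i j => by simp only [hR]; split_ifs <;> simp
      simp only [e3]
      rw [sum_R_sq hh, hq]
      push_cast [apply_ite Complex.ofReal]
      rfl
    rw [Finset.sum_congr rfl fun i _ => Finset.sum_congr rfl fun j _ => e i j]
    have ek : ∑ i, ∑ j, (1 : Matrix A A ℂ) ⊗ₖ ((R i j)ᴴ * R i j)
        = (1 : Matrix A A ℂ) ⊗ₖ ∑ i, ∑ j, ((R i j)ᴴ * R i j) := by
      ext a b; simp [kroneckerMap_apply, Finset.mul_sum, Matrix.sum_apply]
    rw [ek, e2, kronecker_smul, one_kronecker_one]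
  have hq3 : q ≤ (N : ℝ) ^ 3 := by
    refine le_trans (Finset.sum_le_sum fun i _ => Finset.sum_le_sum fun j _ =>
      Finset.sum_le_sum (g := fun _ : Fin N => (1 : ℝ)) fun m _ => by
        split_ifs <;> norm_num) ?_
    simp [pow_succ, mul_assoc]
  have hs2 : s ^ 2 = Real.sqrt N := Real.sq_sqrt (Real.sqrt_nonneg _)
  set W : Fin N → Fin N → Matrix (A × B) (A × B) ℂ := fun i j =>
    (s : ℂ) • (X i j)ᴴ + ((s⁻¹ : ℝ) : ℂ) • Y i j with hW
  have hpsd : (∑ i, ∑ j, (W i j)ᴴ * W i j).PosSemidef :=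
    posSemidef_sum _ fun i _ => posSemidef_sum _ fun j _ => posSemidef_conjTranspose_mul_self _
  have hsum : ∑ i, ∑ j, (W i j)ᴴ * W i j
      = ((s ^ 2 * ((N : ℝ) * (N - 1)) + q / s ^ 2 : ℝ) : ℂ) • 1 + (2 : ℂ) • L := by
    have e : ∀ i j, (W i j)ᴴ * W i j = ((s ^ 2 : ℝ) : ℂ) • (X i j * (X i j)ᴴ)
        + (X i j * Y i j + (X i j * Y i j)ᴴ)
        + (((s ^ 2)⁻¹ : ℝ) : ℂ) • ((Y i j)ᴴ * Y i j) := fun i j => by
      have hs' : (s : ℂ) ≠ 0 := by exact_mod_cast hs0.ne'
      simp only [hW, conjTranspose_add, conjTranspose_smul, conjTranspose_conjTranspose,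
        Complex.star_def, Complex.conj_ofReal, conjTranspose_mul, add_mul, mul_add,
        smul_mul_smul_comm]
      push_cast
      rw [mul_inv_cancel₀ hs', inv_mul_cancel₀ hs', one_smul, one_smul, pow_two, mul_inv]
      abel
    simp only [e, Finset.sum_add_distrib, ← Finset.smul_sum, hXX, hYY, hXY,
      ← conjTranspose_sum, hLh, smul_smul, two_smul]
    push_cast
    rw [add_smul, div_eq_mul_inv, mul_comm (q : ℂ)]
    abel
  rw [hsum] at hpsd
  have hd : 0 ≤ 2 * ((N : ℝ) ^ 2 + (N : ℝ) ^ 2 * Real.sqrt N) - (N : ℝ) * (N - 1)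
      - (s ^ 2 * ((N : ℝ) * (N - 1)) + q / s ^ 2) := by
    have hN0 : (0 : ℝ) ≤ N := Nat.cast_nonneg _
    have hr : 0 < Real.sqrt N := by positivity
    have h1 : q / s ^ 2 ≤ (N : ℝ) ^ 2 * Real.sqrt N := by
      rw [hs2, div_le_iff₀ hr, mul_assoc, Real.mul_self_sqrt hN0, ← pow_succ]
      exact hq3
    rw [hs2] at h1 ⊢
    nlinarith
  have hfin : (2⁻¹ : ℂ) • (((s ^ 2 * ((N : ℝ) * (N - 1)) + q / s ^ 2 : ℝ) : ℂ) • 1 + (2 : ℂ) • L
        + (((2 * ((N : ℝ) ^ 2 + (N : ℝ) ^ 2 * Real.sqrt N) - (N : ℝ) * (N - 1)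
          - (s ^ 2 * ((N : ℝ) * (N - 1)) + q / s ^ 2) : ℝ) : ℂ) • (1 : Matrix (A × B) (A × B) ℂ)))
      = (((N : ℝ) ^ 2 + (N : ℝ) ^ 2 * Real.sqrt N : ℝ) : ℂ) • 1 - corr g h * corr g h := by
    rw [eT, ← hL]
    push_cast
    module
  rw [← hfin]
  exact (hpsd.add (PosSemidef.one.smul (Complex.zero_le_real.2 hd))).smul
    (by norm_num [Complex.le_def])

end Norm

section Resolvent

variable {ι : Type} [Fintype ι] [DecidableEq ι] {T : Matrix ι ι ℂ} {r : ℝ}

theorem posSemidef_mul_self (hT : Tᴴ = T) : (T * T).PosSemidef := by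
  simpa [hT] using posSemidef_conjTranspose_mul_self T

theorem posSemidef_sub_of_sq (hT : Tᴴ = T) (hr : 0 < r)
    (h : (((r ^ 2 : ℝ) : ℂ) • (1 : Matrix ι ι ℂ) - T * T).PosSemidef) :
    ((r : ℂ) • (1 : Matrix ι ι ℂ) - T).PosSemidef := by
  have h1 : (((r : ℂ) • (1 : Matrix ι ι ℂ) - T) * ((r : ℂ) • 1 - T)).PosSemidef :=
    posSemidef_mul_self (by simp [hT])
  have e : (((2 * r)⁻¹ : ℝ) : ℂ) • (((r : ℂ) • (1 : Matrix ι ι ℂ) - T) * ((r : ℂ) • 1 - T)
      + (((r ^ 2 : ℝ) : ℂ) • 1 - T * T)) = (r : ℂ) • 1 - T := by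
    have hr' : (r : ℂ) ≠ 0 := by exact_mod_cast hr.ne'
    simp only [sub_mul, mul_sub, smul_mul_assoc, mul_smul_comm, one_mul, mul_one, smul_smul]
    match_scalars <;> push_cast <;> field_simp <;> ring
  rw [← e]
  exact (h1.add h).smul (Complex.zero_le_real.2 (by positivity))

theorem posSemidef_add_of_sq (hT : Tᴴ = T) (hr : 0 < r)
    (h : (((r ^ 2 : ℝ) : ℂ) • (1 : Matrix ι ι ℂ) - T * T).PosSemidef) :
    ((r : ℂ) • (1 : Matrix ι ι ℂ) + T).PosSemidef := by
  simpa using posSemidef_sub_of_sq (T := -T) (by simp [hT]) hr (by simpa using h)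

theorem resolvent_posDef (hT : Tᴴ = T) (hr : 0 < r)
    (h : (((r ^ 2 : ℝ) : ℂ) • (1 : Matrix ι ι ℂ) - T * T).PosSemidef) {c : ℝ} (hc : 0 ≤ c)
    (hε : c * r < 1) : (1 - (c : ℂ) • T).PosDef := by
  have e : 1 - (c : ℂ) • T = ((1 - c * r : ℝ) : ℂ) • (1 : Matrix ι ι ℂ)
      + (c : ℂ) • ((r : ℂ) • 1 - T) := by
    push_cast; module
  rw [e]
  exact (PosDef.one.smul (by exact_mod_cast sub_pos.2 hε)).add_posSemidef
    ((posSemidef_sub_of_sq hT hr h).smul (Complex.zero_le_real.2 hc))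

theorem resolvent_trace [Nonempty ι] (hT : Tᴴ = T) (htr : T.trace = 0) (hr : 0 < r)
    (h : (((r ^ 2 : ℝ) : ℂ) • (1 : Matrix ι ι ℂ) - T * T).PosSemidef) {c : ℝ} (hc : 0 ≤ c)
    (hε : c * r < 1) :
    0 < (1 - (c : ℂ) • T)⁻¹.trace.re ∧
      (1 - c * r) * (1 - (c : ℂ) • T)⁻¹.trace.re ≤ Fintype.card ι ∧
      c * (T * T).trace.re ≤ (1 + c * r) * ((1 - (c : ℂ) • T)⁻¹ * T).trace.re := by
  set x := 1 - (c : ℂ) • T with hx
  set R := x⁻¹
  set ε := c * r
  have hpd : x.PosDef := resolvent_posDef hT hr h hc hε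
  have hdet : IsUnit x.det := (Matrix.isUnit_iff_isUnit_det x).1 hpd.isUnit
  have hxR : x * R = 1 := mul_nonsing_inv x hdet
  have hRx : R * x = 1 := nonsing_inv_mul x hdet
  have hRh : Rᴴ = R := hpd.inv.isHermitian.eq
  set y := (c : ℂ) • ((r : ℂ) • (1 : Matrix ι ι ℂ) - T) with hy
  set z := (c : ℂ) • ((r : ℂ) • (1 : Matrix ι ι ℂ) + T) with hz
  have hyp : y.PosSemidef := (posSemidef_sub_of_sq hT hr h).smul (Complex.zero_le_real.2 hc)
  have hzp : z.PosSemidef := (posSemidef_add_of_sq hT hr h).smul (Complex.zero_le_real.2 hc)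
  have hε0 : 0 ≤ 1 - ε := by linarith
  have xy : x * y = ((1 - ε : ℝ) : ℂ) • y + y * y := by
    simp only [hx, hy, ε, sub_mul, mul_sub, smul_mul_assoc, mul_smul_comm, one_mul, mul_one,
      smul_smul]
    push_cast
    module
  have xz : x * z = ((1 - ε : ℝ) : ℂ) • z + ((c ^ 2 : ℝ) : ℂ) • (((r ^ 2 : ℝ) : ℂ) • 1 - T * T) := by
    simp only [hx, hz, ε, sub_mul, mul_add, smul_mul_assoc, mul_smul_comm, one_mul, mul_one,
      smul_smul]
    push_cast
    module
  have pY : (y * R).PosSemidef := by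
    have := ((hyp.smul (Complex.zero_le_real.2 hε0)).add
      (posSemidef_mul_self hyp.isHermitian.eq)).mul_mul_conjTranspose_same R
    rwa [← xy, hRh, ← Matrix.mul_assoc, hRx, Matrix.one_mul] at this
  have pZ : (z * R).PosSemidef := by
    have := ((hzp.smul (Complex.zero_le_real.2 hε0)).add
      (h.smul (Complex.zero_le_real.2 (sq_nonneg c)))).mul_mul_conjTranspose_same R
    rwa [← xz, hRh, ← Matrix.mul_assoc, hRx, Matrix.one_mul] at this
  have eY : y * R = 1 - ((1 - ε : ℝ) : ℂ) • R := by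
    have e : y = x - ((1 - ε : ℝ) : ℂ) • (1 : Matrix ι ι ℂ) := by
      simp only [hx, hy, ε]; push_cast; module
    rw [e, sub_mul, hxR, smul_mul_assoc, Matrix.one_mul]
  have eZ : z * R = ((1 + ε : ℝ) : ℂ) • R - 1 := by
    have e : z = ((1 + ε : ℝ) : ℂ) • (1 : Matrix ι ι ℂ) - x := by
      simp only [hx, hz, ε]; push_cast; module
    rw [e, sub_mul, hxR, smul_mul_assoc, Matrix.one_mul]
  refine ⟨(Complex.lt_def.1 hpd.inv.trace_pos).1, ?_, ?_⟩
  · have h1 := (Complex.le_def.1 pY.trace_nonneg).1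
    rw [eY, trace_sub, trace_one, trace_smul, smul_eq_mul] at h1
    simp at h1
    linarith
  · have h1 := (Complex.le_def.1 (pZ.mul_mul_conjTranspose_same T).trace_nonneg).1
    rw [hT, eZ, mul_sub, sub_mul, mul_smul_comm, smul_mul_assoc, Matrix.mul_one, trace_sub,
      trace_smul, smul_eq_mul] at h1
    simp at h1
    have e2 : (R * T).trace.re = c * (T * R * T).trace.re := by
      have e3 : R = 1 + (c : ℂ) • (R * T) := by
        have : R * x = R - (c : ℂ) • (R * T) := by
          rw [hx, mul_sub, mul_one, mul_smul_comm]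
        rw [hRx] at this
        rw [this]; abel
      conv_lhs => rw [e3]
      rw [add_mul, Matrix.one_mul, smul_mul_assoc, trace_add, htr, zero_add, trace_smul,
        smul_eq_mul, Complex.re_ofReal_mul, trace_mul_cycle]
    rw [e2]
    nlinarith

end Resolvent

theorem not_separable {dA dB : ℕ} [NeZero dA] [NeZero dB]
    {g : Fin N → Matrix (Fin dA) (Fin dA) ℂ} {h : Option (Pairs N) → Matrix (Fin dB) (Fin dB) ℂ}
    (hg : Clif g) (hh : Clif h) {c r : ℝ} (hc : 0 ≤ c) (hr : 0 < r) (hε : c * r < 1)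
    (hT : (((r ^ 2 : ℝ) : ℂ) • (1 : Matrix (Fin dA × Fin dB) (Fin dA × Fin dB) ℂ)
      - corr g h * corr g h).PosSemidef)
    (hbig : Real.sqrt (N / 2) * (1 + c * r) < c * Fintype.card (Pairs N) * (1 - c * r)) :
    ¬ IsSeparable ((((1 - (c : ℂ) • corr g h)⁻¹).trace)⁻¹ • (1 - (c : ℂ) • corr g h)⁻¹) := by
  rintro ⟨m, p, α, β, hp, hp1, hα, hβ, e⟩
  obtain ⟨hR0, hR1, hR2⟩ :=
    resolvent_trace (tmat_herm hg hh) (tmat_trace hg) hr hT hc hε
  set R := (1 - (c : ℂ) • corr g h)⁻¹
  have hup : (((R.trace)⁻¹ • R) * corr g h).trace.re ≤ Real.sqrt (N / 2) := by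
    rw [e, Finset.sum_mul, trace_sum, Complex.re_sum]
    calc ∑ i, ((p i : ℂ) • (α i ⊗ₖ β i) * corr g h).trace.re
        ≤ ∑ i, p i * Real.sqrt (N / 2) := Finset.sum_le_sum fun i _ => by
          rw [smul_mul_assoc, trace_smul, smul_eq_mul, Complex.re_ofReal_mul]
          exact mul_le_mul_of_nonneg_left
            ((le_abs_self _).trans (abs_tmat_product_le hg hh (hα i).1 (hα i).2 (hβ i).1 (hβ i).2))
            (hp i)
      _ = Real.sqrt (N / 2) := by rw [← Finset.sum_mul, hp1, one_mul]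
  have hreal : R.trace = (R.trace.re : ℂ) := by
    have := (resolvent_posDef (tmat_herm hg hh) hr hT hc hε).inv.trace_pos
    exact Complex.ext rfl (by simpa [R] using (Complex.lt_def.1 this).2.symm)
  rw [smul_mul_assoc, trace_smul, smul_eq_mul, hreal, ← Complex.ofReal_inv,
    Complex.re_ofReal_mul, inv_mul_le_iff₀ hR0] at hup
  rw [tmat_sq_trace hg hh] at hR2
  simp at hR1 hR2
  have hD : (0 : ℝ) < (dA : ℝ) * dB := by
    have := NeZero.pos dA; have := NeZero.pos dB; positivity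
  have hs : 0 ≤ Real.sqrt (N / 2) := Real.sqrt_nonneg _
  have hcr : 0 ≤ c * r := by positivity
  nlinarith [mul_le_mul_of_nonneg_left hup (mul_nonneg (by linarith : (0:ℝ) ≤ 1 + c * r) (by linarith : (0:ℝ) ≤ 1 - c * r)),
    mul_le_mul_of_nonneg_left hR1 (mul_nonneg hs (by linarith : (0:ℝ) ≤ 1 + c * r)),
    mul_le_mul_of_nonneg_left hR2 (by linarith : (0:ℝ) ≤ 1 - c * r)]

end Corr

variable {N : ℕ} {dA dB : ℕ} {γ : Fin N → Matrix (Fin dA) (Fin dA) ℂ}
  {η : Option (Pairs N) → Matrix (Fin dB) (Fin dB) ℂ}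

theorem isCl_clif {U Z : Type} [Fintype U] [Fintype Z] [DecidableEq Z] {γ : U → Matrix Z Z ℂ}
    (hγ : IsCl γ) : Corr.Clif γ :=
  ⟨hγ.herm, hγ.sq, hγ.anti⟩

theorem card_pairs (N : ℕ) : 2 * Fintype.card (Pairs N) = N * (N - 1) := by
  have h := Corr.card_pair N
  rcases N with _ | n
  · simp
  · push_cast at h
    rw [show n + 1 - 1 = n from rfl]
    have : (2 * Fintype.card (Pairs (n + 1)) : ℝ) = ((n + 1) * n : ℕ) := by push_cast; linarith
    exact_mod_cast this

theorem corr_herm (hγ : IsCl γ) (hη : IsCl η) : (corr γ η).IsHermitian :=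
  Corr.tmat_herm (isCl_clif hγ) (isCl_clif hη)

theorem corr_norm (hγ : IsCl γ) (hη : IsCl η) : ‖corr γ η‖ ^ 4 ≤ 4 * (N : ℝ) ^ 5 := by
  set M : ℝ := (N : ℝ) ^ 2 + (N : ℝ) ^ 2 * Real.sqrt N with hM
  have hM0 : 0 ≤ M := by positivity
  set T := corr γ η with hT
  have hle : ‖T‖ ≤ Real.sqrt M := by
    refine norm_le_of (Real.sqrt_nonneg _) fun v => ?_
    have h := (Complex.le_def.1 ((Corr.tmat_sq_le (isCl_clif hγ) (isCl_clif hη)).dotProduct_mulVec_nonneg v)).1
    rw [sub_mulVec, smul_mulVec, one_mulVec, dotProduct_sub, dotProduct_smul, dot_self,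
      smul_eq_mul, ← hT] at h
    have e : star v ⬝ᵥ (T * T) *ᵥ v = (vsq (T *ᵥ v) : ℂ) := by
      rw [← dot_self, star_mulVec, (corr_herm hγ hη).eq, ← dotProduct_mulVec, mulVec_mulVec]
    rw [e] at h
    simp [← hM] at h
    rw [vn, vn, ← Real.sqrt_mul hM0]
    exact Real.sqrt_le_sqrt (by linarith)
  have hM2 : M ^ 2 ≤ 4 * (N : ℝ) ^ 5 := by
    rcases Nat.eq_zero_or_pos N with hN | hN
    · subst hN; simp [hM]
    · have h1 : (1 : ℝ) ≤ Real.sqrt N := Real.one_le_sqrt.2 (by exact_mod_cast hN)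
      have h2 : Real.sqrt N ^ 2 = N := Real.sq_sqrt (Nat.cast_nonneg _)
      calc M ^ 2 ≤ ((N : ℝ) ^ 2 * Real.sqrt N * 2) ^ 2 := by
            gcongr
            have : (0 : ℝ) ≤ (N : ℝ) ^ 2 := by positivity
            nlinarith
        _ = 4 * (N : ℝ) ^ 4 * Real.sqrt N ^ 2 := by ring
        _ = 4 * (N : ℝ) ^ 5 := by rw [h2]; ring
  calc ‖T‖ ^ 4 ≤ Real.sqrt M ^ 4 := by gcongr
    _ = M ^ 2 := by rw [show 4 = 2 * 2 from rfl, pow_mul, Real.sq_sqrt hM0]
    _ ≤ _ := hM2

theorem inverse_entangled (hγ : IsCl γ) (hη : IsCl η) {c : ℝ} (hc : 0 < c)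
    (hT : c * ‖corr γ η‖ ≤ 1 / 4)
    (hK : Real.sqrt (N / 2) < c * Fintype.card (Pairs N) / 2)
    {ρ : Matrix (Fin dA × Fin dB) (Fin dA × Fin dB) ℂ}
    (hρ : ρ * (1 - (c : ℂ) • corr γ η) = 1) :
    ρ.PosSemidef ∧ 0 < ρ.trace.re ∧ ¬ IsSeparable ((ρ.trace)⁻¹ • ρ) := by
  have : NeZero dA := ⟨fun h => by subst h; have h0 := hγ.dim; rw [Fintype.card_fin] at h0; norm_num at h0; exact absurd h0.symm (pow_ne_zero _ (by norm_num))⟩
  have : NeZero dB := ⟨fun h => by subst h; have h0 := hη.dim; rw [Fintype.card_fin] at h0; norm_num at h0; exact absurd h0.symm (pow_ne_zero _ (by norm_num))⟩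
  set T := corr γ η with hTdef
  set r : ℝ := 1 / (3 * c) with hr
  have hr0 : 0 < r := by positivity
  have hcr : c * r = 1 / 3 := by rw [hr]; field_simp
  have hTr : ‖T‖ ≤ r := le_of_mul_le_mul_left (by linarith) hc
  have hTT : ‖T * T‖ ≤ r ^ 2 := by
    refine (norm_mul_le T T).trans ?_
    rw [pow_two]
    exact mul_le_mul hTr hTr (norm_nonneg _) hr0.le
  have hTh : Tᴴ = T := (corr_herm hγ hη).eq
  have hpsd := psd_of_norm (Corr.posSemidef_mul_self hTh).isHermitian hTT
  have hε : c * r < 1 := by rw [hcr]; norm_num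
  have hinv : (1 - (c : ℂ) • T)⁻¹ = ρ := Matrix.inv_eq_left_inv hρ
  have hpd := (Corr.resolvent_posDef hTh hr0 hpsd hc.le hε).inv
  rw [hinv] at hpd
  refine ⟨hpd.posSemidef, (Complex.lt_def.1 hpd.trace_pos).1, ?_⟩
  rw [← hinv]
  refine Corr.not_separable (isCl_clif hγ) (isCl_clif hη) hc.le hr0 hε hpsd ?_
  rw [hcr]
  linarith

end Vale.Agent.P372.Zero
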