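import Vale.Agent.P372.Zero.Ident
import Vale.Agent.P372.Zero.Bound
import Vale.Agent.P372.Zero.Inverse
import Vale.Agent.P372.Zero.State

/-!
A certified entangled state.
-/

noncomputable section

open Matrix Finset
open scoped ComplexOrder Kronecker MatrixOrder Matrix.Norms.L2Operator

namespace Vale.Agent.P372.Zero

/-- A Hermitian matrix fixing the range of `G` and small on its complement is a contraction. -/
theorem contr_of {ι κ : Type} [Fintype ι] [DecidableEq ι] [Fintype κ] [DecidableEq κ]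
    {H : Matrix ι ι ℂ} (hH : H.IsHermitian) {G : Matrix ι κ ℂ} {R : Matrix κ κ ℂ}
    (hR : Gᴴ * G * R = 1) (hG : H * G = G)
    (hbd : ∀ u, Gᴴ *ᵥ u = 0 → |(star u ⬝ᵥ H *ᵥ u).re| ≤ vsq u) :
    (1 - H * H).PosSemidef := by
  have key : ∀ w, |(star w ⬝ᵥ H *ᵥ w).re| ≤ vsq w := fun w => by
    set y := R *ᵥ (Gᴴ *ᵥ w) with hy
    set u := w - G *ᵥ y with hu
    have hu0 : Gᴴ *ᵥ u = 0 := by
      rw [hu, mulVec_sub, hy, mulVec_mulVec, mulVec_mulVec, hR, one_mulVec, sub_self]
    have h1 : star (G *ᵥ y) ⬝ᵥ u = 0 := by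
      rw [star_mulVec, ← dotProduct_mulVec, hu0, dotProduct_zero]
    have h2 : star u ⬝ᵥ G *ᵥ y = 0 := by
      rw [← star_star (G *ᵥ y), star_dotProduct_star, h1, star_zero]
    have h3 : star (G *ᵥ y) ⬝ᵥ H *ᵥ u = 0 := by
      rw [show star (G *ᵥ y) ⬝ᵥ H *ᵥ u = star ((H * G) *ᵥ y) ⬝ᵥ u by
        rw [← mulVec_mulVec, star_mulVec H, hH.eq, ← dotProduct_mulVec]]
      rw [hG, h1]
    have h4 : H *ᵥ (G *ᵥ y) = G *ᵥ y := by rw [mulVec_mulVec, hG]
    have e : w = G *ᵥ y + u := by rw [hu]; abel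
    have hv : (vsq w : ℂ) = vsq (G *ᵥ y) + vsq u := by
      rw [← dot_self, ← dot_self, ← dot_self, e, star_add, add_dotProduct, dotProduct_add,
        dotProduct_add, h1, h2]
      simp
    have hq : star w ⬝ᵥ H *ᵥ w = vsq (G *ᵥ y) + star u ⬝ᵥ H *ᵥ u := by
      rw [e, mulVec_add, h4, star_add, add_dotProduct, dotProduct_add, dotProduct_add, h3, h2,
        dot_self]
      simp
    have hv' : vsq w = vsq (G *ᵥ y) + vsq u := by exact_mod_cast hv
    rw [hq, Complex.add_re, Complex.ofReal_re, hv']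
    refine (abs_add_le _ _).trans (add_le_add ?_ (hbd u hu0))
    rw [abs_of_nonneg (vsq_nonneg _)]
  have hp : ∀ s : ℝ, |s| = 1 → (1 + (s : ℂ) • H).PosSemidef := fun s hs => by
    refine PosSemidef.of_dotProduct_mulVec_nonneg
      (isHermitian_one.add (hH.smul (Complex.conj_ofReal s))) fun w => ?_
    rw [add_mulVec, one_mulVec, smul_mulVec, dotProduct_add, dotProduct_smul, dot_self,
      smul_eq_mul, Complex.le_def]
    have h0 := hH.im_star_dotProduct_mulVec_self w
    refine ⟨?_, by simp [show (star w ⬝ᵥ H *ᵥ w).im = 0 from h0]⟩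
    simp only [Complex.zero_re, Complex.add_re, Complex.ofReal_re, Complex.re_ofReal_mul]
    have h5 : |s * (star w ⬝ᵥ H *ᵥ w).re| ≤ vsq w := by rw [abs_mul, hs, one_mul]; exact key w
    linarith [neg_abs_le (s * (star w ⬝ᵥ H *ᵥ w).re)]
  have p1 : (1 + H).PosSemidef := by simpa using hp 1 (by norm_num)
  have p2 : (1 - H).PosSemidef := by
    simpa [sub_eq_add_neg] using hp (-1) (by norm_num)
  have e : 1 - H * H
      = (2⁻¹ : ℂ) • ((1 - H) * (1 + H) * (1 - H)ᴴ + (1 + H) * (1 - H) * (1 + H)ᴴ) := by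
    rw [conjTranspose_add, conjTranspose_sub, conjTranspose_one, hH.eq]
    simp only [Matrix.add_mul, Matrix.mul_add, Matrix.sub_mul, Matrix.mul_sub, Matrix.one_mul,
      Matrix.mul_one]
    module
  rw [e]
  exact ((p1.mul_mul_conjTranspose_same (1 - H)).add (p2.mul_mul_conjTranspose_same (1 + H))).smul
    (show (0 : ℂ) ≤ 2⁻¹ by simp)

theorem blk_herm {P Z : Type} {D : P → P → Matrix Z Z ℂ} (h : ∀ p q, (D p q)ᴴ = D q p) :
    (blk D).IsHermitian := by
  ext i j
  have := congrFun (congrFun (h j.1 i.1) i.2) j.2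
  simpa [blk, conjTranspose_apply] using this

theorem blk_mulVec {P Z : Type} [Fintype P] [Fintype Z] (D : P → P → Matrix Z Z ℂ)
    (u : P × Z → ℂ) (p : P) (z : Z) :
    (blk D *ᵥ u) (p, z) = ∑ q, (D p q *ᵥ fun y => u (q, y)) z := by
  simp [blk, mulVec, dotProduct, Fintype.sum_prod_type]

theorem blk_form {P Z : Type} [Fintype P] [Fintype Z] (D : P → P → Matrix Z Z ℂ)
    (u : P × Z → ℂ) :
    star u ⬝ᵥ blk D *ᵥ u
      = ∑ p, ∑ q, star (fun z => u (p, z)) ⬝ᵥ D p q *ᵥ fun y => u (q, y) := by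
  conv_lhs => rw [dotProduct, Fintype.sum_prod_type]
  simp only [blk_mulVec, Finset.mul_sum, dotProduct, Pi.star_apply]
  exact Finset.sum_congr rfl fun p _ => Finset.sum_comm

/-- The numerical conditions. -/
theorem exists_size (B : ℝ) : ∃ g : ℕ, 1 ≤ g ∧ B ≤ ((4 * g + 1 : ℕ) : ℝ) := by
  obtain ⟨g, hg⟩ := exists_nat_ge B
  refine ⟨g + 1, by omega, hg.trans ?_⟩
  push_cast
  linarith [(Nat.cast_nonneg g : (0 : ℝ) ≤ (g : ℝ))]

theorem term_even {N : ℕ} (u : Pairs N) : EvenPair (term u) ∧ size (term u) ≤ 4 := by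
  have h1 : ({u.1.1, u.1.2} : Finset (Fin N)).card = 2 := Finset.card_pair u.2.ne
  have h2 : ({none, some u} : Finset (Option (Pairs N))).card = 2 :=
    Finset.card_pair (Option.some_ne_none u).symm
  refine ⟨⟨?_, ?_⟩, ?_⟩ <;> simp [term, size, h1, h2]

section
variable {N : ℕ} {dA dB : ℕ} {γ : Fin N → Matrix (Fin dA) (Fin dA) ℂ}
  {η : Option (Pairs N) → Matrix (Fin dB) (Fin dB) ℂ}

/-- The observable in monomials. -/
theorem exists_coeffs (hγ : IsCl γ) (hη : IsCl η) {c : ℝ} (hc : 0 < c) :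
    ∃ a : Pairs N → ℂ, (∀ u, ‖a u‖ ≤ c) ∧
      (∀ u, (a u • mono2 γ η (term u))ᴴ = a u • mono2 γ η (term u)) ∧
      ∑ u, a u • mono2 γ η (term u) = -((c : ℂ) • corr γ η) := by
  choose σ₁ hσ₁ hm₁ using fun u : Pairs N => mono_pair hγ u.2.ne
  choose σ₂ hσ₂ hm₂ using fun u : Pairs N => mono_pair hη (i := none) (j := some u) (by simp)
  have hpm : ∀ u, (σ₁ u * σ₂ u) ^ 2 = 1 := fun u => by
    rcases hσ₁ u with h | h <;> rcases hσ₂ u with h' | h' <;> simp [h, h']
  have hterm : ∀ u : Pairs N, (((c * (σ₁ u * σ₂ u) : ℝ) : ℂ)) • mono2 γ η (term u)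
      = -((c : ℂ) • ((Complex.I • (γ u.1.1 * γ u.1.2)) ⊗ₖ (Complex.I • (η none * η (some u))))) :=
    fun u => by
      simp only [mono2, term, hm₁, hm₂, smul_kronecker, kronecker_smul, smul_smul, ← neg_smul]
      congr 1
      have h : ((σ₁ u : ℂ) * σ₂ u) ^ 2 = 1 := by exact_mod_cast hpm u
      rw [Complex.I_mul_I]
      push_cast
      linear_combination (c : ℂ) * h
  refine ⟨fun u => (((c * (σ₁ u * σ₂ u) : ℝ) : ℂ)), fun u => le_of_eq ?_, fun u => ?_, ?_⟩
  · rw [Complex.norm_real, Real.norm_eq_abs, abs_mul, abs_of_pos hc]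
    rcases hσ₁ u with h | h <;> rcases hσ₂ u with h' | h' <;> simp [h, h']
  · simp only [hterm, conjTranspose_neg, conjTranspose_smul, conjTranspose_kronecker,
      Complex.star_def, Complex.conj_ofReal]
    have hA : (Complex.I • (γ u.1.1 * γ u.1.2))ᴴ = Complex.I • (γ u.1.1 * γ u.1.2) := by
      rw [conjTranspose_smul, conjTranspose_mul, hγ.herm, hγ.herm,
        hγ.anti _ _ u.2.ne', Complex.star_def, Complex.conj_I]
      simp
    have hB : (Complex.I • (η none * η (some u)))ᴴ = Complex.I • (η none * η (some u)) := by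
      rw [conjTranspose_smul, conjTranspose_mul, hη.herm, hη.herm,
        hη.anti _ _ (by simp), Complex.star_def, Complex.conj_I]
      simp
    simp only [conjTranspose_smul, Complex.star_def] at hA hB
    rw [hA, hB]
  · rw [corr, Finset.smul_sum, ← Finset.sum_neg_distrib]
    exact Finset.sum_congr rfl fun u _ => hterm u

/-- Coefficients of the identity plus the terms. -/
def coeffR (a : Pairs N → ℂ) (e : Finset (Fin N) × Finset (Option (Pairs N))) : ℂ :=
  (if e = (∅, ∅) then 1 else 0) + ∑ u, if term u = e then a u else 0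

/-- The root of a preimage near the identity carries a contraction. -/
theorem contr_twist (hγ : IsCl γ) (hη : IsCl η) {l : ℝ} (hl : 0 < l) (hl1 : l ≤ 1 / 10000)
    {a : Pairs N → ℂ} {b : ℝ} (hb : 0 ≤ b) (ha : ∀ u, ‖a u‖ ≤ b)
    (hab : b ^ 2 * N * Fintype.card (Pairs N) ≤ 25)
    (hT : ‖∑ u, a u • mono2 γ η (term u)‖ ≤ 1 / 100)
    {S : Matrix (Fin dA × Fin dB) (Fin dA × Fin dB) ℂ} (hS : S.IsHermitian)
    (hω1 : ‖S * S - 1‖ ≤ 1 / 2)
    (hsym : ∀ e, (coeffR a e • mono2 γ η e)ᴴ = coeffR a e • mono2 γ η e)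
    (heven : ∀ e, coeffR a e ≠ 0 → EvenPair e)
    (hinv : chan (prodKraus (noise l γ) (noise l η)) (S * S)
      * (∑ e, coeffR a e • mono2 γ η e) = 1) :
    (1 - blk (fun p q => S * twistD l γ η (coeffR a) p q * S)
      * blk (fun p q => S * twistD l γ η (coeffR a) p q * S)).PosSemidef := by
  have hl2 : l < 1 := by linarith
  set KK := prodKraus (noise l γ) (noise l η) with hKK
  have hsymD : ∀ p q, (S * twistD l γ η (coeffR a) p q * S)ᴴ
      = S * twistD l γ η (coeffR a) q p * S := fun p q => by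
    simp only [conjTranspose_mul, hS.eq, twist_sym hsym p q, Matrix.mul_assoc]
  set G : Matrix ((Finset (Fin N) × Finset (Option (Pairs N))) × (Fin dA × Fin dB))
      (Fin dA × Fin dB) ℂ := Matrix.of fun i a' => (S * KK i.1) i.2 a' with hG
  have hGG : Gᴴ * G = chan KK (S * S) := by
    ext x y
    rw [Matrix.mul_apply, Fintype.sum_prod_type, chan, Matrix.sum_apply]
    refine Finset.sum_congr rfl fun p _ => ?_
    rw [show (KK p)ᴴ * (S * S) * KK p = (S * KK p)ᴴ * (S * KK p) by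
      rw [conjTranspose_mul, hS.eq]; simp only [Matrix.mul_assoc], Matrix.mul_apply]
    rfl
  refine contr_of (blk_herm hsymD) (G := G) (R := ∑ e, coeffR a e • mono2 γ η e)
    (by rw [hGG]; exact hinv) ?_ fun u hu => ?_
  · ext ⟨p, z⟩ x
    have h1 : ∑ q, S * twistD l γ η (coeffR a) p q * S * (S * KK q) = S * KK p := by
      conv_rhs => rw [hKK, ← twist_fix hγ hη hl hl2 heven hinv p, Finset.mul_sum]
      refine Finset.sum_congr rfl fun q _ => ?_
      simp only [Matrix.mul_assoc]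
      rfl
    show _ = (S * KK p) z x
    rw [← h1]
    simp [blk, hG, Matrix.mul_apply, Fintype.sum_prod_type, Matrix.sum_apply]
  · set w : Finset (Fin N) × Finset (Option (Pairs N)) → Fin dA × Fin dB → ℂ :=
      fun p => S *ᵥ fun z => u (p, z) with hw
    have hq : star u ⬝ᵥ blk (fun p q => S * twistD l γ η (coeffR a) p q * S) *ᵥ u
        = ∑ p, ∑ q, star (w p) ⬝ᵥ twistD l γ η (coeffR a) p q *ᵥ w q := by
      rw [blk_form]
      refine Finset.sum_congr rfl fun p _ => Finset.sum_congr rfl fun q _ => ?_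
      simp only [hw, star_mulVec, hS.eq, ← dotProduct_mulVec, mulVec_mulVec, Matrix.mul_assoc]
    have hv0 : rotVec l γ η w (∅, ∅) = 0 := by
      rw [rotVec_empty, ← hu]
      ext x
      rw [Finset.sum_apply]
      conv_rhs => rw [mulVec, dotProduct, Fintype.sum_prod_type]
      refine Finset.sum_congr rfl fun p _ => ?_
      simp only [hw, hKK, hG, mulVec_mulVec]
      rw [← hS.eq, ← conjTranspose_mul, hS.eq]
      rfl
    have hsumv : ∑ x, vsq (rotVec l γ η w x) ≤ 2 * vsq u := by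
      rw [rotVec_sum hγ hη hl hl2, show 2 * vsq u = ∑ p, 2 * vsq (fun z => u (p, z)) by
        simp [vsq, Fintype.sum_prod_type, Finset.mul_sum]]
      refine Finset.sum_le_sum fun p _ => ?_
      set x : Fin dA × Fin dB → ℂ := fun z => u (p, z)
      have he : (vsq (w p) : ℂ) = vsq x + star x ⬝ᵥ (S * S - 1) *ᵥ x := by
        rw [← dot_self, hw]
        rw [star_mulVec, hS.eq, ← dotProduct_mulVec, mulVec_mulVec, sub_mulVec, one_mulVec,
          dotProduct_sub, dot_self]
        ring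
      have hb' := dot_bound (S * S - 1) x x
      have hr := congrArg Complex.re he
      simp only [Complex.ofReal_re, Complex.add_re] at hr
      rw [mul_assoc, vn_mul_self] at hb'
      nlinarith [Complex.re_le_norm (star x ⬝ᵥ (S * S - 1) *ᵥ x), vsq_nonneg x,
        mul_le_mul_of_nonneg_right hω1 (vsq_nonneg x)]
    have hfb := form_bound (l := l) hl hl1 (fun u => mono2 γ η (term u))
      (fun u => norm_mono2_le hγ hη _) a hb ha hab hT (rotVec l γ η w) hv0
    rw [hq, twist_form hl hl2 w]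
    refine (Complex.abs_re_le_norm _).trans (le_trans (le_of_eq ?_) (hfb.trans (by linarith)))
    congr 1
    generalize rotVec l γ η w = v
    simp only [coeffR, add_mul, Finset.sum_add_distrib, Finset.sum_mul, ite_mul, one_mul, zero_mul]
    rw [Finset.sum_comm (f := fun e u => if term u = e then _ else _)]
    simp only [Finset.sum_ite_eq, Finset.sum_ite_eq', mem_univ, if_true, Finset.mul_sum,
      mono2_empty, one_mulVec]
    congr 1
    rw [Finset.sum_comm]
    refine Finset.sum_congr rfl fun x _ => ?_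
    rw [Finset.sum_comm]
    exact Finset.sum_congr rfl fun y _ => Finset.sum_congr rfl fun u' _ => by ring

theorem coeffR_sum (a : Pairs N → ℂ) :
    ∑ e, coeffR a e • mono2 γ η e = 1 + ∑ u, a u • mono2 γ η (term u) := by
  simp only [coeffR, add_smul, Finset.sum_smul, ite_smul, one_smul, zero_smul,
    Finset.sum_add_distrib]
  rw [Finset.sum_comm]
  simp [mono2_empty]

theorem coeffR_sym {a : Pairs N → ℂ}
    (ha : ∀ u, (a u • mono2 γ η (term u))ᴴ = a u • mono2 γ η (term u))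
    (e : Finset (Fin N) × Finset (Option (Pairs N))) :
    (coeffR a e • mono2 γ η e)ᴴ = coeffR a e • mono2 γ η e := by
  simp only [coeffR, add_smul, Finset.sum_smul, ite_smul, one_smul, zero_smul, conjTranspose_add,
    conjTranspose_sum]
  congr 1
  · split_ifs with h
    · subst h; simp [mono2_empty]
    · simp
  · refine Finset.sum_congr rfl fun u _ => ?_
    split_ifs with h
    · subst h; exact ha u
    · simp

theorem coeffR_even (a : Pairs N → ℂ) (e : Finset (Fin N) × Finset (Option (Pairs N)))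
    (he : coeffR a e ≠ 0) : EvenPair e := by
  by_cases h : e = (∅, ∅)
  · subst h; exact ⟨⟨0, rfl⟩, ⟨0, rfl⟩⟩
  · rw [coeffR, if_neg h, zero_add] at he
    obtain ⟨u, -, hu⟩ := Finset.exists_ne_zero_of_sum_ne_zero he
    split_ifs at hu with h'
    · exact h' ▸ (term_even u).1
    · exact absurd rfl hu

/-- The certified state for given operators. -/
theorem certified_of (hγ : IsCl γ) (hη : IsCl η) {c l : ℝ} (hc : 0 < c) (hl : 0 < l)
    (hl1 : l ≤ 1 / 10000) (hcN : c ^ 2 * N * Fintype.card (Pairs N) ≤ 25)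
    (hθ : c * ‖corr γ η‖ * (4 * (12 / l) ^ 4) ≤ 1) (h100 : c * ‖corr γ η‖ * 100 ≤ 1)
    (hK : Real.sqrt (N / 2) < c * Fintype.card (Pairs N) / 2) :
    ∃ (ρ : Matrix (Fin dA × Fin dB) (Fin dA × Fin dB) ℂ)
      (S R : Matrix (Fin dA × Fin dB) (Fin dA × Fin dB) ℂ)
      (D : Finset (Fin N) × Finset (Option (Pairs N)) → Finset (Fin N) × Finset (Option (Pairs N))
        → Matrix (Fin dA × Fin dB) (Fin dA × Fin dB) ℂ),
      IsState ρ ∧ ¬ IsSeparable ρ ∧ IsCert ρ (noise l γ) (noise l η) S R D := by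
  have hl2 : l < 1 := by linarith
  obtain ⟨a, ha, hah, hsum⟩ := exists_coeffs hγ hη hc
  set T := corr γ η with hTdef
  set cX : Finset (Fin N) × Finset (Option (Pairs N)) → ℂ :=
    fun e => ∑ u, if term u = e then -a u else 0 with hcX
  have hX : ∑ e, cX e • mono2 γ η e = (c : ℂ) • T := by
    simp only [hcX, Finset.sum_smul, ite_smul, zero_smul]
    rw [Finset.sum_comm]
    simp [neg_smul, hsum]
  have hXeven : ∀ e, cX e ≠ 0 → EvenPair e ∧ size e ≤ 4 := fun e he => by
    obtain ⟨u, -, hu⟩ := Finset.exists_ne_zero_of_sum_ne_zero he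
    split_ifs at hu with h
    · exact h ▸ term_even u
    · exact absurd rfl hu
  have hcT : ‖(c : ℂ) • T‖ = c * ‖T‖ := by
    rw [norm_smul, Complex.norm_real, Real.norm_of_nonneg hc.le]
  obtain ⟨ω, hωh, hω, hω1⟩ := exists_preimage hγ hη hl hl2 cX hXeven
    (by rw [hX]; exact (corr_herm hγ hη).smul (Complex.conj_ofReal c))
    (by rw [hX, hcT]; linarith)
  rw [hX] at hω
  have hR : ∑ e, coeffR a e • mono2 γ η e = 1 - (c : ℂ) • T := by
    rw [coeffR_sum, hsum, sub_eq_add_neg]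
  obtain ⟨hρpsd, htr, hns⟩ := inverse_entangled hγ hη hc (by rw [← hTdef]; nlinarith [norm_nonneg T])
    hK hω
  have hωp : ω.PosSemidef := by
    have h : ‖1 - ω‖ ≤ 1 / 2 := by rwa [norm_sub_rev]
    have := (psd_of_norm (isHermitian_one.sub hωh) h).add
      (PosSemidef.one.smul (show (0 : ℂ) ≤ 1 / 2 by rw [Complex.le_def]; norm_num))
    convert this using 1
    push_cast
    module
  obtain ⟨S, hSh, hSS⟩ : ∃ S, Matrix.IsHermitian S ∧ S * S = ω :=
    ⟨CFC.sqrt ω, (Matrix.nonneg_iff_posSemidef.1 (CFC.sqrt_nonneg ω)).1,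
      CFC.sqrt_mul_sqrt_self ω hωp.nonneg⟩
  subst hSS
  set L := chan (prodKraus (noise l γ) (noise l η)) with hL
  set D := fun p q => S * twistD l γ η (coeffR a) p q * S with hD
  have hcon : (1 - blk D * blk D).PosSemidef :=
    contr_twist hγ hη hl hl1 hc.le ha hcN (by rw [hsum, norm_neg, hcT]; linarith) hSh hω1
      (coeffR_sym hah) (coeffR_even a) (by rw [hR]; exact hω)
  set t : ℝ := (L (S * S)).trace.re with ht
  have htc : (L (S * S)).trace = (t : ℂ) :=
    Complex.ext rfl (by simpa using (Complex.le_def.1 hρpsd.trace_nonneg).2.symm)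
  have htr' : (t : ℂ) ≠ 0 := by exact_mod_cast htr.ne'
  set s : ℝ := Real.sqrt t⁻¹ with hs
  have hs2 : (s : ℂ) * s = (t : ℂ)⁻¹ := by
    rw [hs, ← Complex.ofReal_mul, Real.mul_self_sqrt (inv_nonneg.2 htr.le), Complex.ofReal_inv]
  have hlin : ∀ (z : ℂ) X, L (z • X) = z • L X := fun z X => by
    simp [hL, chan, Finset.smul_sum]
  refine ⟨(t : ℂ)⁻¹ • L (S * S), (s : ℂ) • S, (t : ℂ) • (1 - (c : ℂ) • T), D, ⟨?_, ?_⟩, ?_, ?_⟩
  · exact hρpsd.smul (by rw [← Complex.ofReal_inv]; exact_mod_cast inv_nonneg.2 htr.le)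
  · rw [trace_smul, htc, smul_eq_mul, inv_mul_cancel₀ htr']
  · rw [← htc]; exact hns
  refine ⟨hSh.smul (Complex.conj_ofReal s), ?_, ?_, fun V W => ?_, fun p q => ?_, hcon⟩
  · rw [smul_mul_smul_comm, hs2, ← hL, hlin]
  · rw [smul_mul_smul_comm, inv_mul_cancel₀ htr', one_smul]; exact hω
  · have hid := twist_identity hγ hη hl hl2 (coeffR_even a) (V * S) (S * W)
    rw [hR] at hid
    change L ((s : ℂ) • S * W) * _ * L (V * ((s : ℂ) • S)) = _
    rw [Matrix.smul_mul, Matrix.mul_smul V, hlin, hlin]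
    simp only [Matrix.mul_smul, Matrix.smul_mul, smul_smul]
    rw [show (s : ℂ) * ((t : ℂ) * s) = 1 by
      rw [mul_left_comm, hs2, mul_inv_cancel₀ htr'], one_smul]
    refine hid.trans (Finset.sum_congr rfl fun p _ => Finset.sum_congr rfl fun q _ => ?_)
    simp only [hD, Matrix.mul_assoc]
  · simp only [hD, conjTranspose_mul, hSh.eq, twist_sym (coeffR_sym hah) p q, Matrix.mul_assoc]

end

/-- An entangled state with a certificate. -/
theorem exists_certified : ∃ (N dA dB : ℕ) (l : ℝ)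
    (ρ S R : Matrix (Fin dA × Fin dB) (Fin dA × Fin dB) ℂ)
    (γ : Fin N → Matrix (Fin dA) (Fin dA) ℂ)
    (η : Option (Pairs N) → Matrix (Fin dB) (Fin dB) ℂ)
    (D : Finset (Fin N) × Finset (Option (Pairs N)) → Finset (Fin N) × Finset (Option (Pairs N))
        → Matrix (Fin dA × Fin dB) (Fin dA × Fin dB) ℂ),
    IsState ρ ∧ ¬ IsSeparable ρ ∧ IsCert ρ (noise l γ) (noise l η) S R D := by
  set θ : ℝ := 4 * (12 / (1 / 10000 : ℝ)) ^ 4 with hθ
  have hθpos : 0 < θ := by positivity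
  obtain ⟨g, hg1, hg⟩ := exists_size (20736 * θ ^ 4 + 20736 * 100 ^ 4)
  obtain ⟨N, hN⟩ : ∃ N, N = 4 * g + 1 := ⟨_, rfl⟩
  rw [← hN] at hg
  have hNR : (5 : ℝ) ≤ (N : ℝ) := by exact_mod_cast (by omega : 5 ≤ N)
  have hKg : Fintype.card (Pairs N) = N * (2 * g) := by
    have h := card_pairs N
    rw [show N - 1 = 2 * (2 * g) by omega] at h
    have e : N * (2 * (2 * g)) = 2 * (N * (2 * g)) := by ring
    omega
  obtain ⟨dA, γ, hγ⟩ := exists_cl (Fin N) (by rw [Fintype.card_fin]; exact ⟨2 * g, by omega⟩)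
  obtain ⟨dB, η, hη⟩ := exists_cl (Option (Pairs N))
    (by rw [Fintype.card_option, hKg]; exact ⟨N * g, by ring⟩)
  have hKR : (Fintype.card (Pairs N) : ℝ) = N * (((N : ℝ) - 1) / 2) := by
    rw [hKg, hN]; push_cast; ring
  set K : ℝ := (Fintype.card (Pairs N) : ℝ) with hK
  have hKpos : 0 < K := by rw [hKR]; nlinarith
  set c : ℝ := 3 * Real.sqrt (N / 2) / K with hc
  have hcpos : 0 < c := by positivity
  have hc2 : c ^ 2 * K ^ 2 = 9 * (N / 2) := by
    rw [hc, div_pow, div_mul_cancel₀ _ (by positivity), mul_pow, Real.sq_sqrt (by positivity)]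
    norm_num
  have hc3 : c ^ 2 * N ^ 3 ≤ 72 := by
    have hK2 : (N : ℝ) ^ 4 / 16 ≤ K ^ 2 := by
      rw [hKR, mul_pow, div_pow]
      nlinarith [mul_nonneg (sq_nonneg (N : ℝ))
        (show 0 ≤ 4 * ((N : ℝ) - 1) ^ 2 - (N : ℝ) ^ 2 by nlinarith)]
    by_contra h
    push Not at h
    nlinarith [mul_le_mul_of_nonneg_left hK2 (sq_nonneg c), mul_lt_mul_of_pos_right h
      (show (0 : ℝ) < N by linarith)]
  have hnorm : ∀ b : ℝ, 0 < b → 20736 * b ^ 4 ≤ N → c * ‖corr γ η‖ * b ≤ 1 := fun b hb hbN => by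
    have h4 : (c * ‖corr γ η‖) ^ 4 * N ≤ 20736 := by
      have := corr_norm hγ hη
      calc (c * ‖corr γ η‖) ^ 4 * N ≤ c ^ 4 * (4 * (N : ℝ) ^ 5) * N := by
            rw [mul_pow]; gcongr
        _ = 4 * (c ^ 2 * N ^ 3) ^ 2 := by ring
        _ ≤ 20736 := by nlinarith [sq_nonneg c, show 0 ≤ c ^ 2 * (N : ℝ) ^ 3 by positivity]
    refine le_of_pow_le_pow_left₀ (n := 4) (by norm_num) zero_le_one ?_
    rw [one_pow, mul_pow]
    refine le_of_mul_le_mul_left ?_ (show (0 : ℝ) < 20736 by norm_num)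
    calc 20736 * ((c * ‖corr γ η‖) ^ 4 * b ^ 4)
        = (c * ‖corr γ η‖) ^ 4 * (20736 * b ^ 4) := by ring
      _ ≤ (c * ‖corr γ η‖) ^ 4 * N := by gcongr
      _ ≤ 20736 * 1 := by linarith
  obtain ⟨ρ, S, R, D, h1, h2, h3⟩ := certified_of hγ hη (l := 1 / 10000) hcpos (by norm_num) le_rfl
    (by
      refine le_of_mul_le_mul_right ?_ hKpos
      rw [← hK]
      calc c ^ 2 * N * K * K = (c ^ 2 * K ^ 2) * N := by ring
        _ ≤ 25 * K := by rw [hc2, hKR]; nlinarith)
    (hnorm θ hθpos (le_trans (le_add_of_nonneg_right (by norm_num)) hg))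
    (hnorm _ (by norm_num) (le_trans (le_add_of_nonneg_left (by positivity)) hg))
    (by
      rw [← hK, hc, div_mul_cancel₀ _ hKpos.ne']
      linarith [Real.sqrt_pos.2 (show (0 : ℝ) < N / 2 by positivity)])
  exact ⟨N, dA, dB, _, ρ, S, R, γ, η, D, h1, h2, h3⟩

end Vale.Agent.P372.Zero
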