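import Vale.Agent.P372.Zero.Defs
import Vale.Agent.P372.Zero.Stack.Pair

/-!
Certificates with families of Kraus operators, and with stacked maps.
-/

noncomputable section

open Matrix Finset
open scoped ComplexOrder Kronecker

namespace Vale.Agent.P372.Zero

/-- A family of Kraus operators as one matrix. -/
def stackK {P Z A : Type} (K : P → Matrix Z A ℂ) : Matrix (P × Z) A ℂ :=
  Matrix.of fun i a => K i.1 i.2 a

section
variable {P Z A : Type} [Fintype P] [DecidableEq P] [Fintype Z]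

omit [DecidableEq P] in
theorem stackK_blk (K : P → Matrix Z A ℂ) (D : P → P → Matrix Z Z ℂ) :
    (stackK K)ᴴ * blk D * stackK K = ∑ p, ∑ q, (K p)ᴴ * D p q * K q := by
  ext a b
  simp only [Matrix.mul_apply, Matrix.sum_apply, conjTranspose_apply, stackK, blk,
    Matrix.of_apply, Fintype.sum_prod_type, Finset.sum_mul]
  conv_rhs => rw [Finset.sum_comm]
  exact Finset.sum_congr rfl fun q _ => Finset.sum_comm

theorem one_kron_blk (V W : Matrix Z Z ℂ) (D : P → P → Matrix Z Z ℂ) :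
    ((1 : Matrix P P ℂ) ⊗ₖ V) * blk D * ((1 : Matrix P P ℂ) ⊗ₖ W)
      = blk fun p q => V * D p q * W := by
  ext i j
  simp [Matrix.mul_apply, blk, Fintype.sum_prod_type, Matrix.one_apply, Finset.sum_mul,
    ite_mul, mul_ite, Finset.sum_ite_irrel]

theorem stack_chan (K : P → Matrix Z A ℂ) (X : Matrix Z Z ℂ) :
    Stack.chan (stackK K) X = chan K X := by
  have h : (1 : Matrix P P ℂ) ⊗ₖ X = blk fun p q => if p = q then X else 0 := by
    ext i j
    simp [blk, Matrix.one_apply]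
    split_ifs <;> simp
  rw [Stack.chan, h, stackK_blk, chan]
  refine Finset.sum_congr rfl fun p _ => ?_
  rw [Finset.sum_eq_single p (fun q _ hq => by simp [hq.symm]) (by simp)]
  simp

end

variable {A B ZA ZB PA PB : Type} [Fintype A] [Fintype B] [DecidableEq A] [DecidableEq B]
  [Fintype ZA] [Fintype ZB] [DecidableEq ZA] [DecidableEq ZB] [Fintype PA] [Fintype PB]
  [DecidableEq PA] [DecidableEq PB]

omit [Fintype A] [Fintype B] [DecidableEq A] [DecidableEq B] [Fintype ZA] [Fintype ZB]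
  [DecidableEq ZA] [DecidableEq ZB] [Fintype PA] [Fintype PB] [DecidableEq PA] [DecidableEq PB] in
theorem kJ_stackK (KA : PA → Matrix ZA A ℂ) (KB : PB → Matrix ZB B ℂ) :
    Stack.kJ (stackK KA) (stackK KB) = stackK (prodKraus KA KB) := rfl

theorem IsCert.data {ρ : Matrix (A × B) (A × B) ℂ} {KA : PA → Matrix ZA A ℂ}
    {KB : PB → Matrix ZB B ℂ} {S : Matrix (ZA × ZB) (ZA × ZB) ℂ} {R : Matrix (A × B) (A × B) ℂ}
    {D : PA × PB → PA × PB → Matrix (ZA × ZB) (ZA × ZB) ℂ} (h : IsCert ρ KA KB S R D) :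
    Stack.Data (Stack.kJ (stackK KA) (stackK KB)) S ρ R (blk D) where
  hR := h.herm
  heq := by rw [kJ_stackK, stack_chan, h.eq]
  hinv := h.inv
  hi := by
    have hρ : ρ.IsHermitian := by
      rw [h.eq, ← stack_chan]
      exact (Stack.chan_psd _ (Stack.sq_psd h.herm)).1
    exact inv_eq_right_inv h.inv ▸ hρ.inv
  hD := by
    ext i j
    exact congrFun (congrFun (h.sym j.1 i.1) i.2) j.2
  hD1 := h.contr
  cert := fun V W => by
    rw [kJ_stackK, stack_chan, stack_chan, h.twist]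
    simp only [Matrix.mul_assoc]
    rw [← Matrix.mul_assoc (blk D), ← Matrix.mul_assoc (((1 : Matrix (PA × PB) (PA × PB) ℂ) ⊗ₖ Vᴴ)),
      ← Matrix.mul_assoc (stackK (prodKraus KA KB))ᴴ, ← Matrix.mul_assoc _ (blk D), one_kron_blk,
      stackK_blk]
    simp only [Matrix.mul_assoc]

theorem IsCert.of_data {ρ : Matrix (A × B) (A × B) ℂ} {KA : PA → Matrix ZA A ℂ}
    {KB : PB → Matrix ZB B ℂ} {S : Matrix (ZA × ZB) (ZA × ZB) ℂ} {R : Matrix (A × B) (A × B) ℂ}
    {D : PA × PB → PA × PB → Matrix (ZA × ZB) (ZA × ZB) ℂ}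
    (h : Stack.Data (Stack.kJ (stackK KA) (stackK KB)) S ρ R (blk D)) :
    IsCert ρ KA KB S R D where
  herm := h.hR
  eq := by rw [← h.heq, kJ_stackK, stack_chan]
  inv := h.hinv
  twist := fun V W => by
    have hc := h.cert Vᴴ W
    rw [kJ_stackK, stack_chan, stack_chan, conjTranspose_conjTranspose] at hc
    rw [hc]
    simp only [Matrix.mul_assoc]
    rw [← Matrix.mul_assoc (blk D), ← Matrix.mul_assoc (((1 : Matrix (PA × PB) (PA × PB) ℂ) ⊗ₖ V)),
      ← Matrix.mul_assoc (stackK (prodKraus KA KB))ᴴ, ← Matrix.mul_assoc _ (blk D), one_kron_blk,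
      stackK_blk]
    simp only [Matrix.mul_assoc]
  sym := fun p q => by
    ext a b
    exact congrFun (congrFun h.hD (q, a)) (p, b)
  contr := h.hD1

end Vale.Agent.P372.Zero
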