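import Vale.Agent.P372.Zero.Bridge
import Vale.Agent.P372.Zero.Stack.Copies

/-!
A certificate passes to any number of copies.
-/

noncomputable section

open Matrix Finset
open scoped ComplexOrder Kronecker

namespace Vale.Agent.P372.Zero

variable {A B ZA ZB PA PB : Type} [Fintype A] [Fintype B] [DecidableEq A] [DecidableEq B]
  [Fintype ZA] [Fintype ZB] [DecidableEq ZA] [DecidableEq ZB] [Fintype PA] [Fintype PB]
  [DecidableEq PA] [DecidableEq PB]

theorem cert_copies {ρ : Matrix (A × B) (A × B) ℂ} {KA : PA → Matrix ZA A ℂ}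
    {KB : PB → Matrix ZB B ℂ} {S : Matrix (ZA × ZB) (ZA × ZB) ℂ}
    {R : Matrix (A × B) (A × B) ℂ}
    {D : PA × PB → PA × PB → Matrix (ZA × ZB) (ZA × ZB) ℂ}
    (h : IsCert ρ KA KB S R D) (n : ℕ) :
    IsCert (copiesState ρ n) (fun p : Fin n → PA => piMat fun t => KA (p t))
      (fun q : Fin n → PB => piMat fun t => KB (q t)) (copiesState S n) (copiesState R n)
      (fun p q => copiesFam fun t => D (p.1 t, p.2 t) (q.1 t, q.2 t)) := by
  refine IsCert.of_data ?_
  have hd := h.data.pow (n := n)
  have eJA : Stack.powJ (stackK KA) n = stackK fun p : Fin n → PA => piMat fun t => KA (p t) := rfl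
  have eJB : Stack.powJ (stackK KB) n = stackK fun q : Fin n → PB => piMat fun t => KB (q t) := rfl
  have eD : Stack.tp (Stack.rows PA PB ZA ZB n) (Stack.rows PA PB ZA ZB n) (fun _ => blk D)
      = blk fun p q => copiesFam fun t => D (p.1 t, p.2 t) (q.1 t, q.2 t) := by
    ext i j
    rfl
  rw [eJA, eJB, eD, ← Stack.copiesState_eq, ← Stack.copiesState_eq] at hd
  exact hd

end Vale.Agent.P372.Zero
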