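import Mathlib
import Vale.Agent.P372.Bnd
import Vale.Agent.P372.ExactDefs

/-!
Channels with a twisted contraction certificate, and fermionic monomials.
-/

noncomputable section

open Matrix Finset
open scoped ComplexOrder Kronecker

namespace Vale.Agent.P372.Zero

/-- The completely positive map with Kraus operators `K`. -/
def chan {A Z P : Type} [Fintype Z] [Fintype P] (K : P → Matrix Z A ℂ) (X : Matrix Z Z ℂ) :
    Matrix A A ℂ :=
  ∑ p, (K p)ᴴ * X * K p

/-- Kraus operators of a product of two maps. -/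
def prodKraus {A B ZA ZB PA PB : Type} (KA : PA → Matrix ZA A ℂ) (KB : PB → Matrix ZB B ℂ) :
    PA × PB → Matrix (ZA × ZB) (A × B) ℂ :=
  fun p => KA p.1 ⊗ₖ KB p.2

/-- A family of blocks as one matrix. -/
def blk {P Z : Type} (D : P → P → Matrix Z Z ℂ) : Matrix (P × Z) (P × Z) ℂ :=
  Matrix.of fun i j => D i.1 j.1 i.2 j.2

/-- `ρ` is the image of `S * S` under a product map and its twisted products are given by a
contraction. -/
structure IsCert {A B ZA ZB PA PB : Type} [Fintype A] [Fintype B] [DecidableEq A] [DecidableEq B]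
    [Fintype ZA] [Fintype ZB] [DecidableEq ZA] [DecidableEq ZB] [Fintype PA] [Fintype PB]
    [DecidableEq PA] [DecidableEq PB]
    (ρ : Matrix (A × B) (A × B) ℂ) (KA : PA → Matrix ZA A ℂ) (KB : PB → Matrix ZB B ℂ)
    (S : Matrix (ZA × ZB) (ZA × ZB) ℂ) (R : Matrix (A × B) (A × B) ℂ)
    (D : PA × PB → PA × PB → Matrix (ZA × ZB) (ZA × ZB) ℂ) : Prop where
  herm : S.IsHermitian
  eq : ρ = chan (prodKraus KA KB) (S * S)
  inv : ρ * R = 1
  twist : ∀ V W, chan (prodKraus KA KB) (S * W) * R * chan (prodKraus KA KB) (V * S)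
    = ∑ p, ∑ q, (prodKraus KA KB p)ᴴ * V * D p q * W * prodKraus KA KB q
  sym : ∀ p q, (D p q)ᴴ = D q p
  contr : (1 - blk D * blk D).PosSemidef

/-- A tensor product of operators on pairs, the first systems first. -/
def copiesFam {A B A' B' : Type} {n : ℕ} (X : Fin n → Matrix (A × B) (A' × B') ℂ) :
    Matrix ((Fin n → A) × (Fin n → B)) ((Fin n → A') × (Fin n → B')) ℂ :=
  Matrix.of fun i j => ∏ t, X t (i.1 t, i.2 t) (j.1 t, j.2 t)

/-- Anticommuting Hermitian involutions in the smallest dimension. -/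
structure IsCl {U Z : Type} [Fintype U] [Fintype Z] [DecidableEq Z]
    (γ : U → Matrix Z Z ℂ) : Prop where
  herm : ∀ u, (γ u)ᴴ = γ u
  sq : ∀ u, γ u * γ u = 1
  anti : ∀ u v, u ≠ v → γ u * γ v = -(γ v * γ u)
  dim : 2 * Fintype.card Z ^ 2 = 2 ^ Fintype.card U

/-- The product of the `γ u`, `u ∈ s`. -/
def mono {U Z : Type} [Fintype Z] [DecidableEq Z] (γ : U → Matrix Z Z ℂ) (s : Finset U) :
    Matrix Z Z ℂ :=
  (s.toList.map γ).prod

section
variable {UA UB ZA ZB : Type} [Fintype UA] [Fintype UB] [DecidableEq UA] [DecidableEq UB]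
  [Fintype ZA] [Fintype ZB] [DecidableEq ZA] [DecidableEq ZB]

/-- A monomial on two systems. -/
def mono2 (γA : UA → Matrix ZA ZA ℂ) (γB : UB → Matrix ZB ZB ℂ) (p : Finset UA × Finset UB) :
    Matrix (ZA × ZB) (ZA × ZB) ℂ :=
  mono γA p.1 ⊗ₖ mono γB p.2

/-- Both parts of the index are even. -/
def EvenPair (p : Finset UA × Finset UB) : Prop := Even p.1.card ∧ Even p.2.card

/-- Size of a pair of sets. -/
def size (p : Finset UA × Finset UB) : ℕ := p.1.card + p.2.card

end

/-- The orthogonal change of coordinates of one mode. -/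
def modeO (l : ℝ) : Bool → Bool → ℝ
  | false, false => Real.sqrt ((1 + l) / 2)
  | false, true => Real.sqrt ((1 - l) / 2)
  | true, false => Real.sqrt ((1 - l) / 2)
  | true, true => -Real.sqrt ((1 + l) / 2)

/-- The twist of one mode in rotated coordinates. -/
def modeK' (l : ℝ) : Bool → Bool → Bool → ℝ
  | _, false, false => 1
  | false, true, true => -(2 * l ^ 2) / (1 - l ^ 2)
  | false, false, true => 0
  | false, true, false => 0
  | true, true, true => 2 * l ^ 2 / (1 - l ^ 2)
  | true, false, true => -(2 * l) / Real.sqrt (1 - l ^ 2)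
  | true, true, false => -(2 * l) / Real.sqrt (1 - l ^ 2)

/-- The twist of one mode. -/
def modeK (l : ℝ) (e a b : Bool) : ℝ := ∑ i, ∑ j, modeO l a i * modeK' l e i j * modeO l j b

section
variable {U V : Type} [Fintype U] [DecidableEq U] [Fintype V] [DecidableEq V]

/-- A product over modes. -/
def modeProd (f : Bool → Bool → Bool → ℝ) (e x y : Finset U × Finset V) : ℝ :=
  (∏ u, f (decide (u ∈ e.1)) (decide (u ∈ x.1)) (decide (u ∈ y.1)))
    * ∏ v, f (decide (v ∈ e.2)) (decide (v ∈ x.2)) (decide (v ∈ y.2))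

/-- The square root of the probability of a set of flipped modes. -/
def wgt (l : ℝ) (s : Finset U) : ℝ := ∏ u, modeO l (decide (u ∈ s)) false

/-- The orthogonal change of coordinates. -/
def rot (l : ℝ) (x y : Finset U × Finset V) : ℝ :=
  (∏ u, modeO l (decide (u ∈ x.1)) (decide (u ∈ y.1)))
    * ∏ v, modeO l (decide (v ∈ x.2)) (decide (v ∈ y.2))

end

/-- Kraus operators of the noise on the fermions. -/
def noise {U Z : Type} [Fintype U] [DecidableEq U] [Fintype Z] [DecidableEq Z] (l : ℝ)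
    (γ : U → Matrix Z Z ℂ) (s : Finset U) : Matrix Z Z ℂ :=
  (wgt l s : ℂ) • mono γ s

/-- The blocks giving twisted products with `∑ e, c e • mono2 e`. -/
def twistD {UA UB ZA ZB : Type} [Fintype UA] [Fintype UB] [DecidableEq UA] [DecidableEq UB]
    [Fintype ZA] [Fintype ZB] [DecidableEq ZA] [DecidableEq ZB] (l : ℝ)
    (γA : UA → Matrix ZA ZA ℂ) (γB : UB → Matrix ZB ZB ℂ) (c : Finset UA × Finset UB → ℂ)
    (p q : Finset UA × Finset UB) : Matrix (ZA × ZB) (ZA × ZB) ℂ :=
  ∑ e, (c e * (modeProd (modeK l) e p q : ℂ)) •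
    (mono2 γA γB p * mono2 γA γB e * (mono2 γA γB q)ᴴ)

/-- Unordered pairs of indices. -/
abbrev Pairs (N : ℕ) : Type := {u : Fin N × Fin N // u.1 < u.2}

/-- The four modes of a term. -/
def term {N : ℕ} (u : Pairs N) : Finset (Fin N) × Finset (Option (Pairs N)) :=
  ({u.1.1, u.1.2}, {none, some u})

/-- The correlation observable. -/
def corr {N : ℕ} {ZA ZB : Type} [Fintype ZA] [Fintype ZB] [DecidableEq ZA] [DecidableEq ZB]
    (γ : Fin N → Matrix ZA ZA ℂ) (η : Option (Pairs N) → Matrix ZB ZB ℂ) :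
    Matrix (ZA × ZB) (ZA × ZB) ℂ :=
  ∑ u : Pairs N, (Complex.I • (γ u.1.1 * γ u.1.2)) ⊗ₖ (Complex.I • (η none * η (some u)))

end Vale.Agent.P372.Zero
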