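import Vale.Agent.P372.Zero.Mono

/-!
Twisted products of the noise and the rotated form of their blocks.
-/

noncomputable section

open Matrix Finset
open scoped ComplexOrder Kronecker

namespace Vale.Agent.P372.Zero

variable {UA UB ZA ZB : Type} [Fintype UA] [Fintype UB] [DecidableEq UA] [DecidableEq UB]
  [Fintype ZA] [Fintype ZB] [DecidableEq ZA] [DecidableEq ZB]
  {γA : UA → Matrix ZA ZA ℂ} {γB : UB → Matrix ZB ZB ℂ} {l : ℝ}
  {c : Finset UA × Finset UB → ℂ}

section signs
variable {U : Type} [Fintype U] [DecidableEq U]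

/-- `-1` if both bits are set. -/
def bitSign (a b : Bool) : ℝ := if a && b then -1 else 1

theorem bitSign_comm (a b : Bool) : bitSign a b = bitSign b a := by
  simp [bitSign, Bool.and_comm]

theorem modeO_comm (l : ℝ) (a b : Bool) : modeO l a b = modeO l b a := by
  cases a <;> cases b <;> rfl

theorem modeK'_comm (l : ℝ) (e a b : Bool) : modeK' l e a b = modeK' l e b a := by
  cases e <;> cases a <;> cases b <;> rfl

theorem modeK_comm (l : ℝ) (e a b : Bool) : modeK l e a b = modeK l e b a := by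
  simp only [modeK]
  rw [Finset.sum_comm]
  refine Finset.sum_congr rfl fun i _ => Finset.sum_congr rfl fun j _ => ?_
  rw [modeK'_comm l e j i, modeO_comm l a j, modeO_comm l i b]
  ring

theorem inter_sign (s t : Finset U) :
    (-1 : ℝ) ^ (s ∩ t).card = ∏ u, bitSign (decide (u ∈ s)) (decide (u ∈ t)) := by
  simp only [bitSign, ← Bool.decide_and, decide_eq_true_eq]
  rw [Finset.prod_ite, Finset.prod_const, Finset.prod_const_one, mul_one]
  congr 2
  ext u; simp

theorem pow_card_eq (l : ℝ) (s : Finset U) :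
    l ^ s.card = ∏ u, if decide (u ∈ s) = true then l else 1 := by
  simp only [decide_eq_true_eq, Finset.prod_ite_mem, Finset.univ_inter, Finset.prod_const]

/-- A sum over sets of a product over modes is a product of sums. -/
theorem sum_sets {R : Type} [CommSemiring R] (f : U → Bool → R) :
    ∑ s : Finset U, ∏ u, f u (decide (u ∈ s)) = ∏ u, ∑ b, f u b := by
  let e : (U → Bool) ≃ Finset U :=
    { toFun := fun g => univ.filter fun u => g u = true
      invFun := fun s u => decide (u ∈ s)
      left_inv := fun g => by funext u; simp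
      right_inv := fun s => by ext u; simp }
  rw [Fintype.prod_sum, ← e.sum_comp]
  refine Finset.sum_congr rfl fun g _ => Finset.prod_congr rfl fun u _ => ?_
  congr 1
  exact congrFun (e.left_inv g) u

theorem sum_sets₂ {R : Type} [CommSemiring R] (f : U → Bool → Bool → R) :
    ∑ s : Finset U, ∑ t : Finset U, ∏ u, f u (decide (u ∈ s)) (decide (u ∈ t))
      = ∏ u, ∑ a, ∑ b, f u a b := by
  rw [← sum_sets fun u a => ∑ b, f u a b]
  exact Finset.sum_congr rfl fun s _ => sum_sets fun u b => f u (decide (u ∈ s)) b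

theorem sign_orth (s t : Finset U) :
    ∑ x : Finset U, (-1 : ℝ) ^ (x ∩ s).card * (-1) ^ (x ∩ t).card
      = if s = t then 2 ^ Fintype.card U else 0 := by
  simp only [inter_sign, ← Finset.prod_mul_distrib]
  rw [sum_sets fun u b => bitSign b (decide (u ∈ s)) * bitSign b (decide (u ∈ t))]
  split_ifs with h
  · subst h
    rw [Fintype.card, ← Finset.prod_const]
    refine Finset.prod_congr rfl fun u _ => ?_
    by_cases hu : u ∈ s <;> (simp [bitSign, hu] <;> norm_num)
  · obtain ⟨u, hu⟩ := not_forall.1 fun h' => h (Finset.ext h')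
    refine Finset.prod_eq_zero (Finset.mem_univ u) ?_
    by_cases hs : u ∈ s <;> by_cases ht : u ∈ t <;> simp_all [bitSign]

variable {l : ℝ} (hl : 0 < l) (hl1 : l < 1)
include hl hl1

theorem mode_sq : Real.sqrt ((1 + l) / 2) * Real.sqrt ((1 + l) / 2) = (1 + l) / 2
    ∧ Real.sqrt ((1 - l) / 2) * Real.sqrt ((1 - l) / 2) = (1 - l) / 2
    ∧ 2 * (Real.sqrt ((1 + l) / 2) * Real.sqrt ((1 - l) / 2)) = Real.sqrt (1 - l ^ 2) := by
  refine ⟨Real.mul_self_sqrt (by linarith), Real.mul_self_sqrt (by linarith), ?_⟩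
  rw [← Real.sqrt_mul (by linarith),
    show (1 + l) / 2 * ((1 - l) / 2) = (1 - l ^ 2) / (2 * 2) by ring,
    Real.sqrt_div' _ (by norm_num), Real.sqrt_mul_self (by norm_num)]
  ring

theorem modeO_orth (a b : Bool) : ∑ x, modeO l x a * modeO l x b = if a = b then 1 else 0 := by
  obtain ⟨h1, h2, -⟩ := mode_sq hl hl1
  cases a <;> cases b <;> simp only [Fintype.sum_bool, modeO, if_true, reduceCtorEq, if_false] <;> linarith

theorem modeO_sign (s i : Bool) :
    ∑ a, modeO l a false * bitSign s a * modeO l a i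
      = if s then (if i then Real.sqrt (1 - l ^ 2) else l) else (if i then 0 else 1) := by
  obtain ⟨h1, h2, h3⟩ := mode_sq hl hl1
  cases s <;> cases i <;> simp only [Fintype.sum_bool, modeO, bitSign, Bool.false_and, Bool.true_and, if_true,
    if_false, Bool.false_eq_true] <;> linarith

theorem mode_sum (s e t : Bool) :
    ∑ a, ∑ b, modeO l a false * bitSign s a * modeK l e a b * (modeO l b false * bitSign t b)
      = (if s = true then l else 1) * (if t = true then l else 1)
          * (bitSign s e * bitSign s t * bitSign e t) := by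
  have h : ∑ a, ∑ b, modeO l a false * bitSign s a * modeK l e a b
        * (modeO l b false * bitSign t b)
      = ∑ i, ∑ j, (∑ a, modeO l a false * bitSign s a * modeO l a i) * modeK' l e i j
          * ∑ b, modeO l b false * bitSign t b * modeO l b j := by
    simp only [modeK, Fintype.sum_bool, modeO_comm l false true]
    ring
  rw [h]
  simp only [modeO_sign hl hl1]
  have hs : Real.sqrt (1 - l ^ 2) * Real.sqrt (1 - l ^ 2) = 1 - l ^ 2 :=
    Real.mul_self_sqrt (by nlinarith)
  have hs0 : Real.sqrt (1 - l ^ 2) ≠ 0 := (Real.sqrt_pos.2 (by nlinarith)).ne'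
  have hd : 1 - l ^ 2 ≠ 0 := by nlinarith
  cases s <;> cases t <;> cases e <;>
    simp [modeK', bitSign] <;> field_simp <;>
    (try rw [Real.sq_sqrt (show 0 ≤ 1 - l ^ 2 by nlinarith)]) <;> ring

theorem wgt_pos (s : Finset U) : 0 < wgt l s := by
  refine Finset.prod_pos fun u _ => ?_
  cases decide (u ∈ s) <;> exact Real.sqrt_pos.2 (by linarith)

theorem set_sum (S e T : Finset U) :
    ∑ s : Finset U, ∑ t : Finset U, wgt l s * (-1) ^ (S ∩ s).card
        * (∏ u, modeK l (decide (u ∈ e)) (decide (u ∈ s)) (decide (u ∈ t)))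
        * (wgt l t * (-1) ^ (T ∩ t).card)
      = l ^ S.card * l ^ T.card
          * ((-1) ^ (S ∩ e).card * (-1) ^ (S ∩ T).card * (-1) ^ (e ∩ T).card) := by
  simp only [inter_sign, pow_card_eq l, wgt, ← Finset.prod_mul_distrib]
  rw [sum_sets₂ fun u a b => modeO l a false * bitSign (decide (u ∈ S)) a
    * modeK l (decide (u ∈ e)) a b * (modeO l b false * bitSign (decide (u ∈ T)) b)]
  exact Finset.prod_congr rfl fun u _ => mode_sum hl hl1 _ _ _

theorem wgt_sq_sum (S : Finset U) :
    ∑ s : Finset U, wgt l s * wgt l s * (-1) ^ (S ∩ s).card = l ^ S.card := by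
  simp only [inter_sign, pow_card_eq l, wgt, ← Finset.prod_mul_distrib]
  rw [sum_sets fun u a => modeO l a false * modeO l a false * bitSign (decide (u ∈ S)) a]
  refine Finset.prod_congr rfl fun u _ => ?_
  have := modeO_sign hl hl1 (decide (u ∈ S)) false
  simp only [Bool.false_eq_true, if_false] at this
  rw [← this]
  exact Finset.sum_congr rfl fun a _ => by ring

theorem set_rot (x y : Finset U) :
    ∑ s : Finset U, (∏ u, modeO l (decide (u ∈ s)) (decide (u ∈ x)))
        * (∏ u, modeO l (decide (u ∈ s)) (decide (u ∈ y)))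
      = if x = y then 1 else 0 := by
  simp only [← Finset.prod_mul_distrib]
  rw [sum_sets fun u a => modeO l a (decide (u ∈ x)) * modeO l a (decide (u ∈ y))]
  simp only [modeO_orth hl hl1]
  split_ifs with h
  · subst h; simp
  · obtain ⟨u, hu⟩ := not_forall.1 fun h' => h (Finset.ext h')
    refine Finset.prod_eq_zero (Finset.mem_univ u) ?_
    rw [if_neg]; simpa using hu

end signs

/-- The probability amplitude of a pair of sets. -/
def wgt2 (l : ℝ) (p : Finset UA × Finset UB) : ℝ := wgt l p.1 * wgt l p.2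

/-- The sign of commuting two monomials, one of them even. -/
def sign2 (p q : Finset UA × Finset UB) : ℝ :=
  (-1) ^ (p.1 ∩ q.1).card * (-1) ^ (p.2 ∩ q.2).card

omit [Fintype UA] [Fintype UB] in
theorem sign2_comm (p q : Finset UA × Finset UB) : sign2 p q = sign2 q p := by
  simp only [sign2, Finset.inter_comm]

omit [Fintype UA] [Fintype UB] in
theorem sign2_mul_self (p q : Finset UA × Finset UB) : sign2 p q * sign2 p q = 1 := by
  simp only [sign2]
  rw [mul_mul_mul_comm, ← pow_add, ← pow_add, ← two_mul, ← two_mul, pow_mul, pow_mul]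
  norm_num

theorem prodKraus_noise (p : Finset UA × Finset UB) :
    prodKraus (noise l γA) (noise l γB) p = (wgt2 l p : ℂ) • mono2 γA γB p := by
  simp only [prodKraus, noise, mono2, wgt2, smul_kronecker, kronecker_smul, smul_smul]
  push_cast
  rw [mul_comm]

theorem comm2 (hA : IsCl γA) (hB : IsCl γB) {p : Finset UA × Finset UB} (hp : EvenPair p)
    (q : Finset UA × Finset UB) :
    mono2 γA γB p * mono2 γA γB q = (sign2 p q : ℂ) • (mono2 γA γB q * mono2 γA γB p) := by
  rw [mono2_comm hA hB hp q, sign2]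
  push_cast
  rw [pow_add]

theorem comm2' (hA : IsCl γA) (hB : IsCl γB) {p : Finset UA × Finset UB} (hp : EvenPair p)
    (q : Finset UA × Finset UB) :
    mono2 γA γB q * mono2 γA γB p = (sign2 p q : ℂ) • (mono2 γA γB p * mono2 γA γB q) := by
  rw [comm2 hA hB hp q, smul_smul, ← Complex.ofReal_mul, sign2_mul_self, Complex.ofReal_one,
    one_smul]

theorem conj2 (hA : IsCl γA) (hB : IsCl γB) {S : Finset UA × Finset UB} (hS : EvenPair S)
    (p : Finset UA × Finset UB) :
    (mono2 γA γB p)ᴴ * mono2 γA γB S * mono2 γA γB p = (sign2 S p : ℂ) • mono2 γA γB S := by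
  rw [Matrix.mul_assoc, comm2 hA hB hS p, Matrix.mul_smul, ← Matrix.mul_assoc,
    (mono2_unitary hA hB p).1, Matrix.one_mul]

/-- The channel as a linear map. -/
def chanLin {A Z P : Type} [Fintype A] [Fintype Z] [Fintype P] (K : P → Matrix Z A ℂ) :
    Matrix Z Z ℂ →ₗ[ℂ] Matrix A A ℂ where
  toFun := chan K
  map_add' X Y := by simp [chan, Matrix.mul_add, Matrix.add_mul, Finset.sum_add_distrib]
  map_smul' a X := by simp [chan, Finset.smul_sum]

theorem chanLin_apply {A Z P : Type} [Fintype A] [Fintype Z] [Fintype P] (K : P → Matrix Z A ℂ)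
    (X : Matrix Z Z ℂ) : chanLin K X = chan K X :=
  rfl

theorem ext_even (hA : IsCl γA) (hB : IsCl γB) {M : Type} [AddCommGroup M] [Module ℂ M]
    {F G : Matrix (ZA × ZB) (ZA × ZB) ℂ →ₗ[ℂ] M}
    (h : ∀ S, EvenPair S → F (mono2 γA γB S) = G (mono2 γA γB S))
    (X : Matrix (ZA × ZB) (ZA × ZB) ℂ) : F X = G X := by
  classical
  rw [expand hA hB X, map_sum, map_sum]
  refine Finset.sum_congr rfl fun p _ => ?_
  by_cases hp : EvenPair p
  · rw [map_smul, map_smul, h p hp]
  · simp [hp]

theorem pair_sum (hl : 0 < l) (hl1 : l < 1) (S e T : Finset UA × Finset UB) :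
    ∑ p, ∑ q, wgt2 l p * sign2 S p * modeProd (modeK l) e p q * (wgt2 l q * sign2 T q)
      = l ^ size S * l ^ size T * (sign2 S e * sign2 S T * sign2 e T) := by
  have h1 := set_sum (U := UA) hl hl1 S.1 e.1 T.1
  have h2 := set_sum (U := UB) hl hl1 S.2 e.2 T.2
  have := congrArg₂ (· * ·) h1 h2
  simp only [Finset.sum_mul_sum] at this
  simp only [Fintype.sum_prod_type, wgt2, sign2, modeProd, size, pow_add]
  refine Eq.trans ?_ (this.trans (by ring))
  refine Finset.sum_congr rfl fun a _ => ?_
  refine Finset.sum_congr rfl fun b _ => ?_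
  refine Finset.sum_congr rfl fun c _ => Finset.sum_congr rfl fun d _ => ?_
  ring

theorem wgt2_sq_sum (hl : 0 < l) (hl1 : l < 1) (S : Finset UA × Finset UB) :
    ∑ p, wgt2 l p * wgt2 l p * sign2 S p = l ^ size S := by
  rw [size, pow_add, ← wgt_sq_sum hl hl1 S.1, ← wgt_sq_sum hl hl1 S.2, Finset.sum_mul_sum,
    Fintype.sum_prod_type]
  refine Finset.sum_congr rfl fun a _ => Finset.sum_congr rfl fun b _ => ?_
  simp only [wgt2, sign2]; ring

theorem eq_zero_of_sign {M : Type} [AddCommGroup M] [Module ℂ M]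
    (F : Finset UA × Finset UB → M) (h : ∀ U, ∑ p, (sign2 U p : ℂ) • F p = 0) : F = 0 := by
  funext q
  have h1 : ∑ U, (sign2 U q : ℂ) • ∑ p, (sign2 U p : ℂ) • F p = 0 :=
    Finset.sum_eq_zero fun U _ => by rw [h U, smul_zero]
  simp only [Finset.smul_sum, smul_smul] at h1
  rw [Finset.sum_comm] at h1
  simp only [← Finset.sum_smul] at h1
  have hsum : ∀ p, ∑ U, (sign2 U q : ℂ) * sign2 U p
      = if p = q then (2 : ℂ) ^ Fintype.card UA * 2 ^ Fintype.card UB else 0 := fun p => by
    have h2 : (∑ U : Finset UA × Finset UB, sign2 U q * sign2 U p)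
        = (if q.1 = p.1 then 2 ^ Fintype.card UA else 0)
          * if q.2 = p.2 then 2 ^ Fintype.card UB else 0 := by
      rw [← sign_orth, ← sign_orth, Finset.sum_mul_sum, Fintype.sum_prod_type]
      refine Finset.sum_congr rfl fun a _ => Finset.sum_congr rfl fun b _ => ?_
      simp only [sign2]; ring
    simp only [← Complex.ofReal_mul, ← Complex.ofReal_sum, h2]
    by_cases hp : p = q
    · subst hp; simp
    · rw [if_neg hp]
      have : ¬(q.1 = p.1 ∧ q.2 = p.2) := fun h => hp (Prod.ext h.1.symm h.2.symm)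
      rcases not_and_or.1 this with h | h <;> simp [h]
  simp only [hsum, ite_smul, zero_smul, Finset.sum_ite_eq', Finset.mem_univ, if_true] at h1
  exact (smul_eq_zero.1 h1).resolve_left (by norm_num)

theorem twist_pairing (hA : IsCl γA) (hB : IsCl γB) (hl : 0 < l) (hl1 : l < 1)
    {e : Finset UA × Finset UB} (he : EvenPair e) (U : Finset UA × Finset UB)
    (X : Matrix (ZA × ZB) (ZA × ZB) ℂ) :
    ∑ p, ∑ q, ((wgt2 l p * sign2 U p * modeProd (modeK l) e p q * wgt2 l q : ℝ) : ℂ)
        • (mono2 γA γB e * ((mono2 γA γB q)ᴴ * X * mono2 γA γB q))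
      = ((l ^ size U : ℝ) : ℂ) • (mono2 γA γB U * chan (prodKraus (noise l γA) (noise l γB)) X
          * mono2 γA γB e * (mono2 γA γB U)ᴴ) := by
  let F : Matrix (ZA × ZB) (ZA × ZB) ℂ →ₗ[ℂ] Matrix (ZA × ZB) (ZA × ZB) ℂ :=
    ∑ p : Finset UA × Finset UB, ∑ q : Finset UA × Finset UB,
      ((wgt2 l p * sign2 U p * modeProd (modeK l) e p q * wgt2 l q : ℝ) : ℂ) •
        (LinearMap.mulLeft ℂ (mono2 γA γB e * (mono2 γA γB q)ᴴ) ∘ₗ
          LinearMap.mulRight ℂ (mono2 γA γB q))
  let G : Matrix (ZA × ZB) (ZA × ZB) ℂ →ₗ[ℂ] Matrix (ZA × ZB) (ZA × ZB) ℂ :=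
    ((l ^ size U : ℝ) : ℂ) • (LinearMap.mulLeft ℂ (mono2 γA γB U) ∘ₗ
      LinearMap.mulRight ℂ (mono2 γA γB e * (mono2 γA γB U)ᴴ) ∘ₗ
        chanLin (prodKraus (noise l γA) (noise l γB)))
  have key := ext_even hA hB (F := F) (G := G) (fun T hT => ?_) X
  · simp only [F, G, LinearMap.coe_sum, Finset.sum_apply, LinearMap.smul_apply,
      LinearMap.comp_apply, LinearMap.mulLeft_apply, LinearMap.mulRight_apply, chanLin_apply, Matrix.mul_assoc] at key
    simp only [Matrix.mul_assoc]
    exact key
  · have hR : mono2 γA γB U * (mono2 γA γB T * (mono2 γA γB e * (mono2 γA γB U)ᴴ))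
        = ((sign2 U e * sign2 U T * sign2 e T : ℝ) : ℂ)
          • (mono2 γA γB e * mono2 γA γB T) := by
      rw [← Matrix.mul_assoc, comm2' hA hB hT U, Matrix.smul_mul, Matrix.mul_assoc,
        ← Matrix.mul_assoc (mono2 γA γB U), comm2' hA hB he U, Matrix.smul_mul, Matrix.mul_assoc,
        (mono2_unitary hA hB U).2, Matrix.mul_one, Matrix.mul_smul, smul_smul,
        comm2 hA hB hT e, smul_smul, sign2_comm T U, sign2_comm e U, sign2_comm T e]
      push_cast
      congr 1
      ring
    simp only [F, G, LinearMap.coe_sum, Finset.sum_apply, LinearMap.smul_apply,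
      LinearMap.comp_apply, LinearMap.mulLeft_apply, LinearMap.mulRight_apply, chanLin_apply]
    rw [noise_mono2 hA hB (abs_le.2 ⟨by linarith, hl1.le⟩) hT, Matrix.smul_mul, Matrix.mul_smul,
      hR, smul_smul, smul_smul]
    rw [show ((l ^ size U : ℝ) : ℂ) * ((l : ℂ) ^ size T)
          * ((sign2 U e * sign2 U T * sign2 e T : ℝ) : ℂ)
        = ((l ^ size U * l ^ size T * (sign2 U e * sign2 U T * sign2 e T) : ℝ) : ℂ) by
        push_cast; ring, ← pair_sum hl hl1 U e T]
    simp only [Complex.ofReal_sum, Finset.sum_smul]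
    refine Finset.sum_congr rfl fun p _ => Finset.sum_congr rfl fun q _ => ?_
    rw [Matrix.mul_assoc (mono2 γA γB e), ← Matrix.mul_assoc (mono2 γA γB q)ᴴ, conj2 hA hB hT q,
      Matrix.mul_smul, smul_smul]
    push_cast
    congr 1
    ring

omit [DecidableEq ZA] [DecidableEq ZB] [Fintype ZA] [Fintype ZB] in
theorem modeProd_symm (e p q : Finset UA × Finset UB) :
    modeProd (modeK l) e p q = modeProd (modeK l) e q p := by
  simp only [modeProd, modeK_comm l _ (decide (_ ∈ p.1)), modeK_comm l _ (decide (_ ∈ p.2))]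


theorem twist_identity (hA : IsCl γA) (hB : IsCl γB) (hl : 0 < l) (hl1 : l < 1)
    (_hc : ∀ e, c e ≠ 0 → EvenPair e) (V W : Matrix (ZA × ZB) (ZA × ZB) ℂ) :
    chan (prodKraus (noise l γA) (noise l γB)) W * (∑ e, c e • mono2 γA γB e)
        * chan (prodKraus (noise l γA) (noise l γB)) V
      = ∑ p, ∑ q, (prodKraus (noise l γA) (noise l γB) p)ᴴ * V * twistD l γA γB c p q * W
          * prodKraus (noise l γA) (noise l γB) q := by
  have mon : ∀ S T, EvenPair S → EvenPair T →
      chan (prodKraus (noise l γA) (noise l γB)) (mono2 γA γB T) * (∑ e, c e • mono2 γA γB e)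
        * chan (prodKraus (noise l γA) (noise l γB)) (mono2 γA γB S)
      = ∑ p, ∑ q, (prodKraus (noise l γA) (noise l γB) p)ᴴ * mono2 γA γB S
          * twistD l γA γB c p q * mono2 γA γB T * prodKraus (noise l γA) (noise l γB) q := by
    intro S T hS hT
    have hab : |l| ≤ 1 := abs_le.2 ⟨by linarith, hl1.le⟩
    rw [noise_mono2 hA hB hab hS, noise_mono2 hA hB hab hT]
    simp only [twistD, prodKraus_noise, conjTranspose_smul, Complex.star_def, Complex.conj_ofReal,
      Matrix.mul_sum, Matrix.sum_mul, Matrix.smul_mul, Matrix.mul_smul, Finset.smul_sum, smul_smul]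
    conv_rhs => rw [Finset.sum_comm_cycle]
    refine Finset.sum_congr rfl fun e _ => ?_
    have hterm : ∀ p q, (mono2 γA γB p)ᴴ * mono2 γA γB S
        * (mono2 γA γB p * mono2 γA γB e * (mono2 γA γB q)ᴴ) * mono2 γA γB T * mono2 γA γB q
        = ((sign2 S p * sign2 T q : ℝ) : ℂ)
          • (mono2 γA γB S * mono2 γA γB e * mono2 γA γB T) := fun p q => by
      rw [show (mono2 γA γB p)ᴴ * mono2 γA γB S
        * (mono2 γA γB p * mono2 γA γB e * (mono2 γA γB q)ᴴ) * mono2 γA γB T * mono2 γA γB q
        = ((mono2 γA γB p)ᴴ * mono2 γA γB S * mono2 γA γB p) * mono2 γA γB e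
          * ((mono2 γA γB q)ᴴ * mono2 γA γB T * mono2 γA γB q) by simp only [Matrix.mul_assoc],
        conj2 hA hB hS p, conj2 hA hB hT q]
      simp only [Matrix.smul_mul, Matrix.mul_smul, smul_smul, Matrix.mul_assoc]
      push_cast
      rw [mul_comm]
    have hswap : mono2 γA γB T * mono2 γA γB e * mono2 γA γB S
        = ((sign2 T e * sign2 T S * sign2 S e : ℝ) : ℂ)
          • (mono2 γA γB S * mono2 γA γB e * mono2 γA γB T) := by
      rw [comm2 hA hB hT e, Matrix.smul_mul, Matrix.mul_assoc, comm2 hA hB hT S, Matrix.mul_smul,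
        ← Matrix.mul_assoc, comm2' hA hB hS e, Matrix.smul_mul, smul_smul, smul_smul]
      push_cast
      congr 1
    simp only [hterm, smul_smul, ← Finset.sum_smul]
    rw [hswap, smul_smul]
    congr 1
    have h := congrArg (fun r : ℝ => c e * (r : ℂ)) (pair_sum hl hl1 S e T)
    simp only [Complex.ofReal_sum, Finset.mul_sum] at h
    refine Eq.trans ?_ (h.symm.trans (Finset.sum_congr rfl fun p _ =>
      Finset.sum_congr rfl fun q _ => ?_))
    · rw [sign2_comm T e, sign2_comm T S]; push_cast; ring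
    · push_cast; ring
  let K := chanLin (prodKraus (noise l γA) (noise l γB))
  have hV : ∀ T, EvenPair T → ∀ V,
      chan (prodKraus (noise l γA) (noise l γB)) (mono2 γA γB T) * (∑ e, c e • mono2 γA γB e)
        * chan (prodKraus (noise l γA) (noise l γB)) V
      = ∑ p, ∑ q, (prodKraus (noise l γA) (noise l γB) p)ᴴ * V
          * twistD l γA γB c p q * mono2 γA γB T * prodKraus (noise l γA) (noise l γB) q := by
    intro T hT V
    have := ext_even hA hB
      (F := LinearMap.mulLeft ℂ (K (mono2 γA γB T) * ∑ e, c e • mono2 γA γB e) ∘ₗ K)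
      (G := ∑ p : Finset UA × Finset UB, ∑ q : Finset UA × Finset UB,
        LinearMap.mulLeft ℂ (prodKraus (noise l γA) (noise l γB) p)ᴴ ∘ₗ LinearMap.mulRight ℂ
          (twistD l γA γB c p q * mono2 γA γB T * prodKraus (noise l γA) (noise l γB) q))
      (fun S hS => ?_) V
    · simp only [LinearMap.coe_sum, Finset.sum_apply, LinearMap.comp_apply, K, chanLin_apply, LinearMap.mulLeft_apply, LinearMap.mulRight_apply,
        Matrix.mul_assoc] at this
      simp only [Matrix.mul_assoc]
      exact this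
    · have := mon S T hS hT
      simp only [LinearMap.coe_sum, Finset.sum_apply, LinearMap.comp_apply, K, chanLin_apply, LinearMap.mulLeft_apply, LinearMap.mulRight_apply,
        Matrix.mul_assoc]
      simp only [Matrix.mul_assoc] at this
      exact this
  have := ext_even hA hB
    (F := LinearMap.mulRight ℂ ((∑ e, c e • mono2 γA γB e) * K V) ∘ₗ K)
    (G := ∑ p : Finset UA × Finset UB, ∑ q : Finset UA × Finset UB,
      LinearMap.mulLeft ℂ ((prodKraus (noise l γA) (noise l γB) p)ᴴ * V * twistD l γA γB c p q)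
        ∘ₗ LinearMap.mulRight ℂ (prodKraus (noise l γA) (noise l γB) q))
    (fun T hT => ?_) W
  · simp only [LinearMap.coe_sum, Finset.sum_apply, LinearMap.comp_apply, K, chanLin_apply, LinearMap.mulLeft_apply, LinearMap.mulRight_apply,
      Matrix.mul_assoc] at this
    simp only [Matrix.mul_assoc]
    exact this
  · have := hV T hT V
    simp only [LinearMap.coe_sum, Finset.sum_apply, LinearMap.comp_apply, K, chanLin_apply, LinearMap.mulLeft_apply, LinearMap.mulRight_apply,
      Matrix.mul_assoc]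
    simp only [Matrix.mul_assoc] at this
    exact this

theorem twist_fix (hA : IsCl γA) (hB : IsCl γB) (hl : 0 < l) (hl1 : l < 1)
    (hc : ∀ e, c e ≠ 0 → EvenPair e) {ω : Matrix (ZA × ZB) (ZA × ZB) ℂ}
    (hω : chan (prodKraus (noise l γA) (noise l γB)) ω * (∑ e, c e • mono2 γA γB e) = 1)
    (p : Finset UA × Finset UB) :
    ∑ q, twistD l γA γB c p q * ω * prodKraus (noise l γA) (noise l γB) q
      = prodKraus (noise l γA) (noise l γB) p := by
  let F : Finset UA × Finset UB → Matrix (ZA × ZB) (ZA × ZB) ℂ := fun p =>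
    ∑ e, c e • ∑ q, ((modeProd (modeK l) e p q * wgt2 l q : ℝ) : ℂ)
      • (mono2 γA γB e * ((mono2 γA γB q)ᴴ * ω * mono2 γA γB q))
  have hF : ∀ p, (wgt2 l p : ℂ) • (F p - (wgt2 l p : ℂ) • 1) = 0 := by
    refine congrFun (eq_zero_of_sign (fun p => (wgt2 l p : ℂ) • (F p - (wgt2 l p : ℂ) • 1))
      fun U => ?_)
    simp only [smul_sub, Finset.sum_sub_distrib, smul_smul]
    rw [sub_eq_zero]
    have h1 : ∑ p, ((sign2 U p : ℂ) * (wgt2 l p : ℂ)) • F p
        = ((l ^ size U : ℝ) : ℂ) • (1 : Matrix (ZA × ZB) (ZA × ZB) ℂ) := by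
      simp only [F, Finset.smul_sum, smul_smul]
      rw [Finset.sum_comm]
      have h2 : ∀ e, (∑ p, ∑ q, ((sign2 U p : ℂ) * (wgt2 l p : ℂ) * (c e
            * ((modeProd (modeK l) e p q * wgt2 l q : ℝ) : ℂ))) • (mono2 γA γB e
              * ((mono2 γA γB q)ᴴ * ω * mono2 γA γB q)))
          = ((l ^ size U : ℝ) : ℂ) • (mono2 γA γB U
              * (chan (prodKraus (noise l γA) (noise l γB)) ω * (c e • mono2 γA γB e))
              * (mono2 γA γB U)ᴴ) := fun e => by
        by_cases he : c e = 0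
        · simp [he]
        · have h3 := congrArg (c e • ·) (twist_pairing hA hB hl hl1 (hc e he) U ω)
          simp only [Finset.smul_sum, smul_smul] at h3
          simp only [Matrix.mul_smul, Matrix.smul_mul, smul_smul]
          rw [mul_comm _ (c e), ← Matrix.mul_assoc]
          refine (Finset.sum_congr rfl fun p _ => Finset.sum_congr rfl fun q _ => ?_).trans h3
          push_cast
          congr 1
          ring
      rw [Finset.sum_congr rfl fun e _ => h2 e, ← Finset.smul_sum, ← Matrix.sum_mul,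
        ← Matrix.mul_sum, ← Matrix.mul_sum, hω, Matrix.mul_one, (mono2_unitary hA hB U).2]
    rw [h1, ← wgt2_sq_sum hl hl1 U, Complex.ofReal_sum, Finset.sum_smul]
    refine Finset.sum_congr rfl fun p _ => ?_
    push_cast
    congr 1
    ring
  have hw : (wgt2 l p : ℂ) ≠ 0 := Complex.ofReal_ne_zero.2
    (mul_ne_zero (wgt_pos hl hl1 p.1).ne' (wgt_pos hl hl1 p.2).ne')
  have hFp : F p = (wgt2 l p : ℂ) • 1 := sub_eq_zero.1 ((smul_eq_zero.1 (hF p)).resolve_left hw)
  calc ∑ q, twistD l γA γB c p q * ω * prodKraus (noise l γA) (noise l γB) q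
      = mono2 γA γB p * F p := by
        simp only [F, twistD, prodKraus_noise, Matrix.mul_sum, Matrix.sum_mul, Matrix.mul_smul,
          Matrix.smul_mul, Finset.smul_sum, smul_smul, Matrix.mul_assoc]
        rw [Finset.sum_comm]
        refine Finset.sum_congr rfl fun e _ => Finset.sum_congr rfl fun q _ => ?_
        push_cast
        congr 1
        ring
    _ = prodKraus (noise l γA) (noise l γB) p := by
        rw [hFp, prodKraus_noise, Matrix.mul_smul, Matrix.mul_one]

theorem twist_sym (hc : ∀ e, (c e • mono2 γA γB e)ᴴ = c e • mono2 γA γB e)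
    (p q : Finset UA × Finset UB) :
    (twistD l γA γB c p q)ᴴ = twistD l γA γB c q p := by
  rw [twistD, twistD, conjTranspose_sum]
  refine Finset.sum_congr rfl fun e _ => ?_
  have h := hc e
  rw [conjTranspose_smul] at h
  have h' : star (c e) • (mono2 γA γB q * (mono2 γA γB e)ᴴ * (mono2 γA γB p)ᴴ)
      = c e • (mono2 γA γB q * mono2 γA γB e * (mono2 γA γB p)ᴴ) := by
    rw [← Matrix.smul_mul, ← Matrix.mul_smul, h, Matrix.mul_smul, Matrix.smul_mul]
  rw [conjTranspose_smul, star_mul', conjTranspose_mul, conjTranspose_mul,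
    conjTranspose_conjTranspose, modeProd_symm e p q, ← Matrix.mul_assoc,
    mul_comm (star (c e)), ← smul_smul, h', smul_smul, Complex.star_def, Complex.conj_ofReal,
    mul_comm (c e)]

/-- The coordinates of a family of vectors. -/
def rotVec (l : ℝ) (γA : UA → Matrix ZA ZA ℂ) (γB : UB → Matrix ZB ZB ℂ)
    (w : Finset UA × Finset UB → ZA × ZB → ℂ) (x : Finset UA × Finset UB) : ZA × ZB → ℂ :=
  ∑ p, (rot l x p : ℂ) • ((mono2 γA γB p)ᴴ *ᵥ w p)

theorem twist_form (_hl : 0 < l) (_hl1 : l < 1) (w : Finset UA × Finset UB → ZA × ZB → ℂ) :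
    ∑ p, ∑ q, star (w p) ⬝ᵥ twistD l γA γB c p q *ᵥ w q
      = ∑ e, c e * ∑ x, ∑ y, (modeProd (modeK' l) e x y : ℂ)
          * (star (rotVec l γA γB w x) ⬝ᵥ mono2 γA γB e *ᵥ rotVec l γA γB w y) := by
  have hmode : ∀ (U : Type) [Fintype U] [DecidableEq U] (e s t : Finset U),
      (∏ u, modeK l (decide (u ∈ e)) (decide (u ∈ s)) (decide (u ∈ t)))
        = ∑ x : Finset U, ∑ y : Finset U, (∏ u, modeO l (decide (u ∈ x)) (decide (u ∈ s)))
          * (∏ u, modeK' l (decide (u ∈ e)) (decide (u ∈ x)) (decide (u ∈ y)))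
          * (∏ u, modeO l (decide (u ∈ y)) (decide (u ∈ t))) := by
    intro U _ _ e s t
    simp only [← Finset.prod_mul_distrib]
    rw [sum_sets₂ fun u a b => modeO l a (decide (u ∈ s))
      * modeK' l (decide (u ∈ e)) a b * modeO l b (decide (u ∈ t))]
    refine Finset.prod_congr rfl fun u _ => ?_
    simp only [modeK, modeO_comm l (decide (u ∈ s))]
  have hK : ∀ e p q : Finset UA × Finset UB, modeProd (modeK l) e p q
      = ∑ x, ∑ y, rot l x p * modeProd (modeK' l) e x y * rot l y q := fun e p q => by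
    simp only [modeProd, hmode, Finset.sum_mul_sum, Fintype.sum_prod_type, rot]
    refine Finset.sum_congr rfl fun a _ => Finset.sum_congr rfl fun b _ => ?_
    refine Finset.sum_congr rfl fun c _ => Finset.sum_congr rfl fun d _ => ?_
    ring
  have hterm : ∀ e p q, star (w p) ⬝ᵥ
      (mono2 γA γB p * mono2 γA γB e * (mono2 γA γB q)ᴴ) *ᵥ w q
      = star ((mono2 γA γB p)ᴴ *ᵥ w p) ⬝ᵥ mono2 γA γB e *ᵥ ((mono2 γA γB q)ᴴ *ᵥ w q) := by
    intro e p q
    rw [star_mulVec, conjTranspose_conjTranspose, ← dotProduct_mulVec, mulVec_mulVec,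
      mulVec_mulVec, Matrix.mul_assoc]
  simp only [twistD, Matrix.sum_mulVec, dotProduct_sum, Matrix.smul_mulVec, dotProduct_smul,
    smul_eq_mul, hterm]
  simp only [rotVec, Matrix.mulVec_sum, Matrix.mulVec_smul, star_sum, star_smul, sum_dotProduct,
    dotProduct_sum, smul_dotProduct, dotProduct_smul, Complex.star_def, Complex.conj_ofReal,
    smul_eq_mul, hK, Complex.ofReal_sum, Complex.ofReal_mul, Finset.mul_sum, Finset.sum_mul]
  rw [Finset.sum_comm_cycle]
  refine Finset.sum_congr rfl fun e _ => ?_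
  rw [Finset.sum_comm_cycle]
  refine Finset.sum_congr rfl fun x _ => ?_
  rw [Finset.sum_comm_cycle]
  refine Finset.sum_congr rfl fun y _ => ?_
  rw [Finset.sum_comm]
  refine Finset.sum_congr rfl fun p _ => Finset.sum_congr rfl fun q _ => ?_
  ring

theorem rotVec_sum (hA : IsCl γA) (hB : IsCl γB) (hl : 0 < l) (hl1 : l < 1)
    (w : Finset UA × Finset UB → ZA × ZB → ℂ) :
    ∑ x, vsq (rotVec l γA γB w x) = ∑ p, vsq (w p) := by
  have horth : ∀ p q : Finset UA × Finset UB,
      (∑ x, rot l x p * rot l x q) = if p = q then 1 else 0 := fun p q => by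
    have h := congrArg₂ (· * ·) (set_rot hl hl1 p.1 q.1) (set_rot hl hl1 p.2 q.2)
    simp only [Finset.sum_mul_sum] at h
    rw [Fintype.sum_prod_type]
    refine Eq.trans (Finset.sum_congr rfl fun a _ => Finset.sum_congr rfl fun b _ => ?_)
      (h.trans ?_)
    · simp only [rot]; ring
    · by_cases hpq : p = q
      · subst hpq; simp
      · rw [if_neg hpq]
        have : ¬(p.1 = q.1 ∧ p.2 = q.2) := fun h => hpq (Prod.ext h.1 h.2)
        rcases not_and_or.1 this with h | h <;> simp [h]
  apply Complex.ofReal_injective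
  simp only [Complex.ofReal_sum, ← dot_self]
  have hu : ∀ p, star ((mono2 γA γB p)ᴴ *ᵥ w p) ⬝ᵥ ((mono2 γA γB p)ᴴ *ᵥ w p)
      = star (w p) ⬝ᵥ w p := fun p => by
    rw [star_mulVec, conjTranspose_conjTranspose, ← dotProduct_mulVec, mulVec_mulVec,
      (mono2_unitary hA hB p).2, one_mulVec]
  simp only [rotVec, star_sum, star_smul, sum_dotProduct, dotProduct_sum, smul_dotProduct,
    dotProduct_smul, Complex.star_def, Complex.conj_ofReal, smul_eq_mul]
  simp only [Finset.mul_sum]
  rw [Finset.sum_comm]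
  refine Finset.sum_congr rfl fun p _ => ?_
  rw [Finset.sum_comm]
  simp only [← mul_assoc, ← Finset.sum_mul, ← Complex.ofReal_mul, ← Complex.ofReal_sum]
  rw [Finset.sum_eq_single p]
  · rw [horth]; simp [hu]
  · intro q _ hq
    rw [show (∑ x, rot l x p * rot l x q) = 0 by rw [horth]; simp [Ne.symm hq]]
    simp
  · simp

theorem rotVec_empty (w : Finset UA × Finset UB → ZA × ZB → ℂ) :
    rotVec l γA γB w (∅, ∅)
      = ∑ p, (prodKraus (noise l γA) (noise l γB) p)ᴴ *ᵥ w p := by
  refine Finset.sum_congr rfl fun p _ => ?_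
  rw [prodKraus_noise, conjTranspose_smul, Matrix.smul_mulVec, Complex.star_def,
    Complex.conj_ofReal]
  congr 2
  simp [rot, wgt2, wgt, modeO_comm l false]

end Vale.Agent.P372.Zero
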