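import Mathlib

/-!
Inverting a degree-damping family on operators of bounded degree.

`mon` is a family of elements with degrees `deg`. A family of contractions multiplying a monomial by
`s ^ deg`, `|s| ≤ 1`, controls by Lagrange interpolation the map multiplying it by `t ^ deg`, for
any `t`, on the span of the monomials of degree at most `d`.
-/

noncomputable section

open Finset

namespace Vale.Agent.P372.Zero

/-- Equally spaced nodes in `[-1, 1]`. -/
def node (d j : ℕ) : ℝ := 2 * j / d - 1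

/-- Elements of degree at most `d`. -/
def degLE {ι E : Type*} [AddCommGroup E] [Module ℂ E] (mon : ι → E) (deg : ι → ℕ) (d : ℕ) :
    Submodule ℂ E :=
  Submodule.span ℂ (mon '' {i | deg i ≤ d})

/-- Lagrange weight of node `j` at `t`. -/
def lagW (d : ℕ) (t : ℝ) (j : ℕ) : ℝ :=
  ∏ i ∈ (range (d + 1)).erase j, (node d j - node d i)⁻¹ * (t - node d i)

theorem abs_node_le {d j : ℕ} (hj : j ≤ d) : |node d j| ≤ 1 := by
  have h1 : (j : ℝ) / d ≤ 1 := div_le_one_of_le₀ (by exact_mod_cast hj) (Nat.cast_nonneg d)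
  have h0 : (0 : ℝ) ≤ (j : ℝ) / d := by positivity
  rw [node, mul_div_assoc, abs_le]
  constructor <;> linarith

theorem node_sub (d j i : ℕ) : node d j - node d i = 2 / d * ((j : ℝ) - i) := by
  simp only [node]; ring

theorem node_injOn (d : ℕ) : Set.InjOn (node d) (range (d + 1) : Finset ℕ) := by
  intro a ha b hb h
  simp only [Finset.coe_range, Set.mem_Iio] at ha hb
  rcases Nat.eq_zero_or_pos d with rfl | hd
  · omega
  · have hd' : (2 : ℝ) / d ≠ 0 := by positivity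
    have h' := node_sub d a b
    rw [h, sub_self] at h'
    have := (mul_eq_zero.1 h'.symm).resolve_left hd'
    exact_mod_cast sub_eq_zero.1 this

theorem sum_lagW (d : ℕ) (t : ℝ) {k : ℕ} (hk : k ≤ d) :
    ∑ j ∈ range (d + 1), lagW d t j * node d j ^ k = t ^ k := by
  have hdeg : (Polynomial.X ^ k : Polynomial ℝ).degree < #(range (d + 1)) := by
    rw [Polynomial.degree_X_pow, card_range]
    exact_mod_cast Nat.lt_succ_of_le hk
  have h := congrArg (Polynomial.eval t) (Lagrange.eq_interpolate (node_injOn d) hdeg)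
  rw [Lagrange.interpolate_apply] at h
  simp only [Polynomial.eval_pow, Polynomial.eval_X, Polynomial.eval_finsetSum,
    Polynomial.eval_mul, Polynomial.eval_C, Lagrange.basis, Polynomial.eval_prod,
    Lagrange.basisDivisor, Polynomial.eval_sub] at h
  rw [h]
  exact sum_congr rfl fun j _ => mul_comm _ _

theorem prod_abs_sub_erase {d j : ℕ} (hj : j ≤ d) :
    ∏ i ∈ (range (d + 1)).erase j, |(j : ℝ) - i| = (j.factorial : ℝ) * (d - j).factorial := by
  have hsplit : (range (d + 1)).erase j = range j ∪ Ico (j + 1) (d + 1) := by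
    ext i; simp; omega
  rw [hsplit, prod_union]
  · congr 1
    · rw [← prod_range_add_one_eq_factorial, Nat.cast_prod, ← prod_range_reflect]
      refine prod_congr rfl fun i hi => ?_
      have hi' := mem_range.1 hi
      rw [abs_of_nonneg]
      · rw [Nat.cast_sub (by omega), Nat.cast_sub (by omega)]; push_cast; ring
      · rw [sub_nonneg]; exact_mod_cast (by omega : j - 1 - i ≤ j)
    · rw [← prod_range_add_one_eq_factorial, Nat.cast_prod, prod_Ico_eq_prod_range]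
      refine prod_congr (by congr 1; omega) fun i _ => ?_
      rw [show (j : ℝ) - ((j + 1 + i : ℕ) : ℝ) = -((i + 1 : ℕ) : ℝ) by push_cast; ring, abs_neg,
        abs_of_nonneg (Nat.cast_nonneg _)]
  · rw [disjoint_left]
    intro i hi hi'
    simp at hi hi'
    omega

theorem abs_lagW_le {d j : ℕ} (hj : j ≤ d) (t : ℝ) :
    |lagW d t j| ≤ ((1 + |t|) * ((d : ℝ) / 2)) ^ d / (j.factorial * (d - j).factorial) := by
  have hcard : #((range (d + 1)).erase j) = d := by
    rw [card_erase_of_mem (by simp; omega), card_range]; omega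
  have hP := prod_abs_sub_erase hj
  rw [lagW, abs_prod]
  refine le_trans (prod_le_prod (g := fun i : ℕ => (1 + |t|) * ((d : ℝ) / 2) * |(j : ℝ) - i|⁻¹)
    (fun i _ => abs_nonneg _) fun i hi => ?_) (le_of_eq ?_)
  · have h : |t - node d i| ≤ 1 + |t| := by
      refine (abs_sub _ _).trans ?_
      have := abs_node_le (d := d) (j := i) (by simp at hi; omega)
      linarith
    rw [abs_mul, node_sub, abs_inv, abs_mul, abs_of_nonneg (by positivity : (0 : ℝ) ≤ 2 / d),
      mul_inv, inv_div, show (1 + |t|) * ((d : ℝ) / 2) * |(j : ℝ) - i|⁻¹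
        = (d : ℝ) / 2 * |(j : ℝ) - i|⁻¹ * (1 + |t|) by ring]
    exact mul_le_mul_of_nonneg_left h (by positivity)
  · rw [prod_mul_distrib, prod_const, hcard, prod_inv_distrib, hP]
    simp only [div_eq_mul_inv]

theorem sum_inv_factorial_mul (d : ℕ) :
    ∑ j ∈ range (d + 1), 1 / ((j.factorial : ℝ) * (d - j).factorial)
      = 2 ^ d / d.factorial := by
  rw [eq_div_iff (by positivity), sum_mul, ← one_add_one_eq_two, add_pow]
  refine sum_congr rfl fun j hj => ?_
  rw [Nat.cast_choose ℝ (by simp at hj; omega)]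
  simp [div_eq_mul_inv, mul_comm]

theorem sum_abs_lagW_le (d : ℕ) (t : ℝ) :
    ∑ j ∈ range (d + 1), |lagW d t j| ≤ (Real.exp 1 * (1 + |t|)) ^ d := by
  refine (sum_le_sum fun j hj => abs_lagW_le (by simp at hj; omega) t).trans ?_
  simp only [div_eq_mul_one_div (((1 + |t|) * ((d : ℝ) / 2)) ^ d), ← mul_sum,
    sum_inv_factorial_mul]
  rw [mul_pow (Real.exp 1), ← Real.exp_nat_mul, mul_one, mul_pow, div_pow,
    show (1 + |t|) ^ d * ((d : ℝ) ^ d / 2 ^ d) * (2 ^ d / (d.factorial : ℝ))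
      = (d : ℝ) ^ d / d.factorial * (1 + |t|) ^ d by field_simp]
  gcongr
  exact Real.pow_div_factorial_le_exp _ (Nat.cast_nonneg d) d

section
variable {ι E : Type*} [NormedAddCommGroup E] [NormedSpace ℂ E] {mon : ι → E} {deg : ι → ℕ}

/-- The map multiplying monomials by `t ^ deg` is at most `(e (1 + |t|)) ^ d` in degree `d`. -/
theorem norm_le_of_degLE {L : ℝ → E →ₗ[ℂ] E}
    (hL : ∀ s : ℝ, |s| ≤ 1 → ∀ i, L s (mon i) = (s : ℂ) ^ deg i • mon i)
    (hc : ∀ s : ℝ, |s| ≤ 1 → ∀ X, ‖L s X‖ ≤ ‖X‖)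
    {R : E →ₗ[ℂ] E} {t : ℝ} (hR : ∀ i, R (mon i) = (t : ℂ) ^ deg i • mon i)
    {d : ℕ} {X : E} (hX : X ∈ degLE mon deg d) :
    ‖R X‖ ≤ (Real.exp 1 * (1 + |t|)) ^ d * ‖X‖ := by
  have hEq : Set.EqOn R (∑ j ∈ range (d + 1), (lagW d t j : ℂ) • L (node d j) : E →ₗ[ℂ] E)
      (degLE mon deg d) := by
    refine LinearMap.eqOn_span' ?_
    rintro _ ⟨i, hi, rfl⟩
    rw [LinearMap.sum_apply, hR]
    rw [show ((t : ℂ) ^ deg i) = ∑ j ∈ range (d + 1), (lagW d t j : ℂ) * (node d j : ℂ) ^ deg i by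
      exact_mod_cast (sum_lagW d t hi).symm, sum_smul]
    refine sum_congr rfl fun j hj => ?_
    rw [LinearMap.smul_apply, hL _ (abs_node_le (by simp at hj; omega)), smul_smul]
  rw [hEq hX, LinearMap.sum_apply]
  refine (norm_sum_le _ _).trans ?_
  refine le_trans ?_ (mul_le_mul_of_nonneg_right (sum_abs_lagW_le d t) (norm_nonneg X))
  rw [sum_mul]
  refine sum_le_sum fun j hj => ?_
  rw [LinearMap.smul_apply, norm_smul, Complex.norm_real, Real.norm_eq_abs]
  exact mul_le_mul_of_nonneg_left (hc _ (abs_node_le (by simp at hj; omega)) X) (abs_nonneg _)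

end

section
variable {ι A : Type*} [NormedRing A] [NormedAlgebra ℂ A] [FiniteDimensional ℂ A]
  {mon : ι → A} {deg : ι → ℕ}

/-- The damping inverse of `(1 - x)⁻¹` is close to `1` when `x` is small and of bounded degree. -/
theorem norm_inv_damp_sub_one_le [HasSummableGeomSeries A] {L : ℝ → A →ₗ[ℂ] A}
    (hL : ∀ s : ℝ, |s| ≤ 1 → ∀ i, L s (mon i) = (s : ℂ) ^ deg i • mon i)
    (hc : ∀ s : ℝ, |s| ≤ 1 → ∀ X, ‖L s X‖ ≤ ‖X‖)
    {R : A →ₗ[ℂ] A} {t : ℝ} (hR : ∀ i, R (mon i) = (t : ℂ) ^ deg i • mon i) (hR1 : R 1 = 1)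
    {k : ℕ} {x : A} (hx : ∀ m : ℕ, x ^ m ∈ degLE mon deg (k * m)) {ε : ℝ} (hε : ‖x‖ ≤ ε)
    (hq : (Real.exp 1 * (1 + |t|)) ^ k * ε < 1) :
    ‖R (Ring.inverse (1 - x)) - 1‖
      ≤ (Real.exp 1 * (1 + |t|)) ^ k * ε / (1 - (Real.exp 1 * (1 + |t|)) ^ k * ε) := by
  set a := Real.exp 1 * (1 + |t|) with ha
  set q := a ^ k * ε with hqdef
  have he : (1 : ℝ) ≤ Real.exp 1 := Real.one_le_exp zero_le_one
  have ha1 : 1 ≤ a := one_le_mul_of_one_le_of_one_le he (by linarith [abs_nonneg t])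
  have hε0 : 0 ≤ ε := (norm_nonneg x).trans hε
  have hq0 : 0 ≤ q := by positivity
  have hx1 : ‖x‖ < 1 := lt_of_le_of_lt
    (hε.trans (le_mul_of_one_le_left hε0 (one_le_pow₀ ha1))) hq
  have hterm : ∀ m : ℕ, ‖R (x ^ (m + 1))‖ ≤ q * q ^ m := by
    intro m
    refine (norm_le_of_degLE hL hc hR (hx (m + 1))).trans ?_
    rw [← pow_succ', hqdef, mul_pow (a ^ k), ← pow_mul]
    exact mul_le_mul_of_nonneg_left ((norm_pow_le' x (Nat.succ_pos m)).trans
      (pow_le_pow_left₀ (norm_nonneg x) hε _)) (by positivity)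
  have hs := summable_geometric_of_norm_lt_one hx1
  have hR' : HasSum (fun m => R (x ^ m)) (R (∑' m, x ^ m)) :=
    (LinearMap.toContinuousLinearMap R).hasSum hs.hasSum
  have hinv : Ring.inverse (1 - x) = ∑' m, x ^ m :=
    (geom_series_eq_inverse x hx1).symm
  have htail : HasSum (fun m => R (x ^ (m + 1))) (R (Ring.inverse (1 - x)) - 1) := by
    have := (hasSum_nat_add_iff' 1).2 hR'
    simpa [hR1, hinv] using this
  rw [div_eq_mul_inv, ← htail.tsum_eq]
  exact tsum_of_norm_bounded ((hasSum_geometric_of_lt_one hq0 hq).mul_left q) hterm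

end

section
open scoped Matrix.Norms.L2Operator ComplexOrder
open Matrix

variable {n : Type*} [Fintype n] [DecidableEq n]

theorem norm_dot_mulVec_le (X : Matrix n n ℂ) (v : n → ℂ) :
    ‖star v ⬝ᵥ (X *ᵥ v)‖ ≤ ‖X‖ * (star v ⬝ᵥ v).re := by
  let w : EuclideanSpace ℂ n := WithLp.toLp 2 v
  have h1 : inner ℂ w (WithLp.toLp 2 (X *ᵥ v)) = star v ⬝ᵥ (X *ᵥ v) := by
    simp [w, EuclideanSpace.inner_toLp_toLp, dotProduct_comm]
  have h2 : (star v ⬝ᵥ v).re = ‖w‖ ^ 2 := by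
    rw [show star v ⬝ᵥ v = inner ℂ w w from
      (dotProduct_comm _ _).trans (EuclideanSpace.inner_toLp_toLp (𝕜 := ℂ) v v).symm,
      inner_self_eq_norm_sq_to_K]
    simp [← Complex.ofReal_pow]
  rw [← h1, h2, pow_two, ← mul_assoc, mul_comm]
  exact (norm_inner_le_norm _ _).trans
    (mul_le_mul_of_nonneg_left (l2_opNorm_mulVec X w) (norm_nonneg _))

/-- A Hermitian matrix within `δ` of the identity lies above `1 - δ`. -/
theorem posSemidef_sub_of_norm_sub_one_le {X : Matrix n n ℂ} (hX : X.IsHermitian) {δ : ℝ}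
    (h : ‖X - 1‖ ≤ δ) : (X - ((1 - δ : ℝ) : ℂ) • 1).PosSemidef := by
  have hY : (X - 1).IsHermitian := hX.sub isHermitian_one
  have h1 : (((δ : ℝ) : ℂ) • (1 : Matrix n n ℂ) + (X - 1)).PosSemidef := by
    refine PosSemidef.of_dotProduct_mulVec_nonneg
      ((isHermitian_one.smul (by simp [IsSelfAdjoint])).add hY) fun v => ?_
    rw [add_mulVec, smul_mulVec, one_mulVec, dotProduct_add, dotProduct_smul]
    have him := hY.im_star_dotProduct_mulVec_self v
    have hvv := dotProduct_star_self_nonneg v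
    rw [Complex.nonneg_iff] at hvv ⊢
    have hb := (Complex.abs_re_le_norm _).trans (norm_dot_mulVec_le (X - 1) v)
    refine ⟨?_, ?_⟩
    · simp only [smul_eq_mul, Complex.add_re, Complex.mul_re, Complex.ofReal_re,
        Complex.ofReal_im, zero_mul, sub_zero]
      nlinarith [(abs_le.1 hb).1, mul_le_mul_of_nonneg_right h hvv.1]
    · simp only [smul_eq_mul, Complex.add_im, Complex.mul_im, Complex.ofReal_re,
        Complex.ofReal_im, zero_mul, add_zero, ← hvv.2, mul_zero]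
      simpa using him.symm
  convert h1 using 1
  simp [sub_smul]
  abel

/-- A Hermitian matrix within `δ` of the identity lies below `1 + δ`. -/
theorem posSemidef_smul_sub_of_norm_sub_one_le {X : Matrix n n ℂ} (hX : X.IsHermitian) {δ : ℝ}
    (h : ‖X - 1‖ ≤ δ) : (((1 + δ : ℝ) : ℂ) • 1 - X).PosSemidef := by
  have h' : ‖((2 : ℂ) • 1 - X) - 1‖ ≤ δ := by
    rwa [show ((2 : ℂ) • (1 : Matrix n n ℂ) - X) - 1 = -(X - 1) by rw [two_smul]; abel, norm_neg]
  convert posSemidef_sub_of_norm_sub_one_le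
    ((isHermitian_one.smul (by simp [IsSelfAdjoint])).sub hX) h' using 1
  rw [sub_right_comm, ← sub_smul]
  push_cast
  ring_nf

end

section
variable {ι A : Type*} [Ring A] [Algebra ℂ A] {mon : ι → A} {deg : ι → ℕ}

theorem mul_mem_degLE
    (hmul : ∀ i j, ∃ (c : ℂ) (k : ι), mon i * mon j = c • mon k ∧ deg k ≤ deg i + deg j)
    {a b : ℕ} {X Y : A} (hX : X ∈ degLE mon deg a) (hY : Y ∈ degLE mon deg b) :
    X * Y ∈ degLE mon deg (a + b) := by
  refine Submodule.span_induction (p := fun u _ => u * Y ∈ degLE mon deg (a + b)) ?_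
    (by simp) (fun u v _ _ hu hv => by rw [add_mul]; exact add_mem hu hv)
    (fun c u _ hu => by rw [smul_mul_assoc]; exact Submodule.smul_mem _ c hu) hX
  rintro _ ⟨i, hi, rfl⟩
  refine Submodule.span_induction (p := fun v _ => mon i * v ∈ degLE mon deg (a + b)) ?_
    (by simp) (fun u v _ _ hu hv => by rw [mul_add]; exact add_mem hu hv)
    (fun c u _ hu => by rw [mul_smul_comm]; exact Submodule.smul_mem _ c hu) hY
  rintro _ ⟨j, hj, rfl⟩
  obtain ⟨c, k, h, hk⟩ := hmul i j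
  rw [h]
  exact Submodule.smul_mem _ _ (Submodule.subset_span ⟨k, hk.trans (Nat.add_le_add hi hj), rfl⟩)

theorem pow_mem_degLE
    (hmul : ∀ i j, ∃ (c : ℂ) (k : ι), mon i * mon j = c • mon k ∧ deg k ≤ deg i + deg j)
    (h1 : (1 : A) ∈ degLE mon deg 0) {k : ℕ} {x : A} (hx : x ∈ degLE mon deg k) :
    ∀ m : ℕ, x ^ m ∈ degLE mon deg (k * m)
  | 0 => by simpa using h1
  | m + 1 => by
    rw [pow_succ, Nat.mul_succ]
    exact mul_mem_degLE hmul (pow_mem_degLE hmul h1 hx m) hx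

end

section
open scoped Matrix.Norms.L2Operator ComplexOrder Kronecker
open Matrix

variable {n p m ι : Type*} [Fintype n] [DecidableEq n] [Fintype p] [DecidableEq p] [Fintype m]
  [DecidableEq m]

theorem norm_one_kronecker_le (X : Matrix m m ℂ) : ‖(1 : Matrix p p ℂ) ⊗ₖ X‖ ≤ ‖X‖ := by
  rw [l2_opNorm_def (A := (1 : Matrix p p ℂ) ⊗ₖ X)]
  refine ContinuousLinearMap.opNorm_le_bound _ (norm_nonneg _) fun v => ?_
  refine le_of_sq_le_sq ?_ (by positivity)
  rw [mul_pow, EuclideanSpace.norm_sq_eq, EuclideanSpace.norm_sq_eq, Fintype.sum_prod_type,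
    Fintype.sum_prod_type, Finset.mul_sum]
  refine Finset.sum_le_sum fun a _ => ?_
  have h := pow_le_pow_left₀ (norm_nonneg _)
    (l2_opNorm_mulVec X (WithLp.toLp 2 fun j => v (a, j))) 2
  rw [mul_pow, EuclideanSpace.norm_sq_eq, EuclideanSpace.norm_sq_eq] at h
  refine le_of_eq_of_le (Finset.sum_congr rfl fun i _ => ?_) h
  simp [toLpLin_apply, mulVec, dotProduct, Fintype.sum_prod_type, kroneckerMap_apply,
    one_apply, ite_mul]

/-- Compressing `1 ⊗ X` by an isometry does not increase the norm. -/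
theorem norm_compress_le {J : Matrix (p × m) n ℂ} (hJ : Jᴴ * J = 1) (X : Matrix m m ℂ) :
    ‖Jᴴ * ((1 : Matrix p p ℂ) ⊗ₖ X) * J‖ ≤ ‖X‖ := by
  have h1 : ‖J‖ * ‖J‖ ≤ 1 := by
    rw [← l2_opNorm_conjTranspose_mul_self, hJ]
    rcases subsingleton_or_nontrivial (Matrix n n ℂ) with h | h
    · rw [Subsingleton.elim (1 : Matrix n n ℂ) 0, norm_zero]; exact zero_le_one
    · rw [CStarRing.norm_one]
  calc ‖Jᴴ * ((1 : Matrix p p ℂ) ⊗ₖ X) * J‖
      ≤ ‖Jᴴ‖ * ‖(1 : Matrix p p ℂ) ⊗ₖ X‖ * ‖J‖ :=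
        (l2_opNorm_mul _ _).trans
          (mul_le_mul_of_nonneg_right (l2_opNorm_mul _ _) (norm_nonneg _))
    _ = ‖J‖ * ‖J‖ * ‖(1 : Matrix p p ℂ) ⊗ₖ X‖ := by rw [l2_opNorm_conjTranspose]; ring
    _ ≤ 1 * ‖X‖ := mul_le_mul h1 (norm_one_kronecker_le X) (norm_nonneg _) zero_le_one
    _ = ‖X‖ := one_mul _

/-- The preimage of `(1 - x)⁻¹` under damping by `l` is Hermitian and within `δ` of `1`, hence
positive semidefinite. -/
theorem exists_damp_preimage {mon : ι → Matrix n n ℂ} {deg : ι → ℕ}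
    {L : ℝ → Matrix n n ℂ →ₗ[ℂ] Matrix n n ℂ}
    (hL : ∀ s : ℝ, |s| ≤ 1 → ∀ i, L s (mon i) = (s : ℂ) ^ deg i • mon i)
    (hc : ∀ s : ℝ, |s| ≤ 1 → ∀ X, ‖L s X‖ ≤ ‖X‖)
    (hspan : Submodule.span ℂ (Set.range mon) = ⊤) (h1 : (1 : Matrix n n ℂ) ∈ degLE mon deg 0)
    (hmul : ∀ i j, ∃ (c : ℂ) (k : ι), mon i * mon j = c • mon k ∧ deg k ≤ deg i + deg j)
    {l : ℝ} (hl : 0 < l) (hl1 : l ≤ 1) (hstar : ∀ X, L l Xᴴ = (L l X)ᴴ)
    {k : ℕ} {x : Matrix n n ℂ} (hxh : x.IsHermitian) (hx : x ∈ degLE mon deg k)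
    {ε δ : ℝ} (hε : ‖x‖ ≤ ε) (hq : (Real.exp 1 * (1 + 1 / l)) ^ k * ε < 1)
    (hδ : (Real.exp 1 * (1 + 1 / l)) ^ k * ε / (1 - (Real.exp 1 * (1 + 1 / l)) ^ k * ε) ≤ δ)
    (hδ1 : δ ≤ 1) :
    ∃ ω : Matrix n n ℂ, L l ω = Ring.inverse (1 - x) ∧ ω.PosSemidef ∧ ‖ω - 1‖ ≤ δ ∧
      (ω - ((1 - δ : ℝ) : ℂ) • 1).PosSemidef ∧ (((1 + δ : ℝ) : ℂ) • 1 - ω).PosSemidef := by
  have hla : |l| ≤ 1 := by rwa [abs_of_pos hl]
  have hne : (l : ℂ) ≠ 0 := by exact_mod_cast hl.ne'
  have hsurj : Function.Surjective (L l) := by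
    rw [← LinearMap.range_eq_top, eq_top_iff, ← hspan, Submodule.span_le]
    rintro _ ⟨i, rfl⟩
    exact ⟨((l : ℂ) ^ deg i)⁻¹ • mon i, by
      rw [map_smul, hL l hla, smul_smul, inv_mul_cancel₀ (pow_ne_zero _ hne), one_smul]⟩
  have hinj : Function.Injective (L l) := LinearMap.injective_iff_surjective.2 hsurj
  let e := LinearEquiv.ofBijective (L l) ⟨hinj, hsurj⟩
  have ht : |1 / l| = 1 / l := abs_of_pos (by positivity)
  have hR : ∀ i, (e.symm : Matrix n n ℂ →ₗ[ℂ] Matrix n n ℂ) (mon i)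
      = ((1 / l : ℝ) : ℂ) ^ deg i • mon i := by
    intro i
    refine hinj ?_
    simp only [LinearEquiv.coe_coe]
    rw [show L l (e.symm (mon i)) = mon i from e.apply_symm_apply _, map_smul, hL l hla,
      smul_smul, ← mul_pow, ← Complex.ofReal_mul, one_div_mul_cancel hl.ne', Complex.ofReal_one,
      one_pow, one_smul]
  have hR1 : (e.symm : Matrix n n ℂ →ₗ[ℂ] Matrix n n ℂ) 1 = 1 := by
    have : Set.EqOn (e.symm : Matrix n n ℂ →ₗ[ℂ] Matrix n n ℂ)
        (LinearMap.id : Matrix n n ℂ →ₗ[ℂ] Matrix n n ℂ)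
        (degLE mon deg 0) := by
      refine LinearMap.eqOn_span' ?_
      rintro _ ⟨i, hi, rfl⟩
      rw [hR, Nat.le_zero.1 hi, pow_zero, one_smul, LinearMap.id_apply]
    exact this h1
  refine ⟨e.symm (Ring.inverse (1 - x)), e.apply_symm_apply _, ?_⟩
  have hb : ‖(e.symm (Ring.inverse (1 - x))) - 1‖ ≤ δ := by
    have := norm_inv_damp_sub_one_le hL hc hR hR1 (pow_mem_degLE hmul h1 hx) hε
      (by rwa [ht])
    rw [ht] at this
    exact this.trans hδ
  have hh : (e.symm (Ring.inverse (1 - x))).IsHermitian := by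
    refine hinj ?_
    rw [hstar, show L l (e.symm (Ring.inverse (1 - x))) = Ring.inverse (1 - x) from
      e.apply_symm_apply _, ← star_eq_conjTranspose, ← Ring.inverse_star, star_sub, star_one,
      star_eq_conjTranspose, hxh.eq]
  refine ⟨?_, hb, posSemidef_sub_of_norm_sub_one_le hh hb,
    posSemidef_smul_sub_of_norm_sub_one_le hh hb⟩
  have h0 := (posSemidef_sub_of_norm_sub_one_le hh hb).add
    ((PosSemidef.one (n := n) (R := ℂ)).smul (show (0 : ℂ) ≤ ((1 - δ : ℝ) : ℂ) by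
      exact_mod_cast (sub_nonneg.2 hδ1)))
  rwa [sub_add_cancel] at h0

end

end Vale.Agent.P372.Zero
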