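import Vale.Agent.P372.Zero.Bridge
import Vale.Agent.P372.Zero.Stack.Key

/-!
A certified state satisfies the advantage distillation inequality.
-/

noncomputable section

open Matrix Finset
open scoped ComplexOrder Kronecker

namespace Vale.Agent.P372.Zero

variable {A B ZA ZB PA PB : Type} [Fintype A] [Fintype B] [DecidableEq A] [DecidableEq B]
  [Fintype ZA] [Fintype ZB] [DecidableEq ZA] [DecidableEq ZB] [Fintype PA] [Fintype PB]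
  [DecidableEq PA] [DecidableEq PB]

theorem cert_inequality {ρ : Matrix (A × B) (A × B) ℂ} {KA : PA → Matrix ZA A ℂ}
    {KB : PB → Matrix ZB B ℂ} {S : Matrix (ZA × ZB) (ZA × ZB) ℂ}
    {R : Matrix (A × B) (A × B) ℂ}
    {D : PA × PB → PA × PB → Matrix (ZA × ZB) (ZA × ZB) ℂ}
    (h : IsCert ρ KA KB S R D) {k l : ℕ} (a₀ a₁ : Matrix (Fin k) A ℂ)
    (b₀ b₁ : Matrix (Fin l) B ℂ) (W : Matrix (Fin k × Fin l) (Fin k × Fin l) ℂ)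
    (hW : (1 - W * Wᴴ).PosSemidef) :
    ‖(ρ * ((a₀ ⊗ₖ b₀)ᴴ * W * (a₁ ⊗ₖ b₁))).trace‖ ^ 4
      ≤ (ρ * ((a₀ᴴ * a₀) ⊗ₖ (b₀ᴴ * b₀))).trace.re * (ρ * ((a₀ᴴ * a₀) ⊗ₖ (b₁ᴴ * b₁))).trace.re
        * (ρ * ((a₁ᴴ * a₁) ⊗ₖ (b₀ᴴ * b₀))).trace.re
        * (ρ * ((a₁ᴴ * a₁) ⊗ₖ (b₁ᴴ * b₁))).trace.re := by
  exact Stack.test_le h.data a₀ a₁ b₀ b₁ W hW

end Vale.Agent.P372.Zero
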