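import Vale.Agent.P372.Exact2

/-!
Failing the test on every number of copies rules out key from every protocol, whatever the number
of rounds: each complete transcript has product effects for the two keys.
-/

noncomputable section

open Matrix Finset
open scoped ComplexOrder Kronecker

namespace Vale.Agent.P372

/-- A protocol with arbitrarily many rounds gives `ℓ` key bits from `n` copies with error at most
`ε`: for each complete transcript `u` the effects of the keys `kA`, `kB` are products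
`MA u kA ⊗ MB u kB`, and Eve holds her systems and the transcript. -/
def ProtocolWithError {dA dB r : ℕ} (G : Matrix (Fin dA × Fin dB) (Fin r) ℂ) (n ℓ : ℕ) (ε : ℝ) :
    Prop :=
  ∃ (s : ℕ) (MA : Fin s → (Fin ℓ → ZMod 2) → Matrix (Fin n → Fin dA) (Fin n → Fin dA) ℂ)
    (MB : Fin s → (Fin ℓ → ZMod 2) → Matrix (Fin n → Fin dB) (Fin n → Fin dB) ℂ)
    (σ : Fin s → Matrix (Fin n → Fin r) (Fin n → Fin r) ℂ),
    (∀ u x, (MA u x).PosSemidef) ∧ (∀ u y, (MB u y).PosSemidef) ∧
    ∑ u, (∑ x, MA u x) ⊗ₖ (∑ y, MB u y) = 1 ∧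
    (∀ u, (σ u).PosSemidef) ∧ ∑ u, (σ u).trace = 1 ∧
    ∑ x, ∑ y, ∑ u, traceNorm (eveOp (copies G n) (MA u x) (MB u y)
      - if x = y then ((2 : ℂ) ^ ℓ)⁻¹ • σ u else 0) ≤ ε

/-- The first key bit of a protocol is a protocol for one bit. -/
theorem oneBit_of_protocol {dA dB r n ℓ : ℕ} {G : Matrix (Fin dA × Fin dB) (Fin r) ℂ} {ε : ℝ}
    (h : ProtocolWithError G n (ℓ + 1) ε) : OneBitWithError G n ε := by
  obtain ⟨s, MA, MB, σ, hA, hB, hone, hσ, hσ1, herr⟩ := h
  let S : ZMod 2 → Finset (Fin (ℓ + 1) → ZMod 2) := fun x => {k | k 0 = x}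
  refine ⟨s, fun u x => ∑ k ∈ S x, MA u k, fun u y => ∑ k ∈ S y, MB u k, σ,
    fun u x => posSemidef_sum _ fun k _ => hA u k, fun u y => posSemidef_sum _ fun k _ => hB u k,
    ?_, hσ, hσ1, ?_⟩
  · simp only [S, Finset.sum_fiberwise]
    exact hone
  · have hsplit : ∀ x y u, eveOp (copies G n) (∑ k ∈ S x, MA u k) (∑ k ∈ S y, MB u k)
          - (if x = y then (2 : ℂ)⁻¹ • σ u else 0)
        = ∑ k ∈ S x, ∑ k' ∈ S y, (eveOp (copies G n) (MA u k) (MB u k')
            - if k = k' then ((2 : ℂ) ^ (ℓ + 1))⁻¹ • σ u else 0) := by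
      intro x y u
      simp only [Finset.sum_sub_distrib]
      congr 1
      · have hop : ∀ (M : Matrix (Fin n → Fin dA) (Fin n → Fin dA) ℂ)
            (N : Matrix (Fin n → Fin dB) (Fin n → Fin dB) ℂ),
            eveOp (copies G n) M N = (op (piG G (Fin n)) M N)ᵀ := fun M N => rfl
        simp only [hop, op_sum_left, op_sum_right, transpose_sum]
        exact Finset.sum_comm
      · rw [Finset.sum_comm]
        have h2 : ∀ k' ∈ S y,
            (∑ k ∈ S x, if k = k' then ((2 : ℂ) ^ (ℓ + 1))⁻¹ • σ u else 0)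
            = if x = y then ((2 : ℂ) ^ (ℓ + 1))⁻¹ • σ u else 0 := by
          intro k' hk'
          rw [Finset.sum_ite_eq']
          simp only [S, Finset.mem_filter, Finset.mem_univ, true_and] at hk' ⊢
          simp [hk', eq_comm]
        rw [Finset.sum_congr rfl h2, Finset.sum_const, show #(S y) = 2 ^ ℓ from card_first_bit y]
        split_ifs
        · rw [← Nat.cast_smul_eq_nsmul ℂ, smul_smul]
          congr 1
          push_cast
          rw [pow_succ]
          field_simp
        · simp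
    refine le_trans ?_ herr
    calc _ ≤ ∑ x, ∑ y, ∑ u, ∑ k ∈ S x, ∑ k' ∈ S y,
          traceNorm (eveOp (copies G n) (MA u k) (MB u k')
            - if k = k' then ((2 : ℂ) ^ (ℓ + 1))⁻¹ • σ u else 0) := by
          refine Finset.sum_le_sum fun x _ => Finset.sum_le_sum fun y _ =>
            Finset.sum_le_sum fun u _ => ?_
          rw [hsplit]
          exact traceNorm_le (bnd_sum _ fun k _ => bnd_sum _ fun k' _ => bnd_traceNorm _)
      _ = _ := by
          symm
          rw [← Finset.sum_fiberwise univ (fun k : Fin (ℓ + 1) → ZMod 2 => k 0)]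
          refine Finset.sum_congr rfl fun x _ => ?_
          symm
          rw [Finset.sum_congr rfl fun y _ => Finset.sum_comm, Finset.sum_comm]
          refine Finset.sum_congr rfl fun k _ => ?_
          symm
          rw [← Finset.sum_fiberwise univ (fun k : Fin (ℓ + 1) → ZMod 2 => k 0)]
          exact Finset.sum_congr rfl fun y _ => Finset.sum_comm

/-- A state failing the test has no key: every protocol on finitely many copies producing at
least one bit has error at least one fifth, so no positive rate is achieved with vanishing error. -/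
theorem no_key {dA dB : ℕ} {ρ : Matrix (Fin dA × Fin dB) (Fin dA × Fin dB) ℂ}
    (h : ¬CopiesTest ρ) (r : ℕ) (G : Matrix (Fin dA × Fin dB) (Fin r) ℂ) (hG : G * Gᴴ = ρ) :
    (∀ (n ℓ : ℕ) (ε : ℝ), 0 < n → 0 < ℓ → ProtocolWithError G n ℓ ε → 1 / 5 ≤ ε) ∧
    ∀ c : ℝ, 0 < c → ∃ ε : ℝ, 0 < ε ∧
      ∀ N : ℕ, ∃ n, N ≤ n ∧ ∀ ℓ : ℕ, c * n ≤ ℓ → ¬ProtocolWithError G n ℓ ε := by
  have h1 : ∀ (n ℓ : ℕ) (ε : ℝ), 0 < n → 0 < ℓ → ProtocolWithError G n ℓ ε → 1 / 5 ≤ ε := by
    intro n ℓ ε hn hℓ hP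
    obtain ⟨m, rfl⟩ := Nat.exists_eq_add_of_lt hℓ
    by_contra hε
    rw [not_le] at hε
    refine h (hG ▸ test_of_oneBit hn hε (oneBit_of_protocol (ℓ := m) ?_))
    simpa using hP
  refine ⟨h1, fun c hc => ⟨1 / 10, by norm_num, fun N => ⟨N + 1, Nat.le_succ N, fun ℓ hℓ hP => ?_⟩⟩⟩
  have hpos : 0 < ℓ := by
    have : (0 : ℝ) < ℓ := lt_of_lt_of_le (by positivity) hℓ
    exact_mod_cast this
  have := h1 _ _ _ (Nat.succ_pos N) hpos hP
  linarith

end Vale.Agent.P372
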