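import Vale.Agent.P372.Exact2
import Vale.Agent.P372.Zero.Assemble
import Vale.Agent.P372.Zero.Copies
import Vale.Agent.P372.Zero.Key
import Vale.Agent.P372.Zero.Link

/-!
An entangled state without distillable key.
-/

noncomputable section

open Matrix Finset
open scoped ComplexOrder Kronecker

namespace Vale.Agent.P372.Zero

theorem exists_zero_key : ∃ (dA dB : ℕ) (ρ : Matrix (Fin dA × Fin dB) (Fin dA × Fin dB) ℂ),
    IsState ρ ∧ ¬ IsSeparable ρ ∧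
    (∃ (r : ℕ) (G : Matrix (Fin dA × Fin dB) (Fin r) ℂ), G * Gᴴ = ρ) ∧
    ¬ HasPositiveKey ρ ∧
    ∀ (r : ℕ) (G : Matrix (Fin dA × Fin dB) (Fin r) ℂ), G * Gᴴ = ρ →
      (∀ (n ℓ : ℕ) (ε : ℝ), 0 < n → 0 < ℓ → ProtocolWithError G n ℓ ε → 1 / 5 ≤ ε) ∧
      ∀ c : ℝ, 0 < c → ∃ ε : ℝ, 0 < ε ∧
        ∀ M : ℕ, ∃ n, M ≤ n ∧ ∀ ℓ : ℕ, c * n ≤ ℓ → ¬ ProtocolWithError G n ℓ ε := by
  obtain ⟨N, dA, dB, l₀, ρ, S, R, γ, η, D, hst, hns, hcert⟩ := exists_certified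
  have hno : ¬ CopiesTest ρ := by
    rintro ⟨n, k, l, a₀, a₁, b₀, b₁, W, -, hW, hlt⟩
    exact absurd (cert_inequality (cert_copies hcert n) a₀ a₁ b₀ b₁ W hW) (not_le.2 hlt)
  refine ⟨dA, dB, ρ, hst, hns, ?_, fun h => hno ((key_iff_test hst).1 h),
    fun r G hG => no_key hno r G hG⟩
  obtain ⟨Q, hQ⟩ := exists_factor hst.1
  refine ⟨dA * dB, Q.submatrix (Equiv.refl _) finProdFinEquiv.symm, ?_⟩
  rw [conjTranspose_submatrix, submatrix_mul_equiv, ← hQ]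
  simp

end Vale.Agent.P372.Zero
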