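import Vale.Agent.P372.Zero.Defs

/-!
The operator norm and quadratic forms.
-/

noncomputable section

open Matrix Finset
open scoped ComplexOrder Matrix.Norms.L2Operator

namespace Vale.Agent.P372.Zero

variable {ι : Type} [Fintype ι] [DecidableEq ι]

omit [DecidableEq ι] in
theorem norm_toLp (u : ι → ℂ) : ‖(WithLp.toLp 2 u : EuclideanSpace ℂ ι)‖ = vn u := by
  simp [EuclideanSpace.norm_eq, vn, vsq, Complex.normSq_eq_norm_sq]

theorem vn_mulVec_le (X : Matrix ι ι ℂ) (v : ι → ℂ) : vn (X *ᵥ v) ≤ ‖X‖ * vn v := by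
  have h := Matrix.l2_opNorm_mulVec X (WithLp.toLp 2 v : EuclideanSpace ℂ ι)
  simpa [norm_toLp] using h

theorem dot_bound (X : Matrix ι ι ℂ) (x y : ι → ℂ) :
    ‖star x ⬝ᵥ X *ᵥ y‖ ≤ ‖X‖ * vn x * vn y :=
  (norm_dot_le x (X *ᵥ y)).trans <| by
    rw [mul_comm ‖X‖, mul_assoc]
    exact mul_le_mul_of_nonneg_left (vn_mulVec_le X y) (vn_nonneg x)

theorem norm_le_of {X : Matrix ι ι ℂ} {c : ℝ} (hc : 0 ≤ c)
    (h : ∀ v, vn (X *ᵥ v) ≤ c * vn v) : ‖X‖ ≤ c := by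
  rw [Matrix.l2_opNorm_def]
  refine ContinuousLinearMap.opNorm_le_bound _ hc fun v => ?_
  have h' := h (WithLp.ofLp v)
  rw [← norm_toLp, ← norm_toLp] at h'
  exact h'

theorem norm_one_le : ‖(1 : Matrix ι ι ℂ)‖ ≤ 1 :=
  norm_le_of zero_le_one fun v => by simp

theorem psd_of_norm {X : Matrix ι ι ℂ} (hX : X.IsHermitian) {c : ℝ} (h : ‖X‖ ≤ c) :
    ((c : ℂ) • 1 - X).PosSemidef := by
  refine PosSemidef.of_dotProduct_mulVec_nonneg
    ((isHermitian_one.smul (Complex.conj_ofReal c)).sub hX) fun v => ?_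
  have h1 : (star v ⬝ᵥ X *ᵥ v).re ≤ c * vsq v :=
    (Complex.re_le_norm _).trans <| (dot_bound X v v).trans <| by
      rw [mul_assoc, vn_mul_self]
      exact mul_le_mul_of_nonneg_right h (vsq_nonneg v)
  have h2 : (star v ⬝ᵥ X *ᵥ v).im = 0 := hX.im_star_dotProduct_mulVec_self v
  rw [sub_mulVec, smul_mulVec, one_mulVec, dotProduct_sub, dotProduct_smul, dot_self, smul_eq_mul,
    Complex.le_def]
  simp [h1, h2]

theorem norm_le_one_of_unitary {U : Matrix ι ι ℂ} (h : Uᴴ * U = 1) : ‖U‖ ≤ 1 := by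
  refine norm_le_of zero_le_one fun v => ?_
  have : (vsq (U *ᵥ v) : ℂ) = vsq v := by
    rw [← dot_self, star_mulVec, ← dotProduct_mulVec, mulVec_mulVec, h, one_mulVec, dot_self]
  rw [one_mul, vn, vn, show vsq (U *ᵥ v) = vsq v by exact_mod_cast this]

end Vale.Agent.P372.Zero
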