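import Vale.Agent.P372.Zero.Bridge

/-!
One pair of vectors against a certified map.
-/

noncomputable section

open Matrix Finset
open scoped ComplexOrder Kronecker

namespace Vale.Agent.P372.Zero

variable {A B ZA ZB PA PB : Type} [Fintype A] [Fintype B] [DecidableEq A] [DecidableEq B]
  [Fintype ZA] [Fintype ZB] [DecidableEq ZA] [DecidableEq ZB] [Fintype PA] [Fintype PB]
  [DecidableEq PA] [DecidableEq PB]

/-- The adjoint map. -/
def chanAdj {A Z P : Type} [Fintype A] [Fintype P] (K : P → Matrix Z A ℂ) (X : Matrix A A ℂ) :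
    Matrix Z Z ℂ :=
  ∑ p, K p * X * (K p)ᴴ

/-- The two vectors give a block witness. -/
theorem pair_witness {ρ : Matrix (A × B) (A × B) ℂ} {KA : PA → Matrix ZA A ℂ}
    {KB : PB → Matrix ZB B ℂ} {S : Matrix (ZA × ZB) (ZA × ZB) ℂ}
    {R : Matrix (A × B) (A × B) ℂ}
    {D : PA × PB → PA × PB → Matrix (ZA × ZB) (ZA × ZB) ℂ}
    (h : IsCert ρ KA KB S R D) (ψ φ : A × B → ℂ) {e : ℝ} (he : 0 < e) :
    ∃ X : Matrix (ZA × ZB) (ZA × ZB) ℂ, X.IsHermitian ∧
      (fromBlocks (chanAdj (prodKraus KA KB) (vecMulVec ψ (star ψ)) + (e : ℂ) • 1) X X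
        (chanAdj (prodKraus KA KB) (vecMulVec φ (star φ)) + (e : ℂ) • 1)).PosSemidef ∧
      ‖star ψ ⬝ᵥ ρ *ᵥ φ‖ ^ 2
        ≤ Real.sqrt ((star ψ ⬝ᵥ ρ *ᵥ ψ).re * (star φ ⬝ᵥ ρ *ᵥ φ).re) * (S * S * X).trace.re := by
  have hadj : ∀ M : Matrix (A × B) (A × B) ℂ,
      Stack.dual (Stack.kJ (stackK KA) (stackK KB)) M = chanAdj (prodKraus KA KB) M := fun M => by
    simp only [Stack.dual, chanAdj, kJ_stackK]
    refine Finset.sum_congr rfl fun p _ => ?_
    ext i j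
    rfl
  obtain ⟨X, hX, hblock, -, hle⟩ := h.data.pair ψ φ he
  rw [hadj, hadj] at hblock
  exact ⟨X, hX, hblock, hle⟩

end Vale.Agent.P372.Zero
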