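import Mathlib

/-!
Tensor powers of real two-by-two matrices, one factor per mode, acting on vector valued functions.
-/

noncomputable section

open Finset

namespace Vale.Agent.P372.Zero

variable {ι : Type} [Fintype ι] [DecidableEq ι]

/-- The tensor product of the matrices `f e`, over all modes `e`. -/
def piK (f : ι → Matrix Bool Bool ℝ) : Matrix (ι → Bool) (ι → Bool) ℝ :=
  Matrix.of fun R R' => ∏ e, f e (R e) (R' e)

lemma piK_mul (f g : ι → Matrix Bool Bool ℝ) : piK f * piK g = piK (fun e => f e * g e) := by
  ext R R'
  simp only [piK, Matrix.mul_apply, Matrix.of_apply, Fintype.prod_sum]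
  exact Finset.sum_congr rfl fun x _ => (Finset.prod_mul_distrib).symm

omit [DecidableEq ι] in
lemma piK_transpose (f : ι → Matrix Bool Bool ℝ) :
    (piK f).transpose = piK fun e => (f e).transpose := rfl

omit [DecidableEq ι] in
lemma piK_one : piK (fun _ : ι => (1 : Matrix Bool Bool ℝ)) = 1 := by
  ext R R'
  rcases eq_or_ne R R' with rfl | h
  · simp [piK]
  · obtain ⟨e, he⟩ := Function.ne_iff.1 h
    rw [Matrix.one_apply_ne h]
    exact prod_eq_zero (mem_univ e) (Matrix.one_apply_ne he)

variable {E : Type} [NormedAddCommGroup E] [InnerProductSpace ℂ E]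

/-- Vector valued functions on the sets of modes, with the Hilbert space norm. -/
abbrev Fun2 (ι : Type) (E : Type) := PiLp 2 fun _ : ι → Bool => E

/-- A real matrix acting on the mode index. -/
def act (M : Matrix (ι → Bool) (ι → Bool) ℝ) : Fun2 ι E →ₗ[ℂ] Fun2 ι E where
  toFun v := WithLp.toLp 2 fun R => ∑ R', (M R R' : ℂ) • v R'
  map_add' v w := by ext R; simp [smul_add, sum_add_distrib]
  map_smul' c v := by ext R; simp [smul_sum, smul_comm c]

@[simp] lemma act_apply (M : Matrix (ι → Bool) (ι → Bool) ℝ) (v : Fun2 ι E) (R : ι → Bool) :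
    act M v R = ∑ R', (M R R' : ℂ) • v R' := rfl

lemma act_mul (M N : Matrix (ι → Bool) (ι → Bool) ℝ) (v : Fun2 ι E) :
    act (M * N) v = act M (act N v) := by
  ext R
  simp only [act_apply, Matrix.mul_apply, Complex.ofReal_sum, Complex.ofReal_mul, sum_smul,
    smul_sum, smul_smul]
  exact Finset.sum_comm

lemma act_add (M N : Matrix (ι → Bool) (ι → Bool) ℝ) (v : Fun2 ι E) :
    act (M + N) v = act M v + act N v := by
  ext R; simp [add_smul, sum_add_distrib]

lemma inner_act (M : Matrix (ι → Bool) (ι → Bool) ℝ) (v w : Fun2 ι E) :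
    inner ℂ v (act M w) = inner ℂ (act M.transpose v) w := by
  simp only [PiLp.inner_apply, act_apply, inner_sum, sum_inner, inner_smul_left, inner_smul_right,
    Complex.conj_ofReal, Matrix.transpose_apply]
  exact Finset.sum_comm

/-- The matrices with a oneMode factor different from one. -/
def oneMode (e : ι) (m : Matrix Bool Bool ℝ) : ι → Matrix Bool Bool ℝ :=
  Function.update (fun _ => 1) e m

lemma piK_oneMode_apply (e : ι) (m : Matrix Bool Bool ℝ) (R R' : ι → Bool) :
    piK (oneMode e m) R R' = if ∀ x, x ≠ e → R x = R' x then m (R e) (R' e) else 0 := by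
  simp only [piK, Matrix.of_apply]
  rw [← mul_prod_erase univ _ (mem_univ e), oneMode, Function.update_self]
  split_ifs with h
  · rw [prod_eq_one fun x hx => ?_, mul_one]
    rw [Function.update_of_ne (ne_of_mem_erase hx), h x (ne_of_mem_erase hx), Matrix.one_apply_eq]
  · push Not at h
    obtain ⟨x, hx, hne⟩ := h
    rw [prod_eq_zero (mem_erase.2 ⟨hx, mem_univ x⟩), mul_zero]
    rw [Function.update_of_ne hx, Matrix.one_apply_ne hne]

lemma act_oneMode (e : ι) (m : Matrix Bool Bool ℝ) (v : Fun2 ι E) (R : ι → Bool) :
    act (piK (oneMode e m)) v R = ∑ b, (m (R e) b : ℂ) • v (Function.update R e b) := by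
  rw [act_apply]
  refine (Finset.sum_of_injOn (fun b => Function.update R e b) ?_ (fun _ _ => by simp) ?_ ?_).symm
  · exact fun a _ b _ h => by simpa using congrFun h e
  · intro R' _ hR'
    rw [piK_oneMode_apply, if_neg, Complex.ofReal_zero, zero_smul]
    exact fun h => hR' ⟨R' e, by simp, funext fun x => by
      rcases eq_or_ne x e with rfl | hx
      · simp
      · simp [Function.update_of_ne hx, h x hx]⟩
  · intro b _
    rw [piK_oneMode_apply, if_pos fun x hx => by rw [Function.update_of_ne hx],
      Function.update_self]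

/-- One factor with entries at most `c` has norm at most `2 c`. -/
lemma norm_act_oneMode (e : ι) {m : Matrix Bool Bool ℝ} {c : ℝ} (hm : ∀ a b, |m a b| ≤ c)
    (v : Fun2 ι E) : ‖act (piK (oneMode e m)) v‖ ≤ 2 * c * ‖v‖ := by
  have hc : 0 ≤ c := (abs_nonneg _).trans (hm true true)
  refine pow_le_pow_iff_left₀ (norm_nonneg _) (by positivity) two_ne_zero |>.1 ?_
  rw [mul_pow, PiLp.norm_sq_eq_of_L2, PiLp.norm_sq_eq_of_L2]
  have hb : ∀ R : ι → Bool, ‖act (piK (oneMode e m)) v R‖ ^ 2 ≤
      2 * c ^ 2 * ∑ b, ‖v (Function.update R e b)‖ ^ 2 := fun R => by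
    rw [act_oneMode, Fintype.sum_bool, Fintype.sum_bool]
    set x := ‖v (Function.update R e true)‖
    set y := ‖v (Function.update R e false)‖
    have h : ‖(m (R e) true : ℂ) • v (Function.update R e true) +
        (m (R e) false : ℂ) • v (Function.update R e false)‖ ≤ c * (x + y) := by
      refine (norm_add_le _ _).trans ?_
      rw [norm_smul, norm_smul, Complex.norm_real, Complex.norm_real, Real.norm_eq_abs,
        Real.norm_eq_abs, mul_add]
      exact add_le_add (mul_le_mul_of_nonneg_right (hm _ _) (norm_nonneg _))
        (mul_le_mul_of_nonneg_right (hm _ _) (norm_nonneg _))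
    have := pow_le_pow_left₀ (norm_nonneg _) h 2
    nlinarith [mul_nonneg (sq_nonneg c) (sq_nonneg (x - y))]
  refine (sum_le_sum fun R _ => hb R).trans ?_
  rw [← mul_sum, sum_comm]
  have hsum : ∀ b, ∑ R : ι → Bool, ‖v (Function.update R e b)‖ ^ 2 =
      2 * ∑ R ∈ univ.filter (fun R : ι → Bool => R e = b), ‖v R‖ ^ 2 := fun b => by
    rw [← sum_fiberwise univ (fun R => Function.update R e b), mul_sum, sum_filter]
    refine sum_congr rfl fun S _ => ?_
    split_ifs with hS
    · have : (univ.filter fun R : ι → Bool => Function.update R e b = S) =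
          {Function.update S e true, Function.update S e false} := by
        ext R
        simp only [mem_filter, mem_univ, true_and, mem_insert, mem_singleton]
        constructor
        · rintro rfl
          have hR : R = Function.update R e (R e) := (Function.update_eq_self e R).symm
          rcases Bool.eq_false_or_eq_true (R e) with h | h <;>
            simp only [Function.update_idem] <;> [left; right] <;> rw [← h] <;> exact hR
        · rintro (rfl | rfl) <;> rw [Function.update_idem, ← hS, Function.update_eq_self]
      rw [this, sum_pair (fun h => by simpa using congrFun h e), Function.update_idem,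
        Function.update_idem, ← hS, Function.update_eq_self]
      ring
    · rw [sum_eq_zero fun R hR => ?_]
      simp only [mem_filter, mem_univ, true_and] at hR
      exact absurd (by rw [← hR, Function.update_self]) hS
  simp only [hsum, ← mul_sum, sum_fiberwise]
  linarith [sum_nonneg fun (R : ι → Bool) (_ : R ∈ univ) => sq_nonneg ‖v R‖]

end Vale.Agent.P372.Zero
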